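import Vale.Agent.P297Z.Top.Fix
import Vale.Agent.P297Z.Quot.Sk
import Vale.Agent.P297Z.Quot.SurS
import Vale.Agent.P297Z.Hb.GeoFib
import Vale.Agent.P297Z.Hb.TowDefs
import Vale.Agent.P297Z.Surf.SspB2

/-! P297: the fixed components of the Quot space: definitions. -/

set_option linter.all false

noncomputable section

namespace Vale.Agent.P297Z

namespace Plk

variable {A : Type} [CommRing A] {r r₁ r₂ : ℕ} {B B₁ B₂ : Type}

/-- the concatenation of two indices -/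
def cat (σ : Fin r₁ ⊕ Fin r₂ ≃ Fin r) (J₁ : Fin r₁ → B₁) (J₂ : Fin r₂ → B₂) : Fin r → B₁ ⊕ B₂ :=
  fun b => Sum.map J₁ J₂ (σ.symm b)

/-- the index is a permutation of a concatenation -/
def Spl (σ : Fin r₁ ⊕ Fin r₂ ≃ Fin r) (J : Fin r → B₁ ⊕ B₂)
    (t : Equiv.Perm (Fin r) × (Fin r₁ → B₁) × (Fin r₂ → B₂)) : Prop :=
  J ∘ t.1 = cat σ t.2.1 t.2.2

open Classical in
/-- the exterior product of coordinates -/
def wed (σ : Fin r₁ ⊕ Fin r₂ ≃ Fin r) (p₁ : (Fin r₁ → B₁) → A) (p₂ : (Fin r₂ → B₂) → A)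
    (J : Fin r → B₁ ⊕ B₂) : A :=
  if h : ∃ t, Spl σ J t then
    ((Equiv.Perm.sign h.choose.1 : ℤˣ) : ℤ) • (p₁ h.choose.2.1 * p₂ h.choose.2.2) else 0

/-- the block matrix -/
def blk (σ : Fin r₁ ⊕ Fin r₂ ≃ Fin r) (u₁ : Fin r₁ → B₁ → A) (u₂ : Fin r₂ → B₂ → A) :
    Fin r → B₁ ⊕ B₂ → A :=
  fun a => Sum.elim (fun c => Sum.elim (u₁ c) 0) (fun c => Sum.elim 0 (u₂ c)) (σ.symm a)

/-- alternating coordinates -/
def Alt (p : (Fin r → B) → A) : Prop :=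
  ∀ (J : Fin r → B) (π : Equiv.Perm (Fin r)), p (J ∘ π) = ((Equiv.Perm.sign π : ℤˣ) : ℤ) • p J

/-- the number of entries in the second summand -/
def cnt (J : Fin r → B₁ ⊕ B₂) : ℤ := ∑ b, Sum.elim (fun _ => (0 : ℤ)) (fun _ => 1) (J b)

/-- the derivative of the exterior product -/
def dwed (σ : Fin r₁ ⊕ Fin r₂ ≃ Fin r) (p₁ : (Fin r₁ → B₁) → ℂ) (p₂ : (Fin r₂ → B₂) → ℂ)
    (τ₁ : (Fin r₁ → B₁) → ℂ) (τ₂ : (Fin r₂ → B₂) → ℂ) : (Fin r → B₁ ⊕ B₂) → ℂ :=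
  fun J => wed σ τ₁ p₂ J + wed σ p₁ τ₂ J

/-- the sum of two linear maps -/
def dsum (φ₁ : (B₁ → ℂ) →ₗ[ℂ] (B₁ → ℂ)) (φ₂ : (B₂ → ℂ) →ₗ[ℂ] (B₂ → ℂ)) :
    (B₁ ⊕ B₂ → ℂ) →ₗ[ℂ] (B₁ ⊕ B₂ → ℂ) where
  toFun := fun v => Sum.elim (φ₁ fun i => v (.inl i)) (φ₂ fun i => v (.inr i))
  map_add' := fun v v' => funext fun i => by
    rcases i with i | i
    · exact congrFun (φ₁.map_add (fun i => v (.inl i)) fun i => v' (.inl i)) i
    · exact congrFun (φ₂.map_add (fun i => v (.inr i)) fun i => v' (.inr i)) i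
  map_smul' := fun c v => funext fun i => by
    rcases i with i | i
    · exact congrFun (φ₁.map_smul c fun i => v (.inl i)) i
    · exact congrFun (φ₂.map_smul c fun i => v (.inr i)) i

/-- the tangent space of the cone over the Grassmannian -/
def TG (r : ℕ) (B : Type) [Fintype B] [DecidableEq B] (p : (Fin r → B) → ℂ) :
    Submodule ℂ ((Fin r → B) → ℂ) where
  carrier := Qt.Tq (IPl ℂ r B) p
  zero_mem' := fun a _ => by simp [Qt.dd]
  add_mem' := fun {τ τ'} h h' a ha => by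
    have := congrArg₂ (· + ·) (h a ha) (h' a ha)
    simpa only [Qt.dd, Pi.add_apply, add_mul, Finset.sum_add_distrib, add_zero] using this
  smul_mem' := fun t τ h a ha => by
    have := congrArg (t * ·) (h a ha)
    simpa only [Qt.dd, Pi.smul_apply, smul_eq_mul, mul_assoc, ← Finset.mul_sum, mul_zero] using this

/-- the tangent vector moves the subspace by the map `φ` -/
def Mov {B : Type} (p τ : (Fin r → B) → ℂ) (φ : (B → ℂ) →ₗ[ℂ] (B → ℂ)) : Prop :=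
  ∀ s, Qt.vec τ s - φ (Qt.vec p s) ∈ sub p

end Plk

namespace Sf

open Fb Pw

variable {K : Type} [Field K] [Algebra ℂ K] {S : Surf K}

namespace Ctx

variable (c : Ctx S)

/-- the class of the tangent bundle -/
def Tc (h : S.All) (r : ℕ) : K0 (c.Xr r) :=
  (c.v + 1 : ℕ) • pullK (c.pr r) (OP c.v 1) - pK _ (S.spc h) (dualK _ (c.Ecl h r) * c.Ecl h r)

theorem exists_basis (h : S.All) {D : Div S.W} (hD : H0 D ≠ ⊥) :
    ∃ φ : Fin ((h0 D - 1).toNat + 1) → K, LinearIndependent ℂ φ ∧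
      Submodule.span ℂ (Set.range φ) = H0 D := by
  haveI : FiniteDimensional ℂ (H0 D) := by
    have := (h.fg D).1 0
    rwa [M, zero_smul, add_zero] at this
  have h1 : Module.finrank ℂ (H0 D) ≠ 0 := fun e => hD (Submodule.finrank_eq_zero.1 e)
  let b := Module.finBasisOfFinrankEq ℂ (H0 D) (n := (h0 D - 1).toNat + 1) (by rw [h0]; omega)
  refine ⟨fun a => b a, b.linearIndependent.map' (H0 D).subtype (H0 D).ker_subtype, ?_⟩
  have := congrArg (Submodule.map (H0 D).subtype) b.span_eq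
  rwa [Submodule.map_span, Submodule.map_top, Submodule.range_subtype, ← Set.range_comp] at this

/-- the same data for another divisor -/
def re (h : S.All) (D : Div S.W) (hD : H0 D ≠ ⊥) : Ctx S :=
  { c with
    D := D
    v := (h0 D - 1).toNat
    φ := (exists_basis h hD).choose
    φ_ind := (exists_basis h hD).choose_spec.1
    φ_span := (exists_basis h hD).choose_spec.2 }

/-- all points of the space are subsheaves -/
abbrev Cl (r : ℕ) : Prop := Spc.Clo _ (c.XS r)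

/-- what is used of the top of a tower, a space of dimension `e` -/
structure Tb (h : S.All) (e r : ℕ) : Prop where
  clo : c.Cl r
  var : (c.Xr r).IsVar e
  flat : (c.famV r).Flat S 1
  inj : (c.gr r).Inj
  unr : (c.gr r).Unr
  eq : ∀ z, c.TT r z = c.Alt r ⊓ ((c.famV r).Tq S z).comap (c.β r)
  sb : (c.cR r).Sb (c.TT r) (e + 1)
  cl : (c.cR r).cl (c.TT r) (e + 1) = c.Tc h r + 1

end Ctx

/-- the data of the Quot space of a sum of two line bundles -/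
structure Two (S : Surf K) where
  c₁ : Ctx S
  c₂ : Ctx S
  hm : c₂.m = c₁.m
  l : ℕ
  c : ℤ
  r : ℕ

namespace Two

variable (P : Two S) (h : S.All)

/-- the two divisors -/
def Ld (a : Bool) : Div S.W := cond a P.c₂.L P.c₁.L

/-- the summand of a basis vector -/
def sd : P.c₁.B ⊕ P.c₂.B → Bool := Sum.elim (fun _ => false) fun _ => true

/-- the basis vectors -/
def ev : P.c₁.B ⊕ P.c₂.B → K := Sum.elim P.c₁.e P.c₂.e

theorem ev_mem (i : P.c₁.B ⊕ P.c₂.B) : P.ev i ∈ M (P.Ld (P.sd i)) P.c₁.m := by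
  rcases i with i | i
  · exact P.c₁.e_span ▸ Submodule.subset_span ⟨i, rfl⟩
  · exact P.hm ▸ P.c₂.e_span ▸ Submodule.subset_span ⟨i, rfl⟩

/-- the data of the Quot space -/
def dat : Qt.Dat (S.spc h) where
  ι := Bool
  L := fun a => ⟨S.lb h (P.Ld a), 1, Sl.lb_isBun S h _⟩
  w := fun a => cond a 1 0
  l := P.l
  c := P.c
  m := P.c₁.m
  β := P.c₁.B ⊕ P.c₂.B
  a := P.sd
  e := fun i => S.sec P.c₁.m (P.ev i) (P.ev_mem i)
  e_wt := fun i => Sl.sec_mem_wt S h _ _ _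
  r := P.r

/-- the coefficients of degree `j` -/
def cv (j : ℤ) : (P.dat h).V.M →ₗ[ℂ] K × K where
  toFun := fun v => ((show S.lbS P.c₁.L from v false).1.coeff j,
    (show S.lbS P.c₂.L from v true).1.coeff j)
  map_add' := fun _ _ => rfl
  map_smul' := fun _ _ => rfl

/-- the basis vectors in the sum -/
def eK : P.c₁.B ⊕ P.c₂.B → K × K := Sum.elim (fun b => (P.c₁.e b, 0)) fun b => (0, P.c₂.e b)

/-- the vector with given coordinates -/
def lc : (P.c₁.B ⊕ P.c₂.B → ℂ) →ₗ[ℂ] K × K := Fintype.linearCombination ℂ P.eK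

/-- the family given by coordinates -/
def fam {W : Spc} (c : (P.dat h).Crd W) : Fam K W (K × K) where
  D := fun g => (algebraMap ℂ K (chr (-c.τ false) g) • LinearMap.id).prodMap
    (algebraMap ℂ K (chr (-c.τ true) g) • LinearMap.id)
  m := P.c₁.m
  B := P.c₁.B ⊕ P.c₂.B
  e := P.eK
  τ := fun b => -c.τ (P.sd b)
  e_wt := by
    rintro (b | b) g
    · exact Prod.ext (algebraMap_smul K _ _)
        ((smul_zero (A := K) (algebraMap ℂ K _)).trans (smul_zero (A := K) (chr _ g)).symm)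
    · exact Prod.ext ((smul_zero (A := K) (algebraMap ℂ K _)).trans (smul_zero (A := K) (chr _ g)).symm)
        (algebraMap_smul K _ _)
  ι := (P.dat h).Sx
  γ := fun s => c.e + ∑ b ∈ Finset.univ.erase s.2, c.τ (P.sd (s.1 b))
  g := Qt.vec c.y
  g_wt := fun s (i : (P.dat h).β) => by
    refine Qt.wt_eq (c.y_wt _) ?_
    change c.e + ∑ b, c.τ ((P.dat h).a (Function.update s.1 s.2 i b)) =
      c.e + ∑ b ∈ Finset.univ.erase s.2, c.τ ((P.dat h).a (s.1 b)) - -c.τ ((P.dat h).a i)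
    rw [← Finset.add_sum_erase _ _ (Finset.mem_univ s.2), Function.update_self,
      Finset.sum_congr rfl fun b hb => by rw [Function.update_of_ne (Finset.ne_of_mem_erase hb)]]
    abel

/-- the same data for other divisors -/
def re (D₁ D₂ : Div S.W) (h₁ : H0 D₁ ≠ ⊥) (h₂ : H0 D₂ ≠ ⊥) : Two S :=
  { P with c₁ := P.c₁.re h D₁ h₁, c₂ := P.c₂.re h D₂ h₂ }

theorem dat_re (D₁ D₂ : Div S.W) (h₁ : H0 D₁ ≠ ⊥) (h₂ : H0 D₂ ≠ ⊥) :
    (P.re h D₁ D₂ h₁ h₂).dat h = P.dat h := rfl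

/-- the hypotheses -/
structure Ok : Prop where
  ok : (P.dat h).Ok (sur S h)
  reg₁ : ∀ Z : Zs S.W, Z.len = 0 → Reg S P.c₁.m P.c₁.L Z
  reg₂ : ∀ Z : Zs S.W, Z.len = 0 → Reg S P.c₂.m P.c₂.L Z
  van : ∀ (a : Bool) (D : Div S.W), inter S.H D ≤ P.l → ∀ j : ℤ, P.c₁.m ≤ j →
    H0 (S.kap - (P.Ld a - D + j • S.H)) = ⊥

/-- the Hilbert polynomial of the quotient -/
def Hp (A₁ A₂ : Div S.W) (n₁ n₂ : ℕ) : Prop := ∀ k : ℤ,
  chi (P.c₁.L + k • S.H) - chi (A₁ + k • S.H) + n₁ +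
    (chi (P.c₂.L + k • S.H) - chi (A₂ + k • S.H) + n₂) = P.l * k + P.c

/-- the type of a point that is a direct sum -/
structure Typ (q : (Fin P.r → P.c₁.B ⊕ P.c₂.B) → ℂ) (D₁ D₂ : Div S.W) (Z₁ Z₂ : Zs S.W) :
    Prop where
  rel : Plk.Rel q
  ne : q ≠ 0
  eff₁ : 0 ≤ D₁
  eff₂ : 0 ≤ D₂
  hp : P.Hp (P.c₁.L - D₁) (P.c₂.L - D₂) Z₁.len Z₂.len
  reg₁ : Reg S P.c₁.m (P.c₁.L - D₁) Z₁
  reg₂ : Reg S P.c₁.m (P.c₂.L - D₂) Z₂
  sub : (Plk.sub q).map P.lc =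
    (EM Z₁ (P.c₁.L - D₁) P.c₁.m).prod (EM Z₂ (P.c₂.L - D₂) P.c₁.m)

section comp

variable {r₁ r₂ : ℕ} (σ : Fin r₁ ⊕ Fin r₂ ≃ Fin P.r)

/-- the product -/
abbrev X (r₁ r₂ : ℕ) : Spc := (P.c₁.Xr r₁).prod (P.c₂.Xr r₂)

/-- the first projection -/
def π₁ (r₁ r₂ : ℕ) : Mor ((P.X r₁ r₂).prod ptT) (P.c₁.Xr r₁) := (Mor.fst _ _).comp (Mor.fst _ _)

/-- the second projection -/
def π₂ (r₁ r₂ : ℕ) : Mor ((P.X r₁ r₂).prod ptT) (P.c₂.Xr r₂) := (Mor.snd _ _).comp (Mor.fst _ _)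

/-- the coordinates of the direct sum -/
def y (J : Fin P.r → P.c₁.B ⊕ P.c₂.B) : ((P.X r₁ r₂).prod ptT).R :=
  Plk.wed σ (fun J => (P.π₁ r₁ r₂).φ (P.c₁.pl r₁ J)) (fun J => (P.π₂ r₁ r₂).φ (P.c₂.pl r₂ J)) J

/-- the degree of the coordinates -/
def dy (r₁ r₂ : ℕ) : ((P.X r₁ r₂).prod ptT).J → ℤ :=
  (P.π₁ r₁ r₂).ρ (P.c₁.dp r₁) + (P.π₂ r₁ r₂).ρ (P.c₂.dp r₂)

/-- the coordinates of a pair of points -/
def q (a₁ : (P.c₁.Xr r₁).Pt) (a₂ : (P.c₂.Xr r₂).Pt) : (Fin P.r → P.c₁.B ⊕ P.c₂.B) → ℂ :=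
  Plk.wed σ (P.c₁.pz a₁) (P.c₂.pz a₂)

/-- a map to the Pluecker space that is given by the coordinates of the direct sum -/
structure IsJ (j : Mor ((P.X r₁ r₂).prod ptT) (P.dat h).Pol) : Prop where
  φ : ∀ J, j.φ ((P.dat h).X J) = P.y σ J
  ρ : ∀ γ, j.ρ γ = (Mor.snd _ ptT).ρ (fun _ => γ (some ()) - γ none * r₂) + γ none • P.dy r₁ r₂

end comp

end Two

end Sf

end Vale.Agent.P297Z
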