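import Vale.Agent.P297Z.Cp.MainA
import Vale.Agent.P297Z.Cp.Defs
import Vale.Agent.P297Z.Top.Stage
import Vale.Agent.P297Z.Hb.ObDefs
import Vale.Agent.P297Z.Quot.Hcl
import Vale.Agent.P297Z.Quot.Kx
import Vale.Agent.P297Z.Quot.Fbk
import Vale.Agent.P297Z.Quot.Flb
import Vale.Agent.P297Z.Quot.NatQ
import Vale.Agent.P297Z.Quot.Pts
import Vale.Agent.P297Z.Quot.RegB
import Vale.Agent.P297Z.Quot.Kosp
import Vale.Agent.P297Z.Quot.Exk
import Vale.Agent.P297Z.Quot.H1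
import Vale.Agent.P297Z.Quot.Cls
import Vale.Agent.P297Z.Quot.Bas
import Vale.Agent.P297Z.Quot.Fam
import Vale.Agent.P297Z.Quot.Hbq

/-! P297: the numerical types of the fixed components. -/

set_option linter.all false

noncomputable section

namespace Vale.Agent.P297Z

namespace Qt

variable {W W' Y : Spc} {S : Sur Y} {D : Dat Y}

theorem Dat.Ok.pts (hD : D.Ok S) : Pts S D := Qt.pts bas Y S D hD

theorem Dat.Ok.fm (hD : D.Ok S) (c : D.Crd W) (hc : ∀ z, D.Pt (c.cz z)) : Fm S c :=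
  fam fbk flb bas W Y S D c fun z => hD.pts.reg _ (hc z)

theorem Dat.Ok.nat (hD : D.Ok S) (c : D.Crd W) (hc : ∀ z, D.Pt (c.cz z)) (g : Mor W' W) :
    pullK (g.map (Mor.id Y)) c.eK = (c.pull g).eK :=
  (Qt.nat fbk flb fam bas W W' Y D c g).eK S fun z => hD.pts.reg _ (hc z)

theorem Dat.Ok.hdk (hD : D.Ok S) (c : D.Crd W) (hc : ∀ z, D.Pt (c.cz z)) (hW : W.Cn) (z : W.Pt) :
    (D.hd (c.cz z) : ℤ) =
      Fintype.card D.Sx * D.p D.m - rk W (pK W Y (dualK _ c.eK * (c.vK - c.eK))) :=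
  (hcl fbk flb fam hb cls' resh bas kosp exk h1 Qt.pts kx W Y S D c hD hc).hdk hW z

end Qt

namespace Sf

open Fb Gl

variable {K : Type} [Field K] [Algebra ℂ K] {S : Surf K}

/-- the towers -/
def TOWER : Prop := ForAll fun S => ∀ (h : S.All) (c : Ctx S) (n r : ℕ), c.Ok r → c.Big h r →
  n + r = c.s → c.Tb h (c.v + 2 * n) r ∧
  ∃ T : Tower (S.spc h) (S.lK h c.L) (S.lK h (c.L - c.D)) c.v n (h0 c.D - chi c.D).toNat,
    T.X n = c.Xr r ∧ HEq (T.E n) (c.Ecl h r) ∧ HEq (T.p n) (c.pr r)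

/-- the Euler characteristic of the twisted quotient -/
def tw {W : Submodule ℂ K} (L₁ L₂ D₁ D₂ : Div W) (n₁ n₂ : ℕ) (B : Div W) : ℤ :=
  chi (B + L₁) - chi (B + (L₁ - D₁)) + n₁ + (chi (B + L₂) - chi (B + (L₂ - D₂)) + n₂)

/-- the numerical type of a fixed locus -/
structure Lc {W : Submodule ℂ K} (L₁ L₂ β : Div W) (c₀ : ℤ) (D₁ D₂ : Div W) (n₁ n₂ : ℕ) :
    Prop where
  eff₁ : H0 D₁ ≠ ⊥
  eff₂ : H0 D₂ ≠ ⊥
  num : ∀ B, tw L₁ L₂ D₁ D₂ n₁ n₂ B = inter B β + c₀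

theorem tw_eq (h : S.All) (L₁ L₂ D₁ D₂ : Div S.W) (n₁ n₂ : ℕ) (B : Div S.W) :
    2 * tw L₁ L₂ D₁ D₂ n₁ n₂ B = 2 * inter B (D₁ + D₂) + 2 * inter L₁ D₁ + 2 * inter L₂ D₂ -
      inter D₁ D₁ - inter D₂ D₂ - inter S.kap (D₁ + D₂) + 2 * n₁ + 2 * n₂ := by
  have a1 := h.rr (B + L₁)
  have a2 := h.rr (B + (L₁ - D₁))
  have a3 := h.rr (B + L₂)
  have a4 := h.rr (B + (L₂ - D₂))
  have s1 := inter_comm D₁ B
  have s2 := inter_comm D₂ B
  have s3 := inter_comm D₁ L₁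
  have s4 := inter_comm D₂ L₂
  rw [tw]
  simp only [← interHom_apply h.toRR, map_add, map_sub, AddMonoidHom.add_apply,
    AddMonoidHom.sub_apply] at *
  omega

theorem lc_iff (h : S.All) {lam β D₁ D₂ : Div S.W} {c : ℤ} {n₁ n₂ : ℕ} :
    IsLocus lam β c D₁ D₂ n₁ n₂ ↔ Lc lam 0 β (chi lam - chi (lam - β) + c) D₁ D₂ n₁ n₂ := by
  have a1 := h.rr lam
  have a2 := h.rr (lam - β)
  have key : (∀ x, inter (D₁ + D₂) x = inter β x) → ∀ B,
      tw lam 0 D₁ D₂ n₁ n₂ B - (inter B β + (chi lam - chi (lam - β) + c)) =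
        n₁ + n₂ - (c + inter (lam - D₁) D₂) := by
    intro hs B
    have a3 := tw_eq h lam 0 D₁ D₂ n₁ n₂ B
    have a4 := hs B
    have a5 := hs lam
    have a6 := hs S.kap
    have a7 := hs β
    have a8 := hs D₁
    have a9 := hs D₂
    have s1 := inter_comm D₁ B
    have s2 := inter_comm D₂ B
    have s3 := inter_comm D₁ lam
    have s4 := inter_comm D₂ lam
    have s5 := inter_comm D₁ S.kap
    have s6 := inter_comm D₂ S.kap
    have s7 := inter_comm β S.kap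
    have s8 := inter_comm β lam
    have s9 := inter_comm β B
    have s10 := inter_comm β D₁
    have s11 := inter_comm β D₂
    have s12 := inter_comm D₁ D₂
    simp only [← interHom_apply h.toRR, map_add, map_sub, map_zero, AddMonoidHom.add_apply,
      AddMonoidHom.sub_apply, AddMonoidHom.zero_apply] at *
    omega
  refine ⟨fun hl => ⟨hl.eff₁, hl.eff₂, fun B => ?_⟩, fun hl => ?_⟩
  · have := key hl.sum B
    have := hl.num
    omega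
  · have hs : ∀ x, inter (D₁ + D₂) x = inter β x := fun x => by
      have a3 := tw_eq h lam 0 D₁ D₂ n₁ n₂ x
      have a4 := tw_eq h lam 0 D₁ D₂ n₁ n₂ 0
      rw [hl.num] at a3 a4
      rw [inter_comm _ x, inter_comm _ x]
      simp only [← interHom_apply h.toRR, map_zero, AddMonoidHom.zero_apply] at *
      omega
    refine ⟨hl.eff₁, hl.eff₂, hs, ?_⟩
    have := key hs 0
    have := hl.num 0
    omega

theorem H0_ne_of_eff {W : Submodule ℂ K} {D : Div W} (hD : 0 ≤ D) : H0 D ≠ ⊥ := fun e => by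
  have : (1 : K) ∈ H0 D := Or.inr fun C _ => by
    have h1 : C.ord 1 = 0 := by simpa using C.ord_const 1
    rw [h1, zero_add]
    exact hD C
  rw [e] at this
  exact one_ne_zero ((Submodule.mem_bot ℂ).1 this)

theorem Lin.refl (h : S.All) (D : Div S.W) : Lin D D :=
  (lin_iff S h _ _).2 (by rw [sub_self]; exact zero_mem _)

theorem Lin.symm (h : S.All) {D D' : Div S.W} (e : Lin D D') : Lin D' D :=
  (lin_iff S h _ _).2 (by rw [← neg_sub]; exact neg_mem ((lin_iff S h _ _).1 e))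

theorem Lin.trans (h : S.All) {D D' D'' : Div S.W} (e : Lin D D') (e' : Lin D' D'') : Lin D D'' :=
  (lin_iff S h _ _).2 (by
    rw [← sub_add_sub_cancel _ D']
    exact add_mem ((lin_iff S h _ _).1 e') ((lin_iff S h _ _).1 e))

theorem Lin.sec (h : S.All) {D D' : Div S.W} (e : Lin D' D) (hD : 0 ≤ D') :
    ∃ f ∈ H0 D, f ≠ 0 ∧ D' = D + div S.W f := by
  obtain ⟨f, hf, e⟩ := e.symm h
  refine ⟨f, Or.inr fun C _ => ?_, hf, e⟩
  have := hD C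
  rwa [e, Finsupp.add_apply, div_apply h.toLoc.toLoc2, add_comm] at this

theorem chi_sub_div (h : S.All) (B L D : Div S.W) {f : K} (hf : f ≠ 0) :
    chi (B + (L - (D + div S.W f))) = chi (B + (L - D)) := by
  rw [← h.lin _ f hf]
  congr 1
  abel

theorem tw_div (h : S.All) (L₁ L₂ D₁ D₂ : Div S.W) (n₁ n₂ : ℕ) {f₁ f₂ : K} (h₁ : f₁ ≠ 0)
    (h₂ : f₂ ≠ 0) (B : Div S.W) :
    tw L₁ L₂ (D₁ + div S.W f₁) (D₂ + div S.W f₂) n₁ n₂ B = tw L₁ L₂ D₁ D₂ n₁ n₂ B := by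
  rw [tw, tw, chi_sub_div h _ _ _ h₁, chi_sub_div h _ _ _ h₂]

theorem Lc.hp (h : S.All) {L₁ L₂ β D₁ D₂ : Div S.W} {c₀ : ℤ} {n₁ n₂ : ℕ}
    (hl : Lc L₁ L₂ β c₀ D₁ D₂ n₁ n₂) (k : ℤ) :
    chi (L₁ + k • S.H) - chi (L₁ - D₁ + k • S.H) + n₁ +
      (chi (L₂ + k • S.H) - chi (L₂ - D₂ + k • S.H) + n₂) = inter S.H β * k + c₀ := by
  have := hl.num (k • S.H)
  rw [tw, ← interHom_apply h.toRR, map_zsmul, AddMonoidHom.zsmul_apply, interHom_apply,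
    smul_eq_mul, mul_comm] at this
  simpa only [add_comm (k • S.H)] using this

/-- the virtual dimension -/
def vdim (S : Surf K) (L₁ L₂ β : Div S.W) (c₀ : ℤ) : ℤ :=
  2 * c₀ - inter (L₁ + L₂) β + inter β β

theorem rk_vt_eq (h : S.All) (hD : DRk (S.spc h)) {L₁ L₂ β D₁ D₂ : Div S.W} {c₀ : ℤ}
    {n₁ n₂ v₁ v₂ o₁ o₂ : ℕ} (hl : Lc L₁ L₂ β c₀ D₁ D₂ n₁ n₂)
    (T₁ : Tower (S.spc h) (S.lK h L₁) (S.lK h (L₁ - D₁)) v₁ n₁ o₁)
    (T₂ : Tower (S.spc h) (S.lK h L₂) (S.lK h (L₂ - D₂)) v₂ n₂ o₂) :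
    rk _ (Tp.vt (S.lK h L₁) (S.lK h L₂) T₁.tp T₂.tp) = vdim S L₁ L₂ β c₀ := by
  have hS := SA.isProj h
  rw [rk_vt T₁ T₂ hS, rk_bz T₁ hS hD (Sl.rk_lK S h _), rk_bz T₂ hS hD (Sl.rk_lK S h _),
    rk_bP T₁ T₂ hS hD (Sl.rk_lK S h _), rk_bM T₁ T₂ hS hD (Sl.rk_lK S h _)]
  simp only [chiG_hom]
  have a1 := hl.num (-(L₁ - D₁))
  have a2 := hl.num (-(L₂ - D₂))
  have a3 := tw_eq h L₁ L₂ D₁ D₂ n₁ n₂ β
  have a4 := tw_eq h L₁ L₂ D₁ D₂ n₁ n₂ 0
  have a5 := tw_eq h L₁ L₂ D₁ D₂ n₁ n₂ D₁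
  have a6 := tw_eq h L₁ L₂ D₁ D₂ n₁ n₂ D₂
  rw [hl.num] at a3 a4 a5 a6
  simp only [tw, neg_add_eq_sub] at a1 a2
  have s1 := inter_comm D₁ β
  have s2 := inter_comm D₂ β
  rw [vdim]
  simp only [← interHom_apply h.toRR, map_add, map_sub, map_neg, map_zero, AddMonoidHom.add_apply,
    AddMonoidHom.sub_apply, AddMonoidHom.neg_apply, AddMonoidHom.zero_apply] at *
  omega

end Sf

end Vale.Agent.P297Z
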