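import Vale.Agent.P297Z.Cp.Dic
import Vale.Agent.P297Z.Surf.NumI
import Vale.Agent.P297Z.Quot.Big

/-! P297: direct sums of subsheaves of rank one are regular. -/

set_option linter.all false

open Filter

noncomputable section

namespace Vale.Agent.P297Z.Sf

open Fb Pw

variable {K : Type} [Field K] [Algebra ℂ K] {S : Surf K}

namespace PtA

theorem chi_add (h : S.All) (A : Div S.W) (k : ℤ) : 2 * chi (A + k • S.H) =
    2 * chi A + k * (2 * inter S.H A - inter S.H S.kap) + k ^ 2 * inter S.H S.H := by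
  rw [h.rr, h.rr A, inter_comm S.H S.kap]
  have e := inter_comm A S.H
  simp only [← interHom_apply h.toRR, map_add, map_zsmul, AddMonoidHom.add_apply,
    AddMonoidHom.smul_apply, smul_eq_mul] at e ⊢
  rw [e]
  ring

theorem chi_diff (h : S.All) (L D : Div S.W) (k : ℤ) :
    chi (L + k • S.H) - chi (L - D + k • S.H) = chi L - chi (L - D) + k * inter S.H D := by
  have h1 := chi_add h L k
  have h2 := chi_add h (L - D) k
  have h3 : inter S.H (L - D) = inter S.H L - inter S.H D := map_sub (interHom h.toRR S.H) L D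
  rw [h3] at h2
  have : 2 * (chi (L + k • S.H) - chi (L - D + k • S.H)) =
      2 * (chi L - chi (L - D) + k * inter S.H D) := by linear_combination h1 - h2
  omega

theorem H_nonneg (h : S.All) {D : Div S.W} (hD : 0 ≤ D) : 0 ≤ inter S.H D := by
  refine AddSubmonoid.closure_induction (motive := fun D _ => 0 ≤ interHom h.toRR S.H D) ?_
    (map_zero _).ge (fun x y _ _ h1 h2 => (add_nonneg h1 h2).trans (map_add _ x y).ge)
    (eff_mem_closure hD)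
  rintro _ ⟨C, rfl⟩
  exact (h.crv C).le

theorem H0_bot (h : S.All) {B : Div S.W} (hB : inter S.H B < 0) : H0 B = ⊥ := by
  by_contra e
  obtain ⟨f, hf, h0⟩ := (Submodule.ne_bot_iff _).1 e
  have h1 := H_nonneg h (eff_of_mem h.toLoc2 hf h0)
  rw [inter_comm, inter_lin h.toRR _ _ h0, inter_comm] at h1
  omega

theorem grow (h : S.All) (A : Div S.W) (l c m : ℤ) :
    ∃ k, m ≤ k ∧ l * k + c < chi (A + k • S.H) := by
  have h1 := h.sq
  generalize hb : 2 * inter S.H A - inter S.H S.kap - 2 * l = b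
  generalize ha : 2 * chi A - 2 * c = a
  refine ⟨|m| + |a| + |b| + 1, by linarith [le_abs_self m, abs_nonneg a, abs_nonneg b], ?_⟩
  have h2 := chi_add h A (|m| + |a| + |b| + 1)
  generalize hk : |m| + |a| + |b| + 1 = k at h2
  have h3 : 1 ≤ k := by linarith [abs_nonneg m, abs_nonneg a, abs_nonneg b]
  have h4 : |a| + 1 ≤ k + b := by linarith [abs_nonneg m, neg_abs_le b]
  have h5 : k ^ 2 ≤ k ^ 2 * inter S.H S.H := le_mul_of_one_le_right (sq_nonneg k) h1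
  have h6 : k + b ≤ k * (k + b) := le_mul_of_one_le_left (by linarith [abs_nonneg a]) h3
  have h7 := neg_abs_le a
  subst ha hb
  nlinarith

theorem fin_M (h : S.All) (A : Div S.W) (k : ℤ) : FiniteDimensional ℂ (M A k) := (h.fg A).1 k

theorem pow_mul {E : ℤ → Submodule ℂ K} (hE : ∀ j, S.W * E j ≤ E (j + 1)) (n : ℕ) (j : ℤ) :
    S.W ^ n * E j ≤ E (j + n) := by
  induction n with
  | zero => rw [pow_zero, one_mul, Nat.cast_zero, add_zero]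
  | succ n ih =>
    rw [pow_succ', mul_assoc, Nat.cast_succ, ← add_assoc]
    exact (mul_le_mul_right ih _).trans (hE _)

theorem h0_chi (hA : FibA S) {m : ℤ} {L : Div S.W} (hL : ∀ Z : Zs S.W, Z.len = 0 → Reg S m L Z)
    {k : ℤ} (hk : m ≤ k) : h0 (L + k • S.H) = chi (L + k • S.H) := by
  obtain ⟨Z, hZ⟩ := hA.empty
  have h1 := (hL Z hZ).dim k hk
  rw [hA.zero Z L k hZ, hZ, Nat.cast_zero, sub_zero] at h1
  exact h1

end PtA

open PtA

theorem Fb.Reg.ne_bot (h : S.All) {m : ℤ} {A : Div S.W} {Z : Zs S.W}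
    (hR : Reg S m A Z) : EM Z A m ≠ ⊥ := fun e => by
  have h1 : ∀ j, m ≤ j → EM Z A j = ⊥ := fun j hj => by
    induction j, hj using Int.le_induction with
    | base => exact e
    | succ j hj ih => exact eq_bot_iff.2 ((hR.gen j hj).trans (by rw [ih, Submodule.mul_bot]))
  obtain ⟨k, h2, h3⟩ := grow h A 0 Z.len m
  have h4 := hR.dim k h2
  rw [h1 k h2, finrank_bot] at h4
  omega

namespace Two

variable {P : Two S} {h : S.All} {D₁ D₂ : Div S.W} {Z₁ Z₂ : Zs S.W}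

theorem cv_form' (n : ℕ) (a : K) (ha : a ∈ S.W ^ n) (k : ℤ) (v : (P.dat h).V.M) :
    P.cv h (k + n) ((show (S.spc h).R from S.form n a ha) • v) = a • P.cv h k v :=
  add_comm (n : ℤ) k ▸ P.cv_form h n a ha k v

theorem cv_x (i : Fin 3) (k : ℤ) (v : (P.dat h).V.M) :
    P.cv h (k + 1) ((sur S h).x i • v) = S.x i • P.cv h k v :=
  cv_form' 1 _ (SA.mem_one ⟨S.x i, S.x_mem i⟩) k v

theorem cv_xp (i : Fin 3) (n : ℕ) (k : ℤ) (v : (P.dat h).V.M) :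
    P.cv h (k + n) ((sur S h).x i ^ n • v) = S.x i ^ n • P.cv h k v := by
  induction n with
  | zero => rw [pow_zero, pow_zero, one_smul, one_smul, Nat.cast_zero, add_zero]
  | succ n ih => rw [pow_succ', pow_succ', mul_smul, mul_smul, Nat.cast_succ, ← add_assoc, cv_x, ih]

theorem cv_act (g : (S.spc h).J → ℂˣ) (k : ℤ) (v : (P.dat h).V.M) :
    P.cv h k ((P.dat h).V.act g v) = chr (Qt.dg _ k) g • P.cv h k v := by
  induction v using (P.dat h).V.induction with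
  | h0 => rw [map_zero, map_zero, smul_zero]
  | ha x y hx hy => rw [map_add, map_add, map_add, hx, hy, smul_add]
  | hw γ v hv =>
    rw [(sur S h).eq_dg γ] at hv
    rw [hv, map_smul]
    by_cases e : k = γ (sur S h).uniq.default
    · rw [e]
    · rw [P.cv_of_wt h hv e, smul_zero, smul_zero]

variable (P h) in
/-- the submodule given by two families of subspaces -/
def sE {E₁ E₂ : ℤ → Submodule ℂ K} (s₁ : Sat S P.c₁.L E₁) (s₂ : Sat S P.c₂.L E₂) :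
    Submodule (S.spc h).R (P.dat h).V.M where
  carrier := {v | ∀ k, P.cv h k v ∈ (E₁ k).prod (E₂ k)}
  zero_mem' := fun k => by rw [map_zero]; exact zero_mem _
  add_mem' := fun ha hb k => by rw [map_add]; exact add_mem (ha k) (hb k)
  smul_mem' := fun r v hv k => by
    refine S.ring_induction (P := fun r : (S.spc h).R => P.cv h k (r • v) ∈ (E₁ k).prod (E₂ k))
      ?_ (fun n a ha => ?_) (fun f g hf hg => ?_) r
    · exact ((congrArg (P.cv h k) (zero_smul (S.spc h).R v)).trans (map_zero _)).symm ▸ zero_mem _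
    · obtain ⟨j, rfl⟩ : ∃ j, k = j + n := ⟨k - n, (sub_add_cancel _ _).symm⟩
      exact (cv_form' n a ha j v).symm ▸ ⟨pow_mul s₁.mul n j (Submodule.mul_mem_mul ha (hv j).1),
        pow_mul s₂.mul n j (Submodule.mul_mem_mul ha (hv j).2)⟩
    · exact ((congrArg (P.cv h k) (add_smul (show (S.spc h).R from f) g v)).trans
        (map_add _ _ _)).symm ▸ add_mem hf hg

variable {E₁ E₂ : ℤ → Submodule ℂ K} (s₁ : Sat S P.c₁.L E₁) (s₂ : Sat S P.c₂.L E₂)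

theorem mem_sE {k : ℤ} {v : (P.dat h).V.M} (hv : v ∈ (P.dat h).V.wt (Qt.dg _ k)) :
    v ∈ P.sE h s₁ s₂ ↔ P.cv h k v ∈ (E₁ k).prod (E₂ k) :=
  ⟨fun h1 => h1 k, fun h1 j => by
    by_cases e : j = k
    · exact e ▸ h1
    · rw [P.cv_of_wt h hv e]
      exact zero_mem _⟩

theorem sE_sat : (sur S h).Sat (P.dat h).V (P.sE h s₁ s₂) := by
  refine ⟨fun g v hv k => ?_, fun v hv k => ?_⟩
  · rw [cv_act]
    exact Submodule.smul_mem _ _ (hv k)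
  · have h1 : ∀ i, S.x i • P.cv h k v ∈ (E₁ (k + 1)).prod (E₂ (k + 1)) := fun i =>
      cv_x i k v ▸ hv i (k + 1)
    exact ⟨s₁.sat k _ (P.cv_mem h k v).1 fun i => ⟨1, (pow_one (S.x i)).symm ▸ (h1 i).1⟩,
      s₂.sat k _ (P.cv_mem h k v).2 fun i => ⟨1, (pow_one (S.x i)).symm ▸ (h1 i).2⟩⟩

theorem hq_sE (k : ℤ) : Qt.hq (P.dat h).V (P.sE h s₁ s₂) k =
    h0 (P.c₁.L + k • S.H) - Module.finrank ℂ (E₁ k) +
      (h0 (P.c₂.L + k • S.H) - Module.finrank ℂ (E₂ k)) :=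
  P.hq_eq h _ k _ _ (s₁.le k) (s₂.le k) fun _ hv => mem_sE s₁ s₂ hv

theorem Hp.slope (h : S.All) {n₁ n₂ : ℕ} (hp : P.Hp (P.c₁.L - D₁) (P.c₂.L - D₂) n₁ n₂) :
    inter S.H D₁ + inter S.H D₂ = P.l := by
  have h1 := hp 0
  have h2 := hp 1
  rw [chi_diff h, chi_diff h] at h1 h2
  linarith

theorem reg_aux (hb : (sur S h).Big (P.dat h).V P.l P.c P.c₁.m)
    (r₁ : ∀ Z : Zs S.W, Z.len = 0 → Reg S P.c₁.m P.c₁.L Z)
    (r₂ : ∀ Z : Zs S.W, Z.len = 0 → Reg S P.c₁.m P.c₂.L Z)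
    (van : ∀ (a : Bool) (D : Div S.W), inter S.H D ≤ P.l → ∀ j : ℤ, P.c₁.m ≤ j →
      H0 (S.kap - (P.Ld a - D + j • S.H)) = ⊥)
    (hA : FibA S) (e₁ : 0 ≤ D₁) (e₂ : 0 ≤ D₂)
    (hp : P.Hp (P.c₁.L - D₁) (P.c₂.L - D₂) Z₁.len Z₂.len) :
    Reg S P.c₁.m (P.c₁.L - D₁) Z₁ ∧ Reg S P.c₁.m (P.c₂.L - D₂) Z₂ := by
  have s₁ := hA.sat Z₁ P.c₁.L D₁ e₁
  have s₂ := hA.sat Z₂ P.c₂.L D₂ e₂
  have h1 : ∀ᶠ k in atTop, Qt.hq (P.dat h).V (P.sE h s₁ s₂) k = P.l * k + P.c := by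
    obtain ⟨a, ha⟩ := hA.large Z₁ (P.c₁.L - D₁)
    obtain ⟨b, hb⟩ := hA.large Z₂ (P.c₂.L - D₂)
    filter_upwards [eventually_ge_atTop a, eventually_ge_atTop b,
      eventually_ge_atTop (P.c₁.m : ℤ)] with k h2 h3 h4
    rw [hq_sE, h0_chi hA r₁ h4, h0_chi hA r₂ h4, (ha k h2).dim k le_rfl, (hb k h3).dim k le_rfl,
      ← hp k]
    ring
  obtain ⟨h2, h3, -⟩ := hb _ (sE_sat s₁ s₂) (Or.inr (h1.mono fun k e => e.le))
    (h1.mono fun k e => e.ge)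
  have h4 := hp.slope h
  have h5 := H_nonneg h e₁
  have h6 := H_nonneg h e₂
  have v₁ := van false D₁ (by omega)
  have v₂ := van true D₂ (by omega)
  have h7 : ∀ j : ℤ, P.c₁.m ≤ j →
      (Module.finrank ℂ (EM Z₁ (P.c₁.L - D₁) j) : ℤ) = chi (P.c₁.L - D₁ + j • S.H) - Z₁.len ∧
      (Module.finrank ℂ (EM Z₂ (P.c₂.L - D₂) j) : ℤ) = chi (P.c₂.L - D₂ + j • S.H) - Z₂.len := by
    intro j hj
    have h8 := h2 j hj
    rw [hq_sE, h0_chi hA r₁ hj, h0_chi hA r₂ hj, ← hp j] at h8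
    have h9 := hA.ge Z₁ (P.c₁.L - D₁) j (v₁ j hj)
    have h10 := hA.ge Z₂ (P.c₂.L - D₂) j (v₂ j hj)
    omega
  have h8 : ∀ j : ℤ, P.c₁.m ≤ j → ∀ x ∈ (EM Z₁ (P.c₁.L - D₁) (j + 1)).prod
      (EM Z₂ (P.c₂.L - D₂) (j + 1)), x ∈ (S.X * EM Z₁ (P.c₁.L - D₁) j).prod
        (S.X * EM Z₂ (P.c₂.L - D₂) j) := by
    intro j hj x hx
    obtain ⟨v, hv, rfl⟩ := P.exists_cv h (k := j + 1) ⟨s₁.le _ hx.1, s₂.le _ hx.2⟩
    obtain ⟨w, hw, rfl⟩ := h3 j hj v hv ((mem_sE s₁ s₂ hv).2 hx)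
    rw [Qt.Bg.k3_apply, map_sum]
    refine Submodule.sum_mem _ fun i _ => ?_
    rw [cv_x]
    exact ⟨Submodule.mul_mem_mul (Submodule.subset_span ⟨i, rfl⟩) ((hw i).2 j).1,
      Submodule.mul_mem_mul (Submodule.subset_span ⟨i, rfl⟩) ((hw i).2 j).2⟩
  exact ⟨⟨fun j hj f hf => (h8 j hj (f, 0) ⟨hf, zero_mem _⟩).1, fun j hj => (h7 j hj).1, v₁⟩,
    ⟨fun j hj f hf => (h8 j hj (0, f) ⟨zero_mem _, hf⟩).2, fun j hj => (h7 j hj).2, v₂⟩⟩

theorem card_eq (P : Two S) (h : S.All) : (Fintype.card (P.dat h).β : ℤ) =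
    h0 (P.c₁.L + (P.c₁.m : ℤ) • S.H) + h0 (P.c₂.L + (P.c₁.m : ℤ) • S.H) := by
  rw [← P.finrank_V h, ← (P.ind_eV h).2, finrank_span_eq_card (P.ind_eV h).1]

theorem card_aux (h : S.All) (hA : FibA S)
    (r₁ : ∀ Z : Zs S.W, Z.len = 0 → Reg S P.c₁.m P.c₁.L Z)
    (r₂ : ∀ Z : Zs S.W, Z.len = 0 → Reg S P.c₁.m P.c₂.L Z)
    (hp : P.Hp (P.c₁.L - D₁) (P.c₂.L - D₂) Z₁.len Z₂.len)
    (h₁ : Reg S P.c₁.m (P.c₁.L - D₁) Z₁) (h₂ : Reg S P.c₁.m (P.c₂.L - D₂) Z₂) :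
    (Module.finrank ℂ (EM Z₁ (P.c₁.L - D₁) P.c₁.m) : ℤ) +
      Module.finrank ℂ (EM Z₂ (P.c₂.L - D₂) P.c₁.m) + (P.l * P.c₁.m + P.c) =
        Fintype.card (P.dat h).β := by
  rw [card_eq, h0_chi hA r₁ le_rfl, h0_chi hA r₂ le_rfl, h₁.dim _ le_rfl, h₂.dim _ le_rfl,
    ← hp P.c₁.m]
  ring

theorem Ok.reg₂' (hP : P.Ok h) (Z : Zs S.W) (hZ : Z.len = 0) : Reg S P.c₁.m P.c₂.L Z :=
  P.hm ▸ hP.reg₂ Z hZ

theorem Ok.reg (hP : P.Ok h) (hA : FibA S) (e₁ : 0 ≤ D₁) (e₂ : 0 ≤ D₂)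
    (hp : P.Hp (P.c₁.L - D₁) (P.c₂.L - D₂) Z₁.len Z₂.len) :
    Reg S P.c₁.m (P.c₁.L - D₁) Z₁ ∧ Reg S P.c₁.m (P.c₂.L - D₂) Z₂ ∧
      Module.finrank ℂ (EM Z₁ (P.c₁.L - D₁) P.c₁.m) +
        Module.finrank ℂ (EM Z₂ (P.c₂.L - D₂) P.c₁.m) = P.r := by
  obtain ⟨h1, h2⟩ := reg_aux hP.ok.big hP.reg₁ hP.reg₂' hP.van hA e₁ e₂ hp
  have h3 := card_aux h hA hP.reg₁ hP.reg₂' hp h1 h2
  have h4 : (P.r : ℤ) + (P.l * P.c₁.m + P.c) = Fintype.card (P.dat h).β := hP.ok.card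
  exact ⟨h1, h2, by omega⟩

end Two

end Vale.Agent.P297Z.Sf
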