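import Vale.Agent.P297Z.Cp.BigA
import Vale.Agent.P297Z.Cp.PtsA

/-! P297: the hypotheses for the towers of the fixed components. -/

set_option linter.all false

noncomputable section

namespace Vale.Agent.P297Z.Sf

open Fb Pw

variable {K : Type} [Field K] [Algebra ℂ K] {S : Surf K}

namespace Two

variable {P : Two S} {h : S.All}

theorem Ok.ctx (hP : P.Ok h) (hA : FibA S) (hG : S.Good) (hC : S.Cech1 0) {n₁ n₂ : ℕ}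
    (hp : P.Hp (P.c₁.L - P.c₁.D) (P.c₂.L - P.c₂.D) n₁ n₂) :
    ∃ r₁ r₂, n₁ + r₁ = P.c₁.s ∧ n₂ + r₂ = P.c₂.s ∧ r₁ + r₂ = P.r ∧ P.c₁.Ok r₁ ∧ P.c₂.Ok r₂ :=
  Bg.ctx_of hP hA hG hC (fun _ _ _ _ e₁ e₂ e => hP.reg hA e₁ e₂ e)
    (fun _ _ _ hR => hR.ne_bot h) hp

theorem Ok.big (hP : P.Ok h) (hA : FibA S) {n₁ n₂ r₁ r₂ : ℕ} (s₁ : n₁ + r₁ = P.c₁.s)
    (s₂ : n₂ + r₂ = P.c₂.s) (hp : P.Hp (P.c₁.L - P.c₁.D) (P.c₂.L - P.c₂.D) n₁ n₂) :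
    P.c₁.Big h r₁ ∧ P.c₂.Big h r₂ :=
  Bg.big_of hP hA (fun _ _ _ _ e₁ e₂ e => hP.reg hA e₁ e₂ e) s₁ s₂ hp

end Two

end Vale.Agent.P297Z.Sf
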