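import Vale.Agent.P297Z.Cp.Defs
import Vale.Agent.P297Z.Hb.ObDefs
import Vale.Agent.P297Z.Surf.RR

/-! P297: a large level for a direct sum is large for the summands. -/

set_option linter.all false

open Filter

noncomputable section

namespace Vale.Agent.P297Z

namespace Qt.Bg

variable {Y : Spc}

theorem retract {M N : GMod Y} {i : M.M →ₗ[Y.R] N.M} {π : N.M →ₗ[Y.R] M.M}
    (hi : M.IsHom N i) (hπ : N.IsHom M π) (e : ∀ v, π (i v) = v) {m : ℤ} {h₀ h₁ : Y.R}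
    (h : Pair N m h₀ h₁) : Pair M m h₀ h₁ where
  inj := fun k hk v hv h0 => by
    have h1 := h.inj k hk (i v) (hi.map_wt hv) (by rw [← map_smul, h0, map_zero])
    rw [← e v, h1, map_zero]
  reg := fun k hk v hv u hu h0 => by
    obtain ⟨u', h1, h2⟩ := h.reg k hk (i v) (hi.map_wt hv) (i u) (hi.map_wt hu)
      (by rw [← map_smul, h0, map_smul])
    exact ⟨π u', hπ.map_wt h1, by rw [← e v, h2, map_smul]⟩
  surj := fun k hk v hv => by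
    obtain ⟨u, h1, u', h2, h3⟩ := h.surj k hk (i v) (hi.map_wt hv)
    exact ⟨π u, hπ.map_wt h1, π u', hπ.map_wt h2, by rw [← e v, h3, map_add, map_smul, map_smul]⟩

/-- a decomposition as a direct sum -/
structure Bip (V V₁ V₂ : GMod Y) where
  i₁ : V₁.M →ₗ[Y.R] V.M
  i₂ : V₂.M →ₗ[Y.R] V.M
  π₁ : V.M →ₗ[Y.R] V₁.M
  π₂ : V.M →ₗ[Y.R] V₂.M
  hi₁ : V₁.IsHom V i₁
  hi₂ : V₂.IsHom V i₂
  hπ₁ : V.IsHom V₁ π₁
  hπ₂ : V.IsHom V₂ π₂
  e₁₁ : ∀ v, π₁ (i₁ v) = v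
  e₁₂ : ∀ v, π₁ (i₂ v) = 0
  e₂₁ : ∀ v, π₂ (i₁ v) = 0
  e₂₂ : ∀ v, π₂ (i₂ v) = v
  tot : ∀ v, i₁ (π₁ v) + i₂ (π₂ v) = v

namespace Bip

variable {V V₁ V₂ : GMod Y} (B : Bip V V₁ V₂)

theorem finrank_eq {N : Submodule ℂ V.M} {N₁ : Submodule ℂ V₁.M} {N₂ : Submodule ℂ V₂.M}
    [FiniteDimensional ℂ N₁] [FiniteDimensional ℂ N₂]
    (h : ∀ v, v ∈ N ↔ B.π₁ v ∈ N₁ ∧ B.π₂ v ∈ N₂) :
    Module.finrank ℂ N = Module.finrank ℂ N₁ + Module.finrank ℂ N₂ := by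
  let f : N →ₗ[ℂ] N₁ × N₂ :=
    (LinearMap.codRestrict N₁ ((B.π₁.restrictScalars ℂ).comp N.subtype)
      fun v => ((h v.1).1 v.2).1).prod
    (LinearMap.codRestrict N₂ ((B.π₂.restrictScalars ℂ).comp N.subtype) fun v => ((h v.1).1 v.2).2)
  have hf : Function.Bijective f := by
    constructor
    · intro a b e
      have h1 : B.π₁ a.1 = B.π₁ b.1 := congrArg (fun t : N₁ × N₂ => t.1.1) e
      have h2 : B.π₂ a.1 = B.π₂ b.1 := congrArg (fun t : N₁ × N₂ => t.2.1) e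
      refine Subtype.ext ?_
      rw [← B.tot a.1, h1, h2, B.tot]
    · rintro ⟨a, b⟩
      have h1 : B.π₁ (B.i₁ a.1 + B.i₂ b.1) = a.1 := by rw [map_add, B.e₁₁, B.e₁₂, add_zero]
      have h2 : B.π₂ (B.i₁ a.1 + B.i₂ b.1) = b.1 := by rw [map_add, B.e₂₁, B.e₂₂, zero_add]
      exact ⟨⟨B.i₁ a.1 + B.i₂ b.1, (h _).2 ⟨h1.symm ▸ a.2, h2.symm ▸ b.2⟩⟩,
        Prod.ext (Subtype.ext h1) (Subtype.ext h2)⟩
  rw [(LinearEquiv.ofBijective f hf).finrank_eq, Module.finrank_prod]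

theorem mem_wt (γ : Y.J → ℤ) (v : V.M) : v ∈ V.wt γ ↔ B.π₁ v ∈ V₁.wt γ ∧ B.π₂ v ∈ V₂.wt γ :=
  ⟨fun h => ⟨B.hπ₁.map_wt h, B.hπ₂.map_wt h⟩, fun h =>
    B.tot v ▸ add_mem (B.hi₁.map_wt h.1) (B.hi₂.map_wt h.2)⟩

/-- the direct sum of two submodules -/
def sum (E₁ : Submodule Y.R V₁.M) (E₂ : Submodule Y.R V₂.M) : Submodule Y.R V.M :=
  E₁.comap B.π₁ ⊓ E₂.comap B.π₂

theorem mem_sum {E₁ : Submodule Y.R V₁.M} {E₂ : Submodule Y.R V₂.M} {v : V.M} :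
    v ∈ B.sum E₁ E₂ ↔ B.π₁ v ∈ E₁ ∧ B.π₂ v ∈ E₂ := Iff.rfl

theorem hq_sum (E₁ : Submodule Y.R V₁.M) (E₂ : Submodule Y.R V₂.M) (k : ℤ)
    [FiniteDimensional ℂ (V₁.wt (dg Y k))] [FiniteDimensional ℂ (V₂.wt (dg Y k))] :
    hq V (B.sum E₁ E₂) k = hq V₁ E₁ k + hq V₂ E₂ k := by
  have h1 := B.finrank_eq (B.mem_wt (dg Y k))
  haveI : FiniteDimensional ℂ ↥(V₁.wt (dg Y k) ⊓ E₁.restrictScalars ℂ) :=
    Submodule.finiteDimensional_of_le inf_le_left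
  haveI : FiniteDimensional ℂ ↥(V₂.wt (dg Y k) ⊓ E₂.restrictScalars ℂ) :=
    Submodule.finiteDimensional_of_le inf_le_left
  have h2 := B.finrank_eq (N := V.wt (dg Y k) ⊓ (B.sum E₁ E₂).restrictScalars ℂ)
    (N₁ := V₁.wt (dg Y k) ⊓ E₁.restrictScalars ℂ) (N₂ := V₂.wt (dg Y k) ⊓ E₂.restrictScalars ℂ)
    fun v => ⟨fun h => ⟨⟨((B.mem_wt _ v).1 h.1).1, h.2.1⟩, ((B.mem_wt _ v).1 h.1).2, h.2.2⟩,
      fun h => ⟨(B.mem_wt _ v).2 ⟨h.1.1, h.2.1⟩, h.1.2, h.2.2⟩⟩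
  rw [hq, hq, hq, h1, h2]
  push_cast
  ring

theorem sat_sum (S : Sur Y) {E₁ : Submodule Y.R V₁.M} {E₂ : Submodule Y.R V₂.M}
    (h₁ : S.Sat V₁ E₁) (h₂ : S.Sat V₂ E₂) : S.Sat V (B.sum E₁ E₂) := by
  refine ⟨fun g v hv => ⟨?_, ?_⟩, fun v hv => ⟨h₁.2 _ fun i => ?_, h₂.2 _ fun i => ?_⟩⟩
  · show B.π₁ (V.act g v) ∈ E₁
    rw [B.hπ₁]
    exact h₁.1 g _ hv.1
  · show B.π₂ (V.act g v) ∈ E₂
    rw [B.hπ₂]
    exact h₂.1 g _ hv.2
  · rw [← map_smul]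
    exact (hv i).1
  · rw [← map_smul]
    exact (hv i).2

theorem i₁_mem {E₁ : Submodule Y.R V₁.M} {E₂ : Submodule Y.R V₂.M} {v : V₁.M} (hv : v ∈ E₁) :
    B.i₁ v ∈ B.sum E₁ E₂ :=
  B.mem_sum.2 ⟨by rw [B.e₁₁]; exact hv, by rw [B.e₂₁]; exact zero_mem _⟩

include B in
/-- the level is large for the first summand -/
theorem big (S : Sur Y) (f₁ : ∀ k, FiniteDimensional ℂ (V₁.wt (dg Y k)))
    (f₂ : ∀ k, FiniteDimensional ℂ (V₂.wt (dg Y k))) {l l₁ : ℕ} {c c₁ m : ℤ} (hB : S.Big V l c m)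
    {E₂ : Submodule Y.R V₂.M} (h₂ : S.Sat V₂ E₂)
    (hp : ∀ k, m ≤ k → hq V₂ E₂ k + (l₁ * k + c₁) = l * k + c) : S.Big V₁ l₁ c₁ m := by
  intro E₁ h₁ hle hge
  have hs := fun k => B.hq_sum E₁ E₂ k
  obtain ⟨a1, a2, a3⟩ := hB (B.sum E₁ E₂) (B.sat_sum S h₁ h₂)
    (hle.imp (fun e => by have := hp m le_rfl; have := hs m; omega) fun e => by
      filter_upwards [e, eventually_ge_atTop m] with k e1 e2
      have := hp k e2
      have := hs k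
      omega)
    (by
      filter_upwards [hge, eventually_ge_atTop m] with k e1 e2
      have := hp k e2
      have := hs k
      omega)
  refine ⟨fun k hk => ?_, fun k hk v hv hE => ?_, fun s => ?_⟩
  · have := hp k hk
    have := hs k
    have := a1 k hk
    omega
  · obtain ⟨w, h1, h2⟩ := a2 k hk (B.i₁ v) (B.hi₁.map_wt hv) (B.i₁_mem hE)
    refine ⟨fun i => B.π₁ (w i), fun i => ⟨B.hπ₁.map_wt (h1 i).1, (h1 i).2.1⟩, ?_⟩
    rw [← B.e₁₁ v, ← h2]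
    simp only [k3, LinearMap.sum_apply, LinearMap.smul_apply, LinearMap.proj_apply, map_sum,
      map_smul]
  · obtain ⟨h₀, e₀, h₁', e₁, b1, b2⟩ := a3 s
    refine ⟨h₀, e₀, h₁', e₁, b1, retract (M := V₁.quo E₁ h₁.1)
      (i := E₁.mapQ (B.sum E₁ E₂) B.i₁ fun v hv => B.i₁_mem hv)
      (π := (B.sum E₁ E₂).mapQ E₁ B.π₁ fun v hv => hv.1) (fun g v => ?_) (fun g v => ?_)
      (fun v => ?_) b2⟩
    · obtain ⟨v, rfl⟩ := E₁.mkQ_surjective v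
      exact congrArg (B.sum E₁ E₂).mkQ (B.hi₁ g v)
    · obtain ⟨v, rfl⟩ := (B.sum E₁ E₂).mkQ_surjective v
      exact congrArg E₁.mkQ (B.hπ₁ g v)
    · obtain ⟨v, rfl⟩ := E₁.mkQ_surjective v
      exact congrArg E₁.mkQ (B.e₁₁ v)

end Bip

theorem single_hom {ι : Type} [Fintype ι] [DecidableEq ι] (M : ι → GMod Y) (a : ι) :
    (M a).IsHom (GMod.pi M) (LinearMap.single Y.R (fun i => (M i).M) a) :=
  GMod.isHom_of_wt fun _ _ h => sgl_wt h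

/-- the sum of two modules -/
def bipBool (M : Bool → GMod Y) (a : Bool) :
    Bip (GMod.pi M) (GMod.pi fun _ : Unit => M a) (M (!a)) where
  i₁ := (LinearMap.single Y.R (fun i => (M i).M) a).comp
    (LinearMap.proj (φ := fun _ : Unit => (M a).M) ())
  i₂ := LinearMap.single Y.R (fun i => (M i).M) (!a)
  π₁ := LinearMap.pi fun _ => LinearMap.proj (φ := fun i => (M i).M) a
  π₂ := LinearMap.proj (φ := fun i => (M i).M) (!a)
  hi₁ := fun g v => single_hom M a g (v ())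
  hi₂ := single_hom M (!a)
  hπ₁ := fun _ _ => rfl
  hπ₂ := fun _ _ => rfl
  e₁₁ := fun v => funext fun _ => Pi.single_eq_same (M := fun i => (M i).M) a (v ())
  e₁₂ := fun v => funext fun _ =>
    Pi.single_eq_of_ne (M := fun i => (M i).M) (by cases a <;> decide) v
  e₂₁ := fun v => Pi.single_eq_of_ne (M := fun i => (M i).M) (by cases a <;> decide) (v ())
  e₂₂ := fun v => Pi.single_eq_same (M := fun i => (M i).M) (!a) v
  tot := fun v => funext fun b => by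
    change Pi.single (M := fun i => (M i).M) a (v a) b +
      Pi.single (M := fun i => (M i).M) (!a) (v (!a)) b = v b
    by_cases e : b = a
    · subst e
      rw [Pi.single_eq_same, Pi.single_eq_of_ne (by cases b <;> decide), add_zero]
    · obtain rfl : b = !a := Bool.eq_not_iff.2 e
      rw [Pi.single_eq_same, Pi.single_eq_of_ne e, zero_add]

theorem fin_unit {M : GMod Y} {γ : Y.J → ℤ} [FiniteDimensional ℂ (M.wt γ)] :
    FiniteDimensional ℂ ((GMod.pi fun _ : Unit => M).wt γ) := by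
  let f : (GMod.pi fun _ : Unit => M).wt γ →ₗ[ℂ] M.wt γ :=
    { toFun := fun v => ⟨v.1 (), fun g => congrFun (v.2 g) ()⟩
      map_add' := fun _ _ => rfl
      map_smul' := fun _ _ => rfl }
  exact Module.Finite.of_injective f fun a b e =>
    Subtype.ext (funext fun _ => congrArg Subtype.val e)

end Qt.Bg

namespace Sf.Bg

open Fb LaurentPolynomial

variable {K : Type} [Field K] [Algebra ℂ K] {S : Surf K}

theorem coeff_mon_mul (a : K) (m : ℤ) (f : K[T;T⁻¹]) (j : ℤ) :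
    (mon a m * f).coeff (m + j) = a * f.coeff j := by
  induction f using LaurentPolynomial.induction_on' with
  | add p q hp hq =>
    rw [mul_add, AddMonoidAlgebra.coeff_add, AddMonoidAlgebra.coeff_add, Finsupp.add_apply,
      Finsupp.add_apply, hp, hq, mul_add]
  | C_mul_T n b =>
    rw [mon_mul, coeff_mon, coeff_mon]
    by_cases e : n = j
    · rw [if_pos e, if_pos (by rw [e])]
    · rw [if_neg e, if_neg (by omega), mul_zero]

section sat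

variable {L : Div S.W} {F : ℤ → Submodule ℂ K} (hF : Sat S L F) (h : S.All)

include hF in
theorem pow_mul' (n : ℕ) (j : ℤ) : ∀ a ∈ S.W ^ n, ∀ b ∈ F j, a * b ∈ F (n + j) := by
  induction n with
  | zero =>
    intro a ha b hb
    rw [pow_zero, Submodule.mem_one] at ha
    obtain ⟨c, rfl⟩ := ha
    rw [Nat.cast_zero, zero_add, ← Algebra.smul_def]
    exact Submodule.smul_mem _ c hb
  | succ n ih =>
    intro a ha b hb
    rw [pow_succ'] at ha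
    refine Submodule.mul_induction_on ha (fun x hx y hy => ?_) fun x y hx hy => ?_
    · rw [mul_assoc, Nat.cast_succ, add_right_comm]
      exact hF.mul _ (Submodule.mul_mem_mul hx (ih y hy b hb))
    · rw [add_mul]
      exact add_mem hx hy

include hF in
theorem wp_mul (m n : ℤ) : ∀ a ∈ S.Wp m, ∀ b ∈ F n, a * b ∈ F (m + n) := by
  intro a ha b hb
  rcases lt_or_ge m 0 with e | e
  · rw [S.Wp_neg e, Submodule.mem_bot] at ha
    rw [ha, zero_mul]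
    exact zero_mem _
  lift m to ℕ using e
  exact pow_mul' hF m n a (S.Wp_nat m ▸ ha) b hb

/-- the graded submodule given by a saturated family -/
def toSub : Submodule (S.spc h).R (S.lb h L).M where
  carrier := {f | (show S.lbS L from f).1 ∈ fam F}
  zero_mem' := (fam F).zero_mem
  add_mem' := (fam F).add_mem
  smul_mem' := fun r f hf =>
    mul_mem_fam (wp_mul hF) (show S.ring from r).1 (S.mem_ring.1 (show S.ring from r).2) _ hf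

theorem sat_toSub : (sur S h).Sat (S.lb h L) (toSub hF h) := by
  refine ⟨fun g v hv => scale_mem_fam (g ()) hv, fun v hv j => ?_⟩
  refine hF.sat j _ ((show S.lbS L from v).2 j) fun i => ⟨1, ?_⟩
  have h1 : (mon (S.x i) 1 * (show S.lbS L from v).1).coeff (1 + j) ∈ F (1 + j) := hv i (1 + j)
  rwa [coeff_mon_mul, add_comm, ← pow_one (S.x i)] at h1

theorem hq_toSub (k : ℤ) :
    Qt.hq (S.lb h L) (toSub hF h) k = h0 (L + k • S.H) - Module.finrank ℂ (F k) := by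
  have h1 : ((F k).comap (M L k).subtype).map (Sl.secL S L k) =
      (S.lb h L).wt (Qt.dg _ k) ⊓ (toSub hF h).restrictScalars ℂ := by
    ext x
    constructor
    · rintro ⟨a, ha, rfl⟩
      exact ⟨Sl.sec_mem_wt S h k a.1 a.2, mon_mem_fam.2 ha⟩
    · rintro ⟨h2, h3⟩
      obtain ⟨a, ha, rfl⟩ := (Sl.mem_lb_wt S h L _ x).1 h2
      exact ⟨⟨a, ha⟩, mon_mem_fam.1 h3, rfl⟩
  have h2 := (congrArg (fun N : Submodule ℂ (S.lbS L) => Module.finrank ℂ N) h1).symm.trans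
    ((Submodule.equivMapOfInjective _ (Sl.secL_inj S L k) _).finrank_eq.symm.trans
      (Submodule.comapSubtypeEquivOfLe (hF.le k)).finrank_eq)
  have h3 := Sl.finrank_lb_wt S h L fun _ => k
  exact congrArg₂ (fun a b : ℕ => (a : ℤ) - b) h3 h2

end sat

theorem fin_lb (h : S.All) (L : Div S.W) (k : ℤ) :
    FiniteDimensional ℂ ((S.lb h L).wt (Qt.dg _ k)) := by
  haveI := (h.fg L).1 k
  have h1 := Sl.range_secL S h L fun _ => k
  have h2 : Module.Finite ℂ (LinearMap.range (Sl.secL S L k)) := Module.Finite.range _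
  exact (congrArg (fun N : Submodule ℂ (S.lbS L) => Module.Finite ℂ N) h1).mp h2

theorem chi_diff (h : S.All) (L D : Div S.W) (k : ℤ) :
    chi (L + k • S.H) - chi (L - D + k • S.H) = inter D S.H * k + (chi L - chi (L - D)) := by
  have h1 := h.add (L - D) D (k • S.H)
  have h2 : inter D (k • S.H) = k * inter D S.H := map_zsmul (interHom h.toRR D) k S.H
  rw [sub_add_cancel, h2, inter, inter] at h1
  linear_combination h1

theorem inter_H_nonneg (h : S.All) {D : Div S.W} (hD : 0 ≤ D) : 0 ≤ inter D S.H := by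
  rw [inter_comm, ← interHom_apply h.toRR, eq_sum_single D, map_sum]
  refine Finset.sum_nonneg fun C _ => ?_
  rw [map_zsmul, smul_eq_mul]
  exact mul_nonneg (hD C) (h.crv C).le

theorem exists_len (hA : FibA S) (n : ℕ) : ∃ Z : Zs S.W, Z.len = n := by
  induction n with
  | zero => exact hA.empty
  | succ n ih =>
    obtain ⟨Z, hZ⟩ := ih
    obtain ⟨x, -⟩ := hA.free Z
    obtain ⟨Z', h⟩ := hA.add Z x
    exact ⟨Z', by rw [h.len, hZ]⟩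

section ctx

variable (c : Ctx S)

theorem φ_mem : c.φ 0 ∈ H0 c.D := c.φ_span ▸ Submodule.subset_span ⟨0, rfl⟩

theorem φ_ne : c.φ 0 ≠ 0 := c.φ_ind.ne_zero 0

theorem chi_A (h : S.All) {f : K} (hf : f ≠ 0) (k : ℤ) :
    chi (c.L - (c.D + div S.W f) + k • S.H) = chi (c.L - c.D + k • S.H) := by
  rw [← h.lin _ f hf]
  congr 1
  abel

theorem inter_D (h : S.All) : 0 ≤ inter c.D S.H := by
  rw [← inter_lin h.toRR _ _ (φ_ne c)]
  exact inter_H_nonneg h (eff_of_mem h.toLoc2 (φ_mem c) (φ_ne c))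

theorem finrank_EM (hA : FibA S) {f : K} (hf : f ≠ 0) (Z : Zs S.W) (j : ℤ) :
    Module.finrank ℂ (EM Z (c.A f) j) = Module.finrank ℂ (EM Z (c.L - c.D) j) := by
  have e : c.A f = c.L - c.D - div S.W f := by
    rw [Ctx.A]
    abel
  have h1 : (EM Z (c.L - c.D) j).map (LinearMap.mulLeft ℂ f) = EM Z (c.A f) j := by
    rw [e]
    ext g
    constructor
    · rintro ⟨a, ha, rfl⟩
      exact (hA.mulf Z _ j f a hf).2 ha
    · intro hg
      refine ⟨f⁻¹ * g, (hA.mulf Z _ j f _ hf).1 ?_, mul_inv_cancel_left₀ hf g⟩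
      rwa [mul_inv_cancel_left₀ hf]
  rw [← h1]
  exact (Submodule.equivMapOfInjective _ (mul_right_injective₀ hf) _).finrank_eq.symm

/-- the rank for the empty subscheme is the Euler characteristic -/
theorem s_eq (h : S.All) (hA : FibA S) {f : K} (hf : f ≠ 0) {Z : Zs S.W} (hZ : Z.len = 0)
    (hR : Reg S c.m (c.A f) Z) : (c.s : ℤ) = chi (c.L - c.D + (c.m : ℤ) • S.H) := by
  have h1 := hR.dim c.m le_rfl
  rw [finrank_EM c hA hf, hA.zero Z _ _ hZ, hZ, Ctx.A, chi_A c h hf] at h1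
  rw [Ctx.s, h1]
  simp

end ctx

/-- the level is large for a summand -/
theorem big_summand (h : S.All) (hA : FibA S) (Ld : Bool → Div S.W) (a : Bool) {l : ℕ}
    {c m : ℤ} (hB : (sur S h).Big (GMod.pi fun b => S.lb h (Ld b)) l c m) {D D' : Div S.W}
    (hD : 0 ≤ inter D S.H) (hD' : 0 ≤ D') {n : ℕ} {Z Z₀ : Zs S.W} (h₀ : Z₀.len = 0)
    (hR₀ : Reg S m (Ld (!a)) Z₀) (hR : Reg S m (Ld (!a) - D') Z)
    (hp : ∀ k : ℤ, chi (Ld a + k • S.H) - chi (Ld a - D + k • S.H) + n +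
      (chi (Ld (!a) + k • S.H) - chi (Ld (!a) - D' + k • S.H) + Z.len) = l * k + c) :
    (sur S h).Big (GMod.pi fun _ : Unit => S.lb h (Ld a)) (inter D S.H).toNat
      (chi (Ld a) - chi (Ld a - D) + n) m := by
  have hS := hA.sat Z (Ld (!a)) D' hD'
  refine (Qt.Bg.bipBool (fun b => S.lb h (Ld b)) a).big (sur S h)
    (fun k => haveI := fin_lb h (Ld a) k; Qt.Bg.fin_unit) (fin_lb h _) hB (sat_toSub hS h)
    fun k hk => ?_
  have h1 := hR₀.dim k hk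
  have h2 := hR.dim k hk
  have h3 := chi_diff h (Ld a) D k
  have h4 := hp k
  rw [hA.zero Z₀ _ _ h₀, h₀] at h1
  rw [hq_toSub hS h, Int.toNat_of_nonneg hD]
  have h5 : h0 (Ld (!a) + k • S.H) = Module.finrank ℂ (M (Ld (!a)) k) := rfl
  push_cast at h1
  omega

variable {P : Two S} {h : S.All}

/-- the regularity of the direct sums with the given Hilbert polynomial -/
def RegSum (P : Two S) : Prop := ∀ (D₁ D₂ : Div S.W) (Z₁ Z₂ : Zs S.W), 0 ≤ D₁ → 0 ≤ D₂ →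
  P.Hp (P.c₁.L - D₁) (P.c₂.L - D₂) Z₁.len Z₂.len →
    Reg S P.c₁.m (P.c₁.L - D₁) Z₁ ∧ Reg S P.c₁.m (P.c₂.L - D₂) Z₂ ∧
      Module.finrank ℂ (EM Z₁ (P.c₁.L - D₁) P.c₁.m) +
        Module.finrank ℂ (EM Z₂ (P.c₂.L - D₂) P.c₁.m) = P.r

theorem reg_of (h : S.All) (hR : RegSum P) {n₁ n₂ : ℕ}
    (hp : P.Hp (P.c₁.L - P.c₁.D) (P.c₂.L - P.c₂.D) n₁ n₂) {f₁ f₂ : K} (m₁ : f₁ ∈ H0 P.c₁.D)
    (e₁ : f₁ ≠ 0) (m₂ : f₂ ∈ H0 P.c₂.D) (e₂ : f₂ ≠ 0) {Z₁ Z₂ : Zs S.W}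
    (hZ : Z₁.len + Z₂.len = n₁ + n₂) :
    Reg S P.c₁.m (P.c₁.A f₁) Z₁ ∧ Reg S P.c₂.m (P.c₂.A f₂) Z₂ ∧
      Module.finrank ℂ (EM Z₁ (P.c₁.A f₁) P.c₁.m) +
        Module.finrank ℂ (EM Z₂ (P.c₂.A f₂) P.c₂.m) = P.r := by
  rw [P.hm]
  refine hR _ _ Z₁ Z₂ (eff_of_mem h.toLoc2 m₁ e₁) (eff_of_mem h.toLoc2 m₂ e₂) fun k => ?_
  have h1 := hp k
  rw [chi_A P.c₁ h e₁, chi_A P.c₂ h e₂]
  omega

theorem ctx_of (hP : P.Ok h) (hA : FibA S) (hG : S.Good) (hC : S.Cech1 0) (hR : RegSum P)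
    (hb : ∀ (m : ℤ) (A : Div S.W) (Z : Zs S.W), Reg S m A Z → EM Z A m ≠ ⊥) {n₁ n₂ : ℕ}
    (hp : P.Hp (P.c₁.L - P.c₁.D) (P.c₂.L - P.c₂.D) n₁ n₂) :
    ∃ r₁ r₂, n₁ + r₁ = P.c₁.s ∧ n₂ + r₂ = P.c₂.s ∧ r₁ + r₂ = P.r ∧ P.c₁.Ok r₁ ∧ P.c₂.Ok r₂ := by
  obtain ⟨Z₀, h₀⟩ := hA.empty
  obtain ⟨Z₁, h₁⟩ := exists_len hA n₁
  obtain ⟨Z₂, h₂⟩ := exists_len hA n₂
  obtain ⟨Z, hZ⟩ := exists_len hA (n₁ + n₂)
  have key := @reg_of K _ _ S P h hR n₁ n₂ hp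
  obtain ⟨a₁, a₂, a₃⟩ := key (φ_mem _) (φ_ne _) (φ_mem _) (φ_ne _) (Z₁ := Z₁) (Z₂ := Z₂) (by omega)
  have b₁ := (key (φ_mem _) (φ_ne _) (φ_mem _) (φ_ne _) (Z₁ := Z₀) (Z₂ := Z) (by omega)).1
  have b₂ := (key (φ_mem _) (φ_ne _) (φ_mem _) (φ_ne _) (Z₁ := Z) (Z₂ := Z₀) (by omega)).2.1
  have one : ∀ (c : Ctx S) (n : ℕ) (Y : Zs S.W), Y.len = n → Reg S c.m (c.A (c.φ 0)) Y →
      Reg S c.m (c.A (c.φ 0)) Z₀ → n + Module.finrank ℂ (EM Y (c.A (c.φ 0)) c.m) = c.s ∧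
        0 < Module.finrank ℂ (EM Y (c.A (c.φ 0)) c.m) := by
    intro c n Y hY r1 r2
    have s1 := s_eq c h hA (φ_ne c) h₀ r2
    have s2 := r1.dim c.m le_rfl
    have s3 := chi_A c h (φ_ne c) c.m
    haveI := (h.fg (c.A (c.φ 0))).1 c.m
    haveI : FiniteDimensional ℂ (EM Y (c.A (c.φ 0)) c.m) :=
      Submodule.finiteDimensional_of_le (hA.le Y _ _)
    refine ⟨?_, Nat.pos_of_ne_zero fun e => hb _ _ _ r1 (Submodule.finrank_eq_zero.1 e)⟩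
    have s4 : chi (c.A (c.φ 0) + (c.m : ℤ) • S.H) = _ := s3
    omega
  obtain ⟨d₁, p₁⟩ := one P.c₁ n₁ Z₁ h₁ a₁ b₁
  obtain ⟨d₂, p₂⟩ := one P.c₂ n₂ Z₂ h₂ a₂ b₂
  refine ⟨_, _, d₁, d₂, a₃, ⟨p₁, by omega, hG, hC, fun f hf e Y hY => ?_, hP.reg₁⟩,
    ⟨p₂, by omega, hG, hC, fun f hf e Y hY => ?_, hP.reg₂⟩⟩
  · obtain ⟨Y', hY'⟩ := exists_len hA (n₁ + n₂ - Y.len)
    exact (key hf e (φ_mem _) (φ_ne _) (Z₁ := Y) (Z₂ := Y') (by omega)).1
  · obtain ⟨Y', hY'⟩ := exists_len hA (n₁ + n₂ - Y.len)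
    exact (key (φ_mem _) (φ_ne _) hf e (Z₁ := Y') (Z₂ := Y) (by omega)).2.1

theorem big_of (hP : P.Ok h) (hA : FibA S) (hR : RegSum P) {n₁ n₂ r₁ r₂ : ℕ}
    (s₁ : n₁ + r₁ = P.c₁.s) (s₂ : n₂ + r₂ = P.c₂.s)
    (hp : P.Hp (P.c₁.L - P.c₁.D) (P.c₂.L - P.c₂.D) n₁ n₂) : P.c₁.Big h r₁ ∧ P.c₂.Big h r₂ := by
  obtain ⟨Z₀, h₀⟩ := hA.empty
  have key := @reg_of K _ _ S P h hR n₁ n₂ hp _ _ (φ_mem _) (φ_ne _) (φ_mem _) (φ_ne _)
  have hB : (sur S h).Big (GMod.pi fun b => S.lb h (P.Ld b)) P.l P.c P.c₁.m := hP.ok.big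
  constructor
  · intro r l₁ l₂
    obtain ⟨Y, hY⟩ := exists_len hA (P.c₁.s - r)
    obtain ⟨Z, hZ⟩ := exists_len hA (n₁ + n₂ - (P.c₁.s - r))
    have a := (key (Z₁ := Y) (Z₂ := Z) (by omega)).2.1
    have b := hP.reg₂ Z₀ h₀
    rw [P.hm] at a b
    refine big_summand h hA P.Ld false hB (inter_D P.c₁ h)
      (eff_of_mem h.toLoc2 (φ_mem P.c₂) (φ_ne P.c₂)) h₀ b a fun k => ?_
    have h1 := hp k
    have h2 := chi_A P.c₂ h (φ_ne P.c₂) k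
    change chi (P.c₁.L + k • S.H) - chi (P.c₁.L - P.c₁.D + k • S.H) + _ + (chi (P.c₂.L + k • S.H) -
      chi (P.c₂.L - (P.c₂.D + div S.W (P.c₂.φ 0)) + k • S.H) + _) = _
    omega
  · intro r l₁ l₂
    obtain ⟨Y, hY⟩ := exists_len hA (P.c₂.s - r)
    obtain ⟨Z, hZ⟩ := exists_len hA (n₁ + n₂ - (P.c₂.s - r))
    have a := (key (Z₁ := Z) (Z₂ := Y) (by omega)).1
    have b := hP.reg₁ Z₀ h₀
    rw [P.hm]
    refine big_summand h hA P.Ld true hB (inter_D P.c₂ h)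
      (eff_of_mem h.toLoc2 (φ_mem P.c₁) (φ_ne P.c₁)) h₀ b a fun k => ?_
    have h1 := hp k
    have h2 := chi_A P.c₁ h (φ_ne P.c₁) k
    change chi (P.c₂.L + k • S.H) - chi (P.c₂.L - P.c₂.D + k • S.H) + _ + (chi (P.c₁.L + k • S.H) -
      chi (P.c₁.L - (P.c₁.D + div S.W (P.c₁.φ 0)) + k • S.H) + _) = _
    omega

end Sf.Bg

end Vale.Agent.P297Z
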