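import Vale.Agent.P297Z.Cp.Geo
import Vale.Agent.P297Z.Hb.Fam2
import Vale.Agent.P297Z.Top.Glue1
import Vale.Agent.P297Z.Loc.Tp

/-! P297: the universal classes on the fixed components of the Quot space. -/

set_option linter.all false

noncomputable section

namespace Vale.Agent.P297Z

namespace CpBr

open Qt

variable {W Y : Spc}

theorem pl_add (L : GMod Y) (v v' : L.M) :
    pl (Mor.snd W Y) L (v + v') = pl _ L v + pl _ L v' := TensorProduct.tmul_add _ _ _

theorem pl_smul (L : GMod Y) (y : Y.R) (v : L.M) :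
    pl (Mor.snd W Y) L (y • v) = (Mor.snd W Y).φ y • pl _ L v :=
  (TensorProduct.tmul_smul y (1 : (Mor.snd W Y).Src) v).trans rfl

/-- a section of a pull-back is determined by its values on the fibres -/
theorem evL_sep (L : GMod Y) (u : ((Mor.snd W Y).pull L).M) (h : ∀ z : W.Pt, evL z L u = 0) :
    u = 0 := by
  let b := Module.Free.chooseBasis ℂ L.M
  let T : (Module.Free.ChooseBasisIndex ℂ L.M →₀ W.R) →+ ((Mor.snd W Y).pull L).M :=
    Finsupp.liftAddHom fun i =>
      { toFun := fun a => (Mor.fst W Y).φ a • pl _ L (b i)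
        map_zero' := by rw [map_zero, zero_smul]
        map_add' := fun a a' => by rw [map_add, add_smul] }
  have hT : ∀ i a, T (Finsupp.single i a) = (Mor.fst W Y).φ a • pl _ L (b i) := fun i a =>
    Finsupp.liftAddHom_apply_single _ _ _
  have h1 : ∀ (v : L.M) (x : W.R), (Mor.fst W Y).φ x • pl _ L v ∈ T.range := by
    intro v
    have hv : v ∈ Submodule.span ℂ (Set.range b) := b.span_eq ▸ Submodule.mem_top
    induction hv using Submodule.span_induction with
    | mem _ hi =>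
      obtain ⟨i, rfl⟩ := hi
      exact fun x => ⟨_, hT i x⟩
    | zero =>
      intro x
      rw [← zero_smul Y.R (0 : L.M), pl_smul, map_zero, zero_smul, smul_zero]
      exact zero_mem _
    | add v v' _ _ hv hv' =>
      intro x
      rw [pl_add, smul_add]
      exact add_mem (hv x) (hv' x)
    | smul c v _ hv =>
      intro x
      rw [← algebraMap_smul Y.R c v, pl_smul, AlgHom.commutes, smul_smul,
        ← (Mor.fst W Y).φ.commutes, ← map_mul]
      exact hv _
  have h2 : u ∈ T.range := by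
    clear h
    induction u using pull_ind with
    | h0 => exact zero_mem _
    | ha u v hu hv => exact add_mem hu hv
    | h1 a v =>
      induction a using TensorProduct.induction_on with
      | zero => exact (zero_smul (W.prod Y).R (pl (Mor.snd W Y) L v)).symm ▸ zero_mem T.range
      | add a a' ha ha' =>
        exact (add_smul (show (W.prod Y).R from a) a' (pl (Mor.snd W Y) L v)).symm ▸
          add_mem ha ha'
      | tmul x y =>
        rw [Sf.fam_tmul_eq, mul_smul, ← pl_smul]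
        exact h1 _ x
  obtain ⟨f, rfl⟩ := h2
  have h3 : ∀ (z : W.Pt) f, evL z L (T f) =
      Finsupp.linearCombination ℂ b (f.mapRange z.1 (map_zero z.1)) := by
    intro z f
    induction f using Finsupp.induction_linear with
    | zero => rw [map_zero, map_zero, Finsupp.mapRange_zero, map_zero]
    | add f g hf hg => rw [map_add, map_add, Finsupp.mapRange_add (map_add z.1), map_add, hf, hg]
    | single i a =>
      rw [hT, evL_pl, evR_fst, Finsupp.mapRange_single, Finsupp.linearCombination_single,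
        algebraMap_smul]
  have h4 : f = 0 := Finsupp.ext fun i => W.sep _ fun z hz =>
    DFunLike.congr_fun (linearIndependent_iff.1 b.linearIndependent _
      ((h3 ⟨z, hz⟩ f).symm.trans (h ⟨z, hz⟩))) i
  rw [h4, map_zero]

theorem εV_sep {D : Dat Y} (c : D.Crd W) (v : c.VV.M) (h : ∀ z, c.εV z v = 0) : v = 0 :=
  funext fun a => evL_sep (D.L a).M (v a) fun z => congrFun (h z) a

theorem sub_congr {X : Spc} (M : GMod X) {N N' : Submodule X.R M.M} (h : M.Stab N)
    (h' : M.Stab N') (e : N = N') : M.sub N h = M.sub N' h' := by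
  subst e; rfl

theorem span_vec {r : ℕ} {B V : Type} [AddCommGroup V] [Module ℂ V] (f : (B → ℂ) →ₗ[ℂ] V)
    (p : (Fin r → B) → ℂ) :
    Submodule.span ℂ (Set.range fun s => f (vec p s)) = (Plk.sub p).map f := by
  rw [Plk.sub, Submodule.map_span]
  congr 1
  ext v
  exact ⟨fun ⟨s, e⟩ => ⟨_, ⟨s.1, s.2, rfl⟩, e⟩,
    fun ⟨_, ⟨J, c, e⟩, e'⟩ => ⟨(J, c), (congrArg f e).symm.trans e'⟩⟩

theorem span_sum {V V' ι ι' : Type} [AddCommGroup V] [Module ℂ V] [AddCommGroup V'] [Module ℂ V']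
    (u : ι → V) (u' : ι' → V') :
    Submodule.span ℂ (Set.range (Sum.elim (fun a => (u a, 0)) fun a => (0, u' a))) =
      (Submodule.span ℂ (Set.range u)).prod (Submodule.span ℂ (Set.range u')) := by
  rw [← LinearMap.span_inl_union_inr, ← Set.range_comp, ← Set.range_comp]
  exact congrArg _ (Set.Sum.elim_range _ _)

end CpBr

namespace Sf

open Fb Pw

variable {K : Type} [Field K] [Algebra ℂ K] {S : Surf K}

namespace Two

variable {P : Two S} {h : S.All} {n₁ n₂ r₁ r₂ e₁ e₂ : ℕ} {σ : Fin r₁ ⊕ Fin r₂ ≃ Fin P.r}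
  {j : Mor ((P.X r₁ r₂).prod ptT) (P.dat h).Pol}

namespace Br

theorem cv_smul_eV (r : S.ring) (k : ℤ) (i : P.c₁.B ⊕ P.c₂.B) :
    P.cv h (P.c₁.m + k) ((show (S.spc h).R from r) • (P.dat h).eV i) = F2.cq S k r • P.eK i := by
  rcases i with i | i
  · refine Prod.ext (F2.cq_smul r (P.ev_mem (.inl i)) k) ?_
    change (r • (0 : S.lbS P.c₂.L)).1.coeff _ = _ • (0 : K)
    rw [smul_zero, smul_zero]
    rfl
  · refine Prod.ext ?_ (F2.cq_smul r (P.ev_mem (.inr i)) k)
    change (r • (0 : S.lbS P.c₁.L)).1.coeff _ = _ • (0 : K)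
    rw [smul_zero, smul_zero]
    rfl

theorem cv_smul_lc (r : (S.spc h).R) (k : ℤ) (t : (P.dat h).β → ℂ) :
    P.cv h (P.c₁.m + k) (r • ∑ i, t i • (P.dat h).eV i) = F2.cq S k r • P.lc t := by
  rw [Finset.smul_sum, map_sum]
  refine Eq.trans ?_ (Finset.smul_sum (f := fun i => t i • P.eK i)).symm
  refine Finset.sum_congr rfl fun i _ => ?_
  rw [smul_comm, map_smul, smul_comm (F2.cq S k r)]
  exact congrArg _ (cv_smul_eV r k i)

theorem cv_μ0 (q : (Fin P.r → P.c₁.B ⊕ P.c₂.B) → ℂ) (ρ : (P.dat h).Φ0.M) (k : ℤ) :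
    P.cv h (P.c₁.m + k) ((P.dat h).μ0 q ρ) =
      ∑ s : (P.dat h).Sx, F2.cq S k (ρ s) • P.lc (Qt.vec q s) := by
  change P.cv h _ (∑ s, (show (S.spc h).R from ρ s) • (P.dat h).v0 q s) = _
  rw [map_sum]
  refine Finset.sum_congr rfl fun s _ => ?_
  exact cv_smul_lc (ρ s) k (Qt.vec q s)

theorem cv_ext {v : (P.dat h).V.M} (h0 : ∀ k, P.cv h k v = 0) : v = 0 := by
  funext a
  cases a
  · exact Subtype.ext (AddMonoidAlgebra.ext (Finsupp.ext fun k => congrArg Prod.fst (h0 k)))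
  · exact Subtype.ext (AddMonoidAlgebra.ext (Finsupp.ext fun k => congrArg Prod.snd (h0 k)))

end Br

theorem u_fam {W : Spc} (c : (P.dat h).Crd W) (z : W.Pt) (s : (P.dat h).Sx) :
    (P.fam h c).u z s = P.lc (Qt.vec (c.cz z) s) := rfl

theorem Br.ker_μ {W : Spc} (c : (P.dat h).Crd W) : LinearMap.ker c.μ = (P.fam h c).Kt h := by
  have e : ∀ (a : c.Φ.M) (z : W.Pt) (k : ℤ), P.cv h (P.c₁.m + k) (c.εV z (c.μ a)) =
      ∑ s : (P.dat h).Sx, cf h z k (a s) • (P.fam h c).u z s := fun a z k =>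
    (congrArg _ (c.εV_μ z a)).trans (Br.cv_μ0 _ _ k)
  ext a
  refine ⟨fun ha z k => ?_, fun ha => CpBr.εV_sep c _ fun z => Br.cv_ext fun k => ?_⟩
  · refine (e a z k).symm.trans ?_
    rw [LinearMap.mem_ker.1 ha, map_zero, map_zero]
  · rw [← add_sub_cancel (P.c₁.m : ℤ) k, e]
    exact ha z _

theorem eK_eq {W : Spc} (c : (P.dat h).Crd W) (hF : Qt.Fm (sur S h) c) :
    c.eK = (P.fam h c).Ecl h 2 := by
  rw [Qt.Dat.Crd.eK, hF.kΦ]
  exact congrArg₂ (· - ·) rfl (congrArg₂ kc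
    (CpBr.sub_congr c.Φ c.μ_hom.stab_ker ((P.fam h c).Kt_stab h) (Br.ker_μ c)) rfl)

theorem IsJ.τ_false (hj : P.IsJ h σ j) : ((P.dat h).crd.pull j).τ false = 0 :=
  (congrArg j.ρ (funext fun o => by cases o <;> rfl)).trans (map_zero j.ρ)

theorem IsJ.τ_true (hj : P.IsJ h σ j) : ((P.dat h).crd.pull j).τ true = tdeg _ 1 := by
  refine (hj.ρ _).trans ?_
  change (Mor.snd _ ptT).ρ (fun _ => (1 : ℤ) - 0 * r₂) + (0 : ℤ) • P.dy r₁ r₂ = _
  rw [zero_smul, add_zero, zero_mul, sub_zero]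
  rfl

theorem Br.span_famV (c : Ctx S) (r : ℕ) (a : (c.Xr r).Pt) :
    Submodule.span ℂ (Set.range ((c.famV r).u a)) = c.Usp (c.pz a) :=
  CpBr.span_vec (Fintype.linearCombination ℂ c.e) (c.pz a)

theorem IsJ.eK (hj : P.IsJ h σ j) (t₁ : P.c₁.Tb h e₁ r₁) (t₂ : P.c₂.Tb h e₂ r₂)
    (hF : Qt.Fm (sur S h) ((P.dat h).crd.pull j)) :
    ((P.dat h).crd.pull j).eK = tSum (pullK ((Mor.fst _ _).map (Mor.id _)) (P.c₁.Ecl h r₁))
      (pullK ((Mor.snd _ _).map (Mor.id _)) (P.c₂.Ecl h r₂)) := by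
  haveI := (t₁.var.prod t₂.var).neT
  have f₁ := t₁.flat.pull (P.π₁ r₁ r₂)
  have f₂ := t₂.flat.pull (P.π₂ r₁ r₂)
  have f₃ := f₂.shift (-tdeg (P.X r₁ r₂) 1)
  have e := (f₁.sum f₃).Ecl_indep h (P.fam h ((P.dat h).crd.pull j)) (funext fun g => by
      change (algebraMap ℂ K (chr (-((P.dat h).crd.pull j).τ false) g) • LinearMap.id).prodMap
        (algebraMap ℂ K (chr (-((P.dat h).crd.pull j).τ true) g) • LinearMap.id) = _
      rw [hj.τ_false, hj.τ_true, neg_zero, chr_zero, map_one, one_smul]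
      rfl) rfl fun z => by
    rw [Fam.u_sum]
    refine (CpBr.span_vec P.lc ((P.dat h).co (j.onPt z))).trans
      (Eq.trans ?_ (CpBr.span_sum _ _).symm)
    refine (congrArg (fun q => (Plk.sub q).map P.lc) (hj.co z)).trans
      ((map_q t₁.clo t₂.clo _ _).trans ?_)
    rw [← Br.span_famV, ← Br.span_famV]
    rfl
  rw [eK_eq _ hF, e, f₁.Ecl_sum f₃ h P.hm, f₂.Ecl_shift, t₁.flat.Ecl_pull, t₂.flat.Ecl_pull,
    neg_neg, tSum, Gl.pullK_map_map, Gl.pullK_map_map, tK_eq]
  rfl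

theorem IsJ.vK (hj : P.IsJ h σ j) (hF : Qt.Fm (sur S h) ((P.dat h).crd.pull j)) :
    ((P.dat h).crd.pull j).vK =
      tSum (pullK (Mor.snd _ _) (S.lK h P.c₁.L)) (pullK (Mor.snd _ _) (S.lK h P.c₂.L)) := by
  rw [hF.kV, tSum, Gl.pullK_map_snd, Gl.pullK_map_snd, tK_eq]
  refine (Fintype.sum_bool _).trans ?_
  rw [hj.τ_false, hj.τ_true, line_zero, map_one, one_mul, add_comm]
  exact congrArg₂ (· + ·) (congrArg _ (kc_eq _).symm)
    (congrArg₂ (· * ·) rfl (congrArg _ (kc_eq _).symm))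

end Two

end Sf

end Vale.Agent.P297Z
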