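import Vale.Agent.P297Z.Cp.Defs
import Vale.Agent.P297Z.Hb.Fam1

/-! P297: the dictionary between the sum of two modules of sections and pairs of functions. -/

set_option linter.all false

noncomputable section

namespace Vale.Agent.P297Z

namespace Sf

open Fb Pw

variable {K : Type} [Field K] [Algebra ℂ K] {S : Surf K}

theorem Gn_prod {ι ι₁ ι₂ : Type} [Fintype ι] [Fintype ι₁] [Fintype ι₂] (W : Submodule ℂ K)
    {u : ι → K × K} {u₁ : ι₁ → K} {u₂ : ι₂ → K} (e : Submodule.span ℂ (Set.range u) =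
      (Submodule.span ℂ (Set.range u₁)).prod (Submodule.span ℂ (Set.range u₂))) (j : ℕ) :
    Gn W u j = (Gn W u₁ j).prod (Gn W u₂ j) := by
  have e1 : Set.range (Sum.elim (fun a => (u₁ a, (0 : K))) fun a => ((0 : K), u₂ a)) =
      LinearMap.inl ℂ K K '' Set.range u₁ ∪ LinearMap.inr ℂ K K '' Set.range u₂ := by
    rw [← Set.range_comp, ← Set.range_comp]
    exact Set.Sum.elim_range _ _
  have e2 := e.trans ((congrArg (Submodule.span ℂ) e1).trans LinearMap.span_inl_union_inr).symm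
  rw [← Gn_sum]
  exact le_antisymm (Gn_mono W e2.le j) (Gn_mono W e2.ge j)

namespace Dic

theorem lb_mon (h : S.All) {D : Div S.W} {k : ℤ} {x : S.lbS D}
    (hx : x ∈ (S.lb h D).wt fun _ => k) : x.1 = mon (x.1.coeff k) k := by
  obtain ⟨a, ha, rfl⟩ := (Sl.mem_lb_wt S h D _ x).1 hx
  rw [Sl.coe_sec, coeff_mon, if_pos rfl]

theorem lb_wt (h : S.All) {D : Div S.W} {k : ℤ} {x : S.lbS D}
    (hx : ∀ j, j ≠ k → x.1.coeff j = 0) : x ∈ (S.lb h D).wt fun _ => k := by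
  refine (Sl.mem_lb_wt S h D _ x).2 ⟨x.1.coeff k, x.2 k, Subtype.ext ?_⟩
  ext j
  rw [Sl.coe_sec, coeff_mon]
  split_ifs with e
  · rw [e]
  · exact hx j (Ne.symm e)

theorem coeff_mul_mon (f : LaurentPolynomial K) (a : K) (k i : ℤ) :
    (f * mon a k).coeff i = f.coeff (i - k) * a := by
  rw [mul_comm f, mul_comm _ a, mon, ← LaurentPolynomial.single_eq_C_mul_T,
    AddMonoidAlgebra.coeff_single_mul_apply, neg_add_eq_sub]

theorem coeff_mon_mul (f : LaurentPolynomial K) (a : K) (n k : ℤ) :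
    (mon a n * f).coeff (n + k) = a * f.coeff k := by
  rw [mul_comm, coeff_mul_mon, add_sub_cancel_left, mul_comm]

theorem lb_smul (h : S.All) {D : Div S.W} {k : ℤ} {x : S.lbS D}
    (hx : x ∈ (S.lb h D).wt fun _ => k) (r : S.ring) (i : ℤ) :
    (r • x).1.coeff i = r.1.coeff (i - k) * x.1.coeff k :=
  (congrArg (fun t => (r.1 * t).coeff i) (lb_mon h hx)).trans (coeff_mul_mon _ _ _ _)

theorem co_mem (h : S.All) (j : ℕ) (t : (S.spc h).R) : co h j t ∈ S.W ^ j :=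
  S.Wp_nat j ▸ S.mem_ring.1 (show S.ring from t).2 j

theorem co_neg (h : S.All) {j : ℤ} (hj : j < 0) (t : (S.spc h).R) : co h j t = 0 := by
  have := S.mem_ring.1 (show S.ring from t).2 j
  rwa [S.Wp_neg hj, Submodule.mem_bot] at this

end Dic

open Dic

namespace Two

variable (P : Two S) (h : S.All)

theorem d_eq (J : Fin P.r → P.c₁.B ⊕ P.c₂.B) : (P.dat h).d J = Plk.cnt J :=
  Finset.sum_congr rfl fun b _ => by
    change cond (P.sd (J b)) (1 : ℤ) 0 = _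
    rcases J b with i | i <;> rfl

theorem lc_apply (v : P.c₁.B ⊕ P.c₂.B → ℂ) :
    P.lc v = (P.c₁.lc fun i => v (.inl i), P.c₂.lc fun i => v (.inr i)) := by
  simp [lc, Ctx.lc, eK, Fintype.linearCombination_apply, Prod.ext_iff, Prod.fst_sum, Prod.snd_sum]

theorem lc_inj : Function.Injective P.lc := fun v v' e => by
  rw [lc_apply, lc_apply, Prod.ext_iff] at e
  funext i
  rcases i with i | i
  exacts [congrFun (P.c₁.lc_inj e.1) i, congrFun (P.c₂.lc_inj e.2) i]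

theorem cv_mem (k : ℤ) (v : (P.dat h).V.M) : P.cv h k v ∈ (M P.c₁.L k).prod (M P.c₂.L k) :=
  ⟨(show S.lbS P.c₁.L from v false).2 k, (show S.lbS P.c₂.L from v true).2 k⟩

theorem wt_iff {k : ℤ} {v : (P.dat h).V.M} : v ∈ (P.dat h).V.wt (Qt.dg _ k) ↔
    (show S.lbS P.c₁.L from v false) ∈ (S.lb h P.c₁.L).wt (fun _ => k) ∧
      (show S.lbS P.c₂.L from v true) ∈ (S.lb h P.c₂.L).wt fun _ => k :=
  ⟨fun hv => ⟨fun g => congrFun (hv g) false, fun g => congrFun (hv g) true⟩,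
    fun hv g => funext fun a => Bool.rec (hv.1 g) (hv.2 g) a⟩

theorem cv_of_wt {k j : ℤ} {v : (P.dat h).V.M} (hv : v ∈ (P.dat h).V.wt (Qt.dg _ k)) (hj : j ≠ k) :
    P.cv h j v = 0 := by
  obtain ⟨h1, h2⟩ := (P.wt_iff h).1 hv
  exact Prod.ext ((congrArg (fun t => t.coeff j) (lb_mon h h1)).trans
    ((coeff_mon _ _ _).trans (if_neg hj.symm))) ((congrArg (fun t => t.coeff j) (lb_mon h h2)).trans
    ((coeff_mon _ _ _).trans (if_neg hj.symm)))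

theorem wt_of_cv {k : ℤ} {v : (P.dat h).V.M} (hv : ∀ j, j ≠ k → P.cv h j v = 0) :
    v ∈ (P.dat h).V.wt (Qt.dg _ k) :=
  (P.wt_iff h).2 ⟨lb_wt h fun j hj => congrArg Prod.fst (hv j hj),
    lb_wt h fun j hj => congrArg Prod.snd (hv j hj)⟩

theorem cv_ext {v : (P.dat h).V.M} (h0 : ∀ k, P.cv h k v = 0) : v = 0 :=
  funext fun a => Bool.rec (motive := fun a => v a = (0 : (P.dat h).V.M) a)
    (Subtype.ext (AddMonoidAlgebra.ext (Finsupp.ext fun k => congrArg Prod.fst (h0 k))))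
    (Subtype.ext (AddMonoidAlgebra.ext (Finsupp.ext fun k => congrArg Prod.snd (h0 k)))) a

theorem cv_inj {k : ℤ} {v : (P.dat h).V.M} (hv : v ∈ (P.dat h).V.wt (Qt.dg _ k))
    (h0 : P.cv h k v = 0) : v = 0 :=
  P.cv_ext h fun j => (em (j = k)).elim (fun e => e ▸ h0) (P.cv_of_wt h hv)

theorem cv_eq {k : ℤ} {u v : (P.dat h).V.M} (hu : u ∈ (P.dat h).V.wt (Qt.dg _ k))
    (hv : v ∈ (P.dat h).V.wt (Qt.dg _ k)) (e : P.cv h k u = P.cv h k v) : u = v :=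
  sub_eq_zero.1 (P.cv_inj h (sub_mem hu hv) (by rw [map_sub, e, sub_self]))

theorem exists_cv {k : ℤ} {x : K × K} (hx : x ∈ (M P.c₁.L k).prod (M P.c₂.L k)) :
    ∃ v ∈ (P.dat h).V.wt (Qt.dg _ k), P.cv h k v = x :=
  ⟨fun a => Bool.rec (motive := fun a => ((P.dat h).L a).M.M) (S.sec k x.1 hx.1)
      (S.sec k x.2 hx.2) a,
    (P.wt_iff h).2 ⟨Sl.sec_mem_wt S h _ _ _, Sl.sec_mem_wt S h _ _ _⟩,
    Prod.ext ((coeff_mon _ _ _).trans (if_pos rfl)) ((coeff_mon _ _ _).trans (if_pos rfl))⟩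

theorem cv_form (n : ℕ) (a : K) (ha : a ∈ S.W ^ n) (k : ℤ) (v : (P.dat h).V.M) :
    P.cv h (n + k) ((show (S.spc h).R from S.form n a ha) • v) = a • P.cv h k v :=
  Prod.ext (coeff_mon_mul _ a n k) (coeff_mon_mul _ a n k)

theorem cv_smul {k : ℤ} {v : (P.dat h).V.M} (hv : v ∈ (P.dat h).V.wt (Qt.dg _ k))
    (r : (S.spc h).R) (i : ℤ) : P.cv h i (r • v) = co h (i - k) r • P.cv h k v := by
  obtain ⟨h1, h2⟩ := (P.wt_iff h).1 hv
  exact Prod.ext (lb_smul h h1 r i) (lb_smul h h2 r i)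

theorem cv_eV (i : P.c₁.B ⊕ P.c₂.B) : P.cv h P.c₁.m ((P.dat h).eV i) = P.eK i := by
  rcases i with i | i
  · exact Prod.ext ((coeff_mon _ _ _).trans (if_pos rfl)) rfl
  · exact Prod.ext rfl ((coeff_mon _ _ _).trans (if_pos rfl))

theorem cv_lc (t : P.c₁.B ⊕ P.c₂.B → ℂ) :
    P.cv h P.c₁.m (∑ i, t i • (P.dat h).eV i) = P.lc t := by
  rw [map_sum]
  exact Finset.sum_congr rfl fun i _ => by rw [map_smul, cv_eV]

theorem cv_v0 (q : (Fin P.r → P.c₁.B ⊕ P.c₂.B) → ℂ) (s : (P.dat h).Sx) :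
    P.cv h P.c₁.m ((P.dat h).v0 q s) = P.lc (Qt.vec q s) := P.cv_lc h _

theorem finrank_map {k : ℤ} {N : Submodule ℂ (P.dat h).V.M} (hN : N ≤ (P.dat h).V.wt (Qt.dg _ k)) :
    Module.finrank ℂ N = Module.finrank ℂ (N.map (P.cv h k)) := by
  rw [← LinearMap.range_domRestrict]
  exact (LinearMap.finrank_range_of_inj fun u v e =>
    Subtype.ext (P.cv_eq h (hN u.2) (hN v.2) e)).symm

theorem finrank_V (k : ℤ) : (Module.finrank ℂ ((P.dat h).V.wt (Qt.dg _ k)) : ℤ) =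
    h0 (P.c₁.L + k • S.H) + h0 (P.c₂.L + k • S.H) := by
  have e : ((P.dat h).V.wt (Qt.dg _ k)).map (P.cv h k) = (M P.c₁.L k).prod (M P.c₂.L k) :=
    le_antisymm (by rintro _ ⟨v, -, rfl⟩; exact P.cv_mem h k v) fun x hx => P.exists_cv h hx
  haveI := (h.fg P.c₁.L).1 k
  haveI := (h.fg P.c₂.L).1 k
  rw [P.finrank_map h le_rfl, e, finrank_prod', Nat.cast_add]
  rfl

theorem ind_eV : LinearIndependent ℂ (P.dat h).eV ∧
    Submodule.span ℂ (Set.range (P.dat h).eV) = (P.dat h).V.wt (Qt.dg _ P.c₁.m) := by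
  refine ⟨Fintype.linearIndependent_iff.2 fun t ht i => ?_, le_antisymm (Submodule.span_le.2 ?_)
    fun v hv => ?_⟩
  · have := (P.cv_lc h t).symm.trans ((congrArg (P.cv h P.c₁.m) ht).trans (map_zero _))
    exact congrFun (P.lc_inj (this.trans (map_zero _).symm)) i
  · rintro _ ⟨i, rfl⟩
    exact (P.dat h).eV_wt i
  · obtain ⟨h1, h2⟩ := P.cv_mem h P.c₁.m v
    obtain ⟨t₁, e₁⟩ : (P.cv h P.c₁.m v).1 ∈ LinearMap.range P.c₁.lc := P.c₁.range_lc ▸ h1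
    obtain ⟨t₂, e₂⟩ : (P.cv h P.c₁.m v).2 ∈ LinearMap.range P.c₂.lc := by
      rw [P.c₂.range_lc, P.hm]
      exact h2
    refine (Submodule.mem_span_range_iff_exists_fun ℂ).2 ⟨Sum.elim t₁ t₂, P.cv_eq h
      (Submodule.sum_mem _ fun i _ => Submodule.smul_mem _ _ ((P.dat h).eV_wt i)) hv ?_⟩
    exact (P.cv_lc h _).trans ((P.lc_apply _).trans (Prod.ext e₁ e₂))

theorem cv_μ0 (q : (Fin P.r → P.c₁.B ⊕ P.c₂.B) → ℂ) (ρ : (P.dat h).Sx → (S.spc h).R) (i : ℤ) :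
    P.cv h i ((P.dat h).μ0 q ρ) = ∑ s, co h (i - P.c₁.m) (ρ s) • P.lc (Qt.vec q s) := by
  change P.cv h i (∑ s, ρ s • (P.dat h).v0 q s) = _
  rw [map_sum]
  exact Finset.sum_congr rfl fun s _ =>
    (P.cv_smul h ((P.dat h).v0_wt q s) _ _).trans (congrArg _ (P.cv_v0 h q s))

theorem cv_μ0_frm (q : (Fin P.r → P.c₁.B ⊕ P.c₂.B) → ℂ) {j : ℕ} {c : (P.dat h).Sx → K}
    (hc : ∀ s, c s ∈ S.W ^ j) (i : ℤ) : P.cv h i ((P.dat h).μ0 q fun s => frm h j (c s) (hc s)) =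
      if i = P.c₁.m + j then ∑ s, c s • P.lc (Qt.vec q s) else 0 := by
  refine (P.cv_μ0 h q _ i).trans ?_
  simp only [co_frm]
  split_ifs with e1 e2 e2
  · rfl
  · omega
  · omega
  · simp

theorem cv_gen (q : (Fin P.r → P.c₁.B ⊕ P.c₂.B) → ℂ) (j : ℕ) {v : (P.dat h).V.M}
    (hv : v ∈ (P.dat h).gen q) :
    P.cv h (P.c₁.m + j) v ∈ Gn S.W (fun s : (P.dat h).Sx => P.lc (Qt.vec q s)) j := by
  obtain ⟨ρ, rfl⟩ := hv
  refine ⟨fun s => co h j (ρ s), fun s => co_mem h j _, ?_⟩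
  rw [P.cv_μ0 h q ρ, add_sub_cancel_left]

theorem mem_gen (q : (Fin P.r → P.c₁.B ⊕ P.c₂.B) → ℂ) (j : ℕ) {v : (P.dat h).V.M}
    (hv : v ∈ (P.dat h).V.wt (Qt.dg _ (P.c₁.m + j))) :
    v ∈ (P.dat h).gen q ↔
      P.cv h (P.c₁.m + j) v ∈ Gn S.W (fun s : (P.dat h).Sx => P.lc (Qt.vec q s)) j := by
  refine ⟨P.cv_gen h q j, fun ⟨c, hc, e⟩ => ⟨fun s => frm h j (c s) (hc s), ?_⟩⟩
  refine P.cv_eq h (P.wt_of_cv h fun i hi => ?_) hv ?_
  · exact (P.cv_μ0_frm h q hc i).trans (if_neg hi)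
  · exact (P.cv_μ0_frm h q hc _).trans ((if_pos rfl).trans e)

theorem hq_eq (E : Submodule (S.spc h).R (P.dat h).V.M) (k : ℤ) (N₁ N₂ : Submodule ℂ K)
    (h₁ : N₁ ≤ M P.c₁.L k) (h₂ : N₂ ≤ M P.c₂.L k)
    (hN : ∀ v ∈ (P.dat h).V.wt (Qt.dg _ k), v ∈ E ↔ P.cv h k v ∈ N₁.prod N₂) :
    Qt.hq (P.dat h).V E k = h0 (P.c₁.L + k • S.H) - Module.finrank ℂ N₁ +
      (h0 (P.c₂.L + k • S.H) - Module.finrank ℂ N₂) := by
  have e : ((P.dat h).V.wt (Qt.dg _ k) ⊓ E.restrictScalars ℂ).map (P.cv h k) = N₁.prod N₂ := by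
    refine le_antisymm ?_ fun x hx => ?_
    · rintro _ ⟨v, hv, rfl⟩
      exact (hN v hv.1).1 hv.2
    · obtain ⟨v, hv, rfl⟩ := P.exists_cv h (k := k) (x := x) ⟨h₁ hx.1, h₂ hx.2⟩
      exact ⟨v, ⟨hv, (hN v hv).2 hx⟩, rfl⟩
  haveI := (h.fg P.c₁.L).1 k
  haveI := (h.fg P.c₂.L).1 k
  haveI := Submodule.finiteDimensional_of_le h₁
  haveI := Submodule.finiteDimensional_of_le h₂
  rw [Qt.hq, finrank_V, P.finrank_map h inf_le_left, e, finrank_prod', Nat.cast_add]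
  ring

/-- a vector lies in a submodule if its homogeneous parts do -/
theorem mem_of_cv (E : Submodule (S.spc h).R (P.dat h).V.M) {v : (P.dat h).V.M}
    (hv : ∀ k, ∀ u ∈ (P.dat h).V.wt (Qt.dg _ k), P.cv h k u = P.cv h k v → u ∈ E) : v ∈ E := by
  classical
  choose u hu e using fun k => P.exists_cv h (P.cv_mem h k v)
  let T : Finset ℤ := (show S.lbS P.c₁.L from v false).1.coeff.support ∪
    (show S.lbS P.c₂.L from v true).1.coeff.support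
  have h1 : ∑ k ∈ T, u k = v := sub_eq_zero.1 (P.cv_ext h fun i => by
    rw [map_sub, map_sum, sub_eq_zero, Finset.sum_eq_single i
      (fun k _ hk => P.cv_of_wt h (hu k) hk.symm) fun hi => ?_, e]
    rw [e]
    rw [Finset.mem_union, not_or, Finsupp.notMem_support_iff, Finsupp.notMem_support_iff] at hi
    exact Prod.ext hi.1 hi.2)
  exact h1 ▸ Submodule.sum_mem _ fun k _ => hv k _ (hu k) (e k)

theorem mem_gen_of (q : (Fin P.r → P.c₁.B ⊕ P.c₂.B) → ℂ) {v : (P.dat h).V.M}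
    (h1 : ∀ i : ℤ, i < P.c₁.m → P.cv h i v = 0) (h2 : ∀ j : ℕ,
      P.cv h (P.c₁.m + j) v ∈ Gn S.W (fun s : (P.dat h).Sx => P.lc (Qt.vec q s)) j) :
    v ∈ (P.dat h).gen q := by
  refine P.mem_of_cv h _ fun k u hu e => ?_
  rcases lt_or_ge k P.c₁.m with hk | hk
  · rw [P.cv_inj h hu (e.trans (h1 k hk))]
    exact zero_mem _
  · obtain ⟨j, rfl⟩ := Int.le.dest hk
    exact (P.mem_gen h q j hu).2 (e ▸ h2 j)

theorem tan_iff (q τ : (Fin P.r → P.c₁.B ⊕ P.c₂.B) → ℂ) :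
    (∀ ρ : (P.dat h).Φ0.M, (P.dat h).μ0 q ρ = 0 → (P.dat h).μ0 τ ρ ∈ (P.dat h).gen q) ↔
      ∀ j, ∀ c ∈ RelV S.W (fun s : (P.dat h).Sx => P.lc (Qt.vec q s)) j,
        ∑ s, c s • P.lc (Qt.vec τ s) ∈ Gn S.W (fun s : (P.dat h).Sx => P.lc (Qt.vec q s)) j := by
  constructor
  · intro H j c hc
    have h1 := P.cv_gen h q j (H (fun s => frm h j (c s) (hc.1 s)) (P.cv_ext h fun i =>
      (P.cv_μ0_frm h q hc.1 i).trans ((if_congr Iff.rfl hc.2 rfl).trans (ite_self _))))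
    exact ((P.cv_μ0_frm h τ hc.1 _).trans (if_pos rfl)) ▸ h1
  · intro H ρ h0
    refine P.mem_gen_of h q (fun i hi => (P.cv_μ0 h τ ρ i).trans ?_) fun j => ?_
    · exact Finset.sum_eq_zero fun s _ =>
        (congrArg (· • _) (co_neg h (by omega) _)).trans (zero_smul _ _)
    · have h1 := P.cv_μ0 h q ρ (P.c₁.m + j)
      rw [h0, map_zero, add_sub_cancel_left] at h1
      rw [P.cv_μ0 h τ ρ, add_sub_cancel_left]
      exact H j _ ⟨fun s => co_mem h j _, h1.symm⟩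

end Two

end Sf

end Vale.Agent.P297Z
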