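import Vale.Agent.P297Z.Loc.Geo
import Vale.Agent.P297Z.Loc.Api
import Vale.Agent.P297Z.Loc.Surj
import Vale.Agent.P297Z.Loc.RegF

/-!
# P297: disjoint components of the fixed locus are finite in number
-/

set_option linter.all false

noncomputable section

namespace Vale.Agent.P297Z

/-- the ideal of a component is a minimal prime -/
theorem Lc.Img.p_min {ι : Type} [Fintype ι] [Nonempty ι] {d : ι → ℤ} {O : Obs ι d} {c : O.Comp}
    (g : Lc.Img c) : g.p ∈ (O.I ⊔ Lc.Jw d c.w).minimalPrimes := by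
  refine ⟨⟨g.p_prime, sup_le g.I_le g.Jw_le⟩, fun q hq hle a ha => ?_⟩
  obtain ⟨z⟩ := g.var.ne
  obtain ⟨n, f, -, r, -, h2, -, -, h5, h6⟩ := g.loc (Lc.Img.up z)
  have h7 : Ideal.span (Set.range f) ⊔ Lc.Jw d c.w ≤ O.I ⊔ Lc.Jw d c.w :=
    sup_le_sup_right (Ideal.span_le.2 (Set.range_subset_iff.2 h2)) _
  refine (hq.1.mem_or_mem (hq.2 (h7 (h6 a ha)))).resolve_left fun hr => h5 ?_
  exact (congrArg (Lc.Img.up z).1 (hle hr)).trans (map_zero _)

/-- disjoint components of the fixed locus are finite in number -/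
theorem Obs.finite_comp {ι : Type} [Fintype ι] [Nonempty ι] {d : ι → ℤ} (O : Obs ι d) {κ : Type}
    (F : κ → O.Comp)
    (hF : ∀ i i' x x', O.Q.Orb ((F i).j.onPt x) ((F i').j.onPt x') → i = i') : Finite κ := by
  have g := fun i => (Lc.geo Lc.api Lc.dimj ι d O (F i)).some
  have h1 : (⋃ w ∈ Finset.univ.image d, (O.I ⊔ Lc.Jw d w).minimalPrimes).Finite :=
    (Finset.finite_toSet _).biUnion fun w _ => Ideal.finite_minimalPrimes_of_isNoetherianRing _ _
  refine @Finite.of_injective_finite_range _ _ (fun i => (g i).p) (fun i i' e => ?_)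
    (h1.subset ?_).to_subtype
  · obtain ⟨z⟩ := (F i).var.ne
    have h2 := ((g i).pts _).2 ⟨Lc.Img.up z, Spc.Orb.refl _⟩
    obtain ⟨x, hx⟩ := ((g i').pts ((F i).j.onPt (Lc.Img.up z))).1 fun r hr => by
      obtain ⟨a, rfl⟩ := Ideal.Quotient.mk_surjective r
      have h3 : a ∈ (g i).p := (show (g i).p = (g i').p from e) ▸ (show a ∈ (g i').p from hr)
      exact h2 _ h3
    exact (hF _ _ _ _ hx).symm
  · rintro _ ⟨i, rfl⟩
    exact Set.mem_biUnion (g i).mem (g i).p_min

end Vale.Agent.P297Z
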