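import Vale.Agent.P297Z.Cp.Main

/-! P297: the fixed locus of the Quot space. -/

set_option linter.all false

noncomputable section

namespace Vale.Agent.P297Z

theorem exists_rep {α : Type} {r : α → α → Prop} (hr : Equivalence r) (p : α → Prop) :
    ∃ (κ : Type) (f : κ → α), (∀ i, p (f i)) ∧ ∀ a, p a → ∃! i, r a (f i) := by
  let s : Setoid {a // p a} := ⟨fun a b => r a b, ⟨fun _ => hr.refl _, hr.symm, hr.trans⟩⟩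
  refine ⟨Quotient s, fun i => i.out.1, fun i => i.out.2, fun a ha => ⟨Quotient.mk s ⟨a, ha⟩,
    hr.symm (Quotient.mk_out (s := s) ⟨a, ha⟩), fun i hi => ?_⟩⟩
  rw [← i.out_eq]
  exact Quotient.sound (hr.symm hi)

namespace Sf

open Fb Gl

variable {K : Type} [Field K] [Algebra ℂ K] {S : Surf K}

/-- the fixed loci, for a class of numerical types -/
def Out (h : S.All) (L₁ L₂ : Div S.W) (Q : Div S.W → Div S.W → ℕ → ℕ → Prop) : Prop :=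
  ∃ (κ : Type) (_ : Fintype κ) (D₁ D₂ : κ → Div S.W) (n₁ n₂ : κ → ℕ)
    (T₁ : ∀ i, S.Tw h L₁ (D₁ i) (n₁ i)) (T₂ : ∀ i, S.Tw h L₂ (D₂ i) (n₂ i)),
    (∀ i, Q (D₁ i) (D₂ i) (n₁ i) (n₂ i)) ∧
    (∀ A₁ A₂ m₁ m₂, Q A₁ A₂ m₁ m₂ →
      ∃! i, Lin A₁ (D₁ i) ∧ Lin A₂ (D₂ i) ∧ m₁ = n₁ i ∧ m₂ = n₂ i) ∧
    (Nonempty κ → ∃ (ι : Type) (_ : Fintype ι) (_ : Nonempty ι) (d : ι → ℤ) (O : Obs ι d)
      (E : K0 (O.Q.prod (S.spc h))) (F : ∀ i, FixData (T₁ i) (T₂ i) O E),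
      (∀ z : O.Q.Pt, (∃ w, ∀ a, d a ≠ w → z.1 (O.inc.φ (Amb.x d a)) = 0) →
        ∃ i x, O.Q.Orb ((F i).j.onPt x) z) ∧
      ∀ i i' x x', O.Q.Orb ((F i).j.onPt x) ((F i').j.onPt x') → i = i')

namespace Two

variable {P : Two S} {h : S.All} {n₁ n₂ m₁ m₂ : ℕ} {q : (Fin P.r → P.c₁.B ⊕ P.c₂.B) → ℂ}
  {D₁ D₂ A₁ A₂ β : Div S.W} {c₀ : ℤ}

theorem Ok.locus₀ (hP : P.Ok h) (hT : TOWER) (hD : DRk (S.spc h)) (hG : S.Good) (hC : S.Cech1 0)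
    (hl₀ : (P.l : ℤ) = inter S.H β) (hc : P.c = c₀)
    (hl : Lc P.c₁.L P.c₂.L β c₀ P.c₁.D P.c₂.D n₁ n₂) :
    ∃ (T₁ : Tower (S.spc h) (S.lK h P.c₁.L) (S.lK h (P.c₁.L - P.c₁.D)) P.c₁.v n₁
        (h0 P.c₁.D - chi P.c₁.D).toNat)
      (T₂ : Tower (S.spc h) (S.lK h P.c₂.L) (S.lK h (P.c₂.L - P.c₂.D)) P.c₂.v n₂
        (h0 P.c₂.D - chi P.c₂.D).toNat), (P.Zs' h β c₀).Nonempty ∧
      ∀ O, P.Ob h β c₀ O → ∃ G : FixData T₁ T₂ O ((P.dat h).crd.pull O.inc).eK,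
        ∀ z, (∃ x, O.Q.Orb (G.j.onPt x) z) ↔
          P.Ty ((P.dat h).co (O.inc.onPt z)) P.c₁.D P.c₂.D n₁ n₂ := by
  have hp : P.Hp (P.c₁.L - P.c₁.D) (P.c₂.L - P.c₂.D) n₁ n₂ := fun k => by
    rw [hl₀, hc]
    exact hl.hp h k
  obtain ⟨r₁, r₂, s₁, s₂, e, o₁, o₂⟩ := hP.ctx (fbA h) hG hC hp
  obtain ⟨b₁, b₂⟩ := hP.big (fbA h) s₁ s₂ hp
  obtain ⟨t₁, T₁, x₁, y₁, z₁⟩ := hT K S h _ _ _ o₁ b₁ s₁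
  obtain ⟨t₂, T₂, x₂, y₂, z₂⟩ := hT K S h _ _ _ o₂ b₂ s₂
  have e₁ : T₁.tp = tp P.c₁ h r₁ := Tp.mk_eq x₁ y₁ z₁
  have e₂ : T₂.tp = tp P.c₂ h r₂ := Tp.mk_eq x₂ y₂ z₂
  have H : P.Lo h n₁ n₂ r₁ r₂ := ⟨hP, o₁, o₂, s₁, s₂, t₁, t₂, hp⟩
  have σ : Fin r₁ ⊕ Fin r₂ ≃ Fin P.r := finSumFinEquiv.trans (finCongr e)
  have hv := rk_vt_eq h hD hl T₁ T₂
  rw [e₁, e₂] at hv
  refine ⟨T₁, T₂, ?_, fun O hO => Tp.Has.fix T₁ T₂ ?_⟩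
  · obtain ⟨j, hj⟩ := exists_j h σ t₁.clo t₂.clo
    obtain ⟨z⟩ := (cnT (t₁.var.prod t₂.var)).ne
    exact ⟨_, H.mem hj hl hv z⟩
  · rw [e₁, e₂]
    exact H.has σ hl hv hO

theorem Ok.locus (hP : P.Ok h) (hT : TOWER) (hD : DRk (S.spc h)) (hG : S.Good) (hC : S.Cech1 0)
    (hl₀ : (P.l : ℤ) = inter S.H β) (hc : P.c = c₀) (hl : Lc P.c₁.L P.c₂.L β c₀ D₁ D₂ n₁ n₂) :
    ∃ (T₁ : S.Tw h P.c₁.L D₁ n₁) (T₂ : S.Tw h P.c₂.L D₂ n₂), (P.Zs' h β c₀).Nonempty ∧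
      ∀ O, P.Ob h β c₀ O → ∃ G : FixData T₁ T₂ O ((P.dat h).crd.pull O.inc).eK,
        ∀ z, (∃ x, O.Q.Orb (G.j.onPt x) z) ↔ P.Ty ((P.dat h).co (O.inc.onPt z)) D₁ D₂ n₁ n₂ := by
  obtain ⟨T₁, T₂, k₁, k₂⟩ := Ok.locus₀ (P := P.re h D₁ D₂ hl.eff₁ hl.eff₂)
    ⟨hP.ok, hP.reg₁, hP.reg₂, hP.van⟩ hT hD hG hC hl₀ hc hl
  refine ⟨T₁, T₂, k₁, fun O hO => ?_⟩
  obtain ⟨G, hG⟩ := k₂ O ⟨hO.Z, hO.I, hO.hb⟩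
  refine ⟨G, fun z => (hG z).trans ⟨?_, ?_⟩⟩ <;>
  · rintro ⟨_, _, _, _, t, k⟩
    exact ⟨_, _, _, _, ⟨t.rel, t.ne, t.eff₁, t.eff₂, t.hp, t.reg₁, t.reg₂, t.sub⟩, k⟩

theorem Ty.uniq (h : S.All) (h₁ : P.Ty q D₁ D₂ n₁ n₂) (h₂ : P.Ty q A₁ A₂ m₁ m₂) :
    Lin D₁ A₁ ∧ Lin D₂ A₂ ∧ n₁ = m₁ ∧ n₂ = m₂ := by
  obtain ⟨_, _, _, _, t, a₁, a₂, rfl, rfl⟩ := h₁
  obtain ⟨_, _, _, _, t', b₁, b₂, rfl, rfl⟩ := h₂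
  obtain ⟨rfl, rfl, rfl, rfl⟩ := t.uniq h t'
  exact ⟨(a₁.symm h).trans h b₁, (a₂.symm h).trans h b₂, rfl, rfl⟩

theorem Ok.exists_ob (hP : P.Ok h) (hZ : (P.Zs' h β c₀).Nonempty) : ∃ O, P.Ob h β c₀ O := by
  obtain ⟨O, k₁, k₂, k₃⟩ := Qt.obs _ _ _ hP.ok _ _ num_Zs hZ fun z hz =>
    (Int.toNat_natCast _).symm.trans (congrArg Int.toNat hz.2.1)
  exact ⟨O, k₁, fun a ha => (k₂ a).2 fun z _ =>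
    ⟨1, (map_one z.1).symm ▸ one_ne_zero, (one_mul a).symm ▸ ha⟩, k₃⟩

theorem Ob.lc (hP : P.Ok h) {O : Obs (P.dat h).Ix (P.dat h).d} (hO : P.Ob h β c₀ O) (z : O.Q.Pt)
    {w : ℤ} (hw : ∀ a, (P.dat h).d a ≠ w → z.1 (O.inc.φ (Amb.x (P.dat h).d a)) = 0) :
    ∃ D₁ D₂ Z₁ Z₂, P.Typ ((P.dat h).co (O.inc.onPt z)) D₁ D₂ Z₁ Z₂ ∧
      Lc P.c₁.L P.c₂.L β c₀ D₁ D₂ Z₁.len Z₂.len := by
  have hz := hO.mem z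
  obtain ⟨D₁, D₂, Z₁, Z₂, t⟩ := exists_typ hP (fbA h) hP.ok.pts ((hP.ok.pts.mem _).1 hz.1)
    (w := w) fun J hJ => hw J (P.d_eq h J ▸ hJ)
  exact ⟨D₁, D₂, Z₁, Z₂, t, H0_ne_of_eff t.eff₁, H0_ne_of_eff t.eff₂, fun B =>
    (t.tau (fbA h) (fbB h) B).symm.trans (hz.2.2 B)⟩

theorem Ok.out (hP : P.Ok h) (hT : TOWER) (hD : DRk (S.spc h)) (hG : S.Good) (hC : S.Cech1 0)
    (hl₀ : (P.l : ℤ) = inter S.H β) (hc : P.c = c₀) (hl : Lc P.c₁.L P.c₂.L β c₀ A₁ A₂ m₁ m₂) :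
    Out h P.c₁.L P.c₂.L (Lc P.c₁.L P.c₂.L β c₀) := by
  obtain ⟨κ, f, hf, hu⟩ := exists_rep (α := Div S.W × Div S.W × ℕ × ℕ)
    (r := fun a b => Lin a.1 b.1 ∧ Lin a.2.1 b.2.1 ∧ a.2.2.1 = b.2.2.1 ∧ a.2.2.2 = b.2.2.2)
    ⟨fun _ => ⟨.refl h _, .refl h _, rfl, rfl⟩,
      fun e => ⟨e.1.symm h, e.2.1.symm h, e.2.2.1.symm, e.2.2.2.symm⟩,
      fun e e' => ⟨e.1.trans h e'.1, e.2.1.trans h e'.2.1, e.2.2.1.trans e'.2.2.1,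
        e.2.2.2.trans e'.2.2.2⟩⟩
    fun a => Lc P.c₁.L P.c₂.L β c₀ a.1 a.2.1 a.2.2.1 a.2.2.2
  choose T₁ T₂ hZ hF using fun i => hP.locus hT hD hG hC hl₀ hc (hf i)
  obtain ⟨O, hO⟩ := hP.exists_ob (hZ (hu (A₁, A₂, m₁, m₂) hl).choose)
  choose G hG using fun i => hF i O hO
  have dis : ∀ i i' x x', O.Q.Orb ((G i).j.onPt x) ((G i').j.onPt x') → i = i' :=
    fun i i' x x' o => (hu _ (hf i)).unique ⟨.refl h _, .refl h _, rfl, rfl⟩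
      (((hG i _).1 ⟨x, o⟩).uniq h ((hG i' _).1 ⟨x', Spc.Orb.refl _⟩))
  haveI := O.finite_comp (fun i => fcomp (G i)) dis
  refine ⟨κ, Fintype.ofFinite κ, _, _, _, _, T₁, T₂, hf,
    fun A₁ A₂ m₁ m₂ k => hu (A₁, A₂, m₁, m₂) k, fun _ =>
      ⟨_, inferInstance, inferInstance, _, O, _, G, ?_, dis⟩⟩
  rintro z ⟨w, hw⟩
  obtain ⟨D₁, D₂, Z₁, Z₂, t, k⟩ := hO.lc hP z hw
  obtain ⟨i, hi, -⟩ := hu (D₁, D₂, Z₁.len, Z₂.len) k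
  exact ⟨i, (hG i z).2 ⟨D₁, D₂, Z₁, Z₂, t, hi⟩⟩

end Two

theorem out (h : S.All) (hT : TOWER) (hD : DRk (S.spc h)) (hG : S.Good) (hC : S.Cech1 0)
    (L₁ L₂ β : Div S.W) (c₀ : ℤ) : Out h L₁ L₂ (Lc L₁ L₂ β c₀) := by
  by_cases hne : ∃ D₁ D₂ n₁ n₂, Lc L₁ L₂ β c₀ D₁ D₂ n₁ n₂
  · obtain ⟨D₁, D₂, n₁, n₂, hl⟩ := hne
    obtain ⟨f₁, m₁, z₁⟩ := (Submodule.ne_bot_iff _).1 hl.eff₁
    obtain ⟨f₂, m₂, z₂⟩ := (Submodule.ne_bot_iff _).1 hl.eff₂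
    have e₁ := eff_of_mem h.toLoc2 m₁ z₁
    have e₂ := eff_of_mem h.toLoc2 m₂ z₂
    have hl' : Lc L₁ L₂ β c₀ _ _ n₁ n₂ := ⟨H0_ne_of_eff e₁, H0_ne_of_eff e₂,
      fun B => (tw_div h _ _ _ _ _ _ z₁ z₂ B).trans (hl.num B)⟩
    have h0 : ((inter S.H β).toNat : ℤ) = inter S.H β := by
      have a1 := tw_eq h L₁ L₂ (D₁ + div S.W f₁) (D₂ + div S.W f₂) n₁ n₂ S.H
      have a2 := tw_eq h L₁ L₂ (D₁ + div S.W f₁) (D₂ + div S.W f₂) n₁ n₂ 0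
      have a3 := PtA.H_nonneg h (add_nonneg e₁ e₂)
      have a4 : ∀ x : Div S.W, inter 0 x = 0 := fun x => by
        rw [← interHom_apply h.toRR, map_zero, AddMonoidHom.zero_apply]
      rw [hl'.num] at a1 a2
      rw [a4, a4] at a2
      omega
    obtain ⟨P, rfl, rfl, k₁, k₂, hP⟩ := Two.exists_ok h (fbA h) Qt.regb Qt.bas Qt.kosp L₁ L₂
      (inter S.H β).toNat c₀ e₁ e₂ fun k => h0.symm ▸ hl'.hp h k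
    exact hP.out hT hD hG hC (k₁ ▸ h0) k₂ hl
  · exact ⟨Empty, inferInstance, Empty.elim, Empty.elim, Empty.elim, Empty.elim, (·.elim), (·.elim),
      (·.elim), fun _ _ _ _ k => (hne ⟨_, _, _, _, k⟩).elim, fun ⟨i⟩ => i.elim⟩

theorem fixd_of (hT : TOWER) (hD : ForAll fun S => ∀ h : S.All, DRk (S.spc h)) : FIXD := by
  intro K _ _ S h hG hC lam β c
  have e : Lc lam 0 β (chi lam - chi (lam - β) + c) = IsLocus lam β c := by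
    funext D₁ D₂ n₁ n₂
    exact propext (lc_iff h).symm
  have := out h hT (hD K S h) hG hC lam 0 β (chi lam - chi (lam - β) + c)
  rw [e] at this
  exact this

end Sf

end Vale.Agent.P297Z
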