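import Vale.Agent.P297Z.Cp.Wed2
import Vale.Agent.P297Z.Cp.Dic
import Vale.Agent.P297Z.Loc.Td
import Vale.Agent.P297Z.Hb.Tow0

/-! P297: the fixed components of the Quot space: the map. -/

set_option linter.all false

noncomputable section

namespace Vale.Agent.P297Z

namespace CpG

variable {X Y : Spc}

theorem tan_one {R : Type} [CommRing R] [Algebra ℂ R] {z : R →ₐ[ℂ] ℂ} {D : R →ₗ[ℂ] ℂ}
    (hD : D ∈ Tan z) : D 1 = 0 := by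
  have := hD 1 1
  rw [mul_one, map_one z, one_mul] at this
  exact left_eq_add.1 this

theorem tan_comp (f : Mor X Y) {z : X.Pt} {D : X.R →ₗ[ℂ] ℂ} (hD : D ∈ Tan z.1) :
    D.comp f.φ.toLinearMap ∈ Tan (f.onPt z).1 := fun a b =>
  (congrArg D (map_mul f.φ a b)).trans (hD _ _)

/-- it is enough to test on homogeneous generators of the algebra -/
theorem rad_of (z : X.Pt) {D : X.R →ₗ[ℂ] ℂ} (hD : D ∈ Tan z.1) (ξ : X.J → ℂ)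
    (h : ∀ r, r ∈ Algebra.adjoin ℂ {r | ∃ γ, r ∈ X.wt γ ∧ D r = (∑ j, ξ j * γ j) * z.1 r}) :
    X.Rad z D := by
  classical
  have key : ∀ r ∈ Submonoid.closure {r | ∃ γ, r ∈ X.wt γ ∧ D r = (∑ j, ξ j * γ j) * z.1 r},
      ∃ γ, r ∈ X.wt γ ∧ D r = (∑ j, ξ j * γ j) * z.1 r := fun r hr => by
    induction hr using Submonoid.closure_induction with
    | mem x hx => exact hx
    | one => exact ⟨0, X.one_mem, by simp [tan_one hD]⟩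
    | mul x y _ _ hx hy =>
      obtain ⟨γ, h1, h2⟩ := hx
      obtain ⟨δ, h3, h4⟩ := hy
      refine ⟨γ + δ, Spc.mul_mem h1 h3, ?_⟩
      rw [hD x y, h2, h4, map_mul]
      simp only [Pi.add_apply, Int.cast_add, mul_add, Finset.sum_add_distrib]
      ring
  refine ⟨ξ, fun γ r hr => ?_⟩
  rw [← cmp_of_mem X.span hr]
  have h1 := (Subalgebra.mem_toSubmodule _).2 (h r)
  rw [Algebra.adjoin_eq_span] at h1
  clear hr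
  induction h1 using Submodule.span_induction with
  | mem x hx =>
    obtain ⟨δ, h1, h2⟩ := key x hx
    by_cases e : δ = γ
    · rw [← e, cmp_of_mem X.span h1, h2]
    · rw [cmp_of_ne X.span e h1, map_zero, map_zero, mul_zero]
  | zero => simp only [map_zero, mul_zero]
  | add x y _ _ hx hy => simp only [map_add, hx, hy, mul_add]
  | smul t x _ hx => simp only [map_smul, hx, smul_eq_mul, mul_left_comm]

theorem rad_ptT (z : ptT.Pt) {D : ptT.R →ₗ[ℂ] ℂ} (hD : D ∈ Tan z.1) : ptT.Rad z D :=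
  rad_of z hD 0 fun r => Subalgebra.algebraMap_mem _ r

theorem ptT_ext (z z' : ptT.Pt) : z = z' :=
  Subtype.ext (Subsingleton.elim (α := ℂ →ₐ[ℂ] ℂ) _ _)

theorem rad_PI {ι : Type} [Fintype ι] [Nonempty ι] (z : (PI ι).Pt) {D : (PI ι).R →ₗ[ℂ] ℂ}
    (hD : D ∈ Tan z.1) {a : ℂ}
    (h : ∀ i, D (MvPolynomial.X i : MvPolynomial ι ℂ) = a * z.co i) : (PI ι).Rad z D := by
  refine rad_of z hD (fun _ => a) fun r => ?_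
  induction r using MvPolynomial.induction_on with
  | C t => exact Subalgebra.algebraMap_mem (R := ℂ) _ t
  | add p q hp hq => exact Subalgebra.add_mem _ hp hq
  | mul_X p i hp =>
    refine Subalgebra.mul_mem _ hp (Algebra.subset_adjoin ⟨_, Spc.X_mem pt0 ι _ i, (h i).trans ?_⟩)
    refine congrArg₂ (· * ·) ?_ rfl
    change a = ∑ j : Option Empty, a * ((j.elim 1 0 : ℤ) : ℂ)
    rw [Fintype.sum_option, Finset.univ_eq_empty, Finset.sum_empty, add_zero]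
    exact (mul_one a).symm.trans (congrArg _ Int.cast_one.symm)

end CpG

open CpG

namespace Sf

open Fb Pw Vale.Agent.P297Z.Hb

variable {K : Type} [Field K] [Algebra ℂ K] {S : Surf K}

theorem Ctx.rel_pz {c : Ctx S} {r : ℕ} (hc : c.Cl r) (a : (c.Xr r).Pt) : Plk.Rel (c.pz a) :=
  let ⟨_, hZ⟩ := Ctx.pt_mem hc a
  hZ.1

theorem Ctx.rel_pl {c : Ctx S} {r : ℕ} (hc : c.Cl r) : Plk.Rel (c.pl r) := fun J J₁ =>
  sub_eq_zero.1 ((c.Xr r).sep _ fun z hz => by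
    rw [map_sub, map_mul, map_pow, map_mul, sub_eq_zero]
    exact (Ctx.rel_pz hc ⟨z, hz⟩ J J₁).trans
      (congrArg _ (Plk.plk_map (z : (c.Xr r).R →+* ℂ) _ _).symm))

theorem Ctx.β_eq (c : Ctx S) (r : ℕ) (τ : (Fin r → c.B) → ℂ) (s : (Fin r → c.B) × Fin r) :
    c.β r τ s = c.lc (Qt.vec τ s) := Ctx.β_apply τ s

theorem Ctx.exists_of {c : Ctx S} {r : ℕ} {f : K} (hf : f ∈ H0 c.D) (h0 : f ≠ 0) {Z : Zs S.W}
    (hZ : Z.len + r = c.s) (hd : Module.finrank ℂ (EM Z (c.A f) c.m) = r)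
    (hle : EM Z (c.A f) c.m ≤ M c.L c.m) :
    ∃ a : (c.Xr r).Pt, c.fz a = f ∧ c.IsPt (c.am a) Z := by
  obtain ⟨l, hl⟩ := (Submodule.mem_span_range_iff_exists_fun ℂ).1 (c.φ_span ▸ hf)
  have hl0 : l ≠ 0 := fun e => h0 (by simp [← hl, e])
  have hm : ((EM Z (c.A f) c.m).comap c.lc).map c.lc = EM Z (c.A f) c.m :=
    Submodule.map_comap_eq_self (c.range_lc ▸ hle)
  obtain ⟨p, h1, h2, h3⟩ := Plk.exists_rel (r := r) ((EM Z (c.A f) c.m).comap c.lc)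
    ((Submodule.equivMapOfInjective _ c.lc_inj _).finrank_eq.trans (hm.symm ▸ hd))
  have hp : p ≠ 0 := Function.ne_iff.2 h2
  let w : ((PP c.v).prod (c.Gr r)).Pt := Dim.pair (X := PP c.v)
    (Ge.adjPt (X := pt0) (fun _ => 0) Ge.o l hl0) (Ge.adjPt (fun _ => 0) Ge.o p hp)
  have e1 : c.fpt ((Mor.fst _ _).onPt w) = f := (congrArg c.fpt (Dim.fst_pair _ _)).trans
    ((congrArg (fun l : Fin (c.v + 1) → ℂ => ∑ i, l i • c.φ i) (Ge.co_adjPt Ge.o hl0)).trans hl)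
  have e2 : ((Mor.snd _ _).onPt w).co = p :=
    (congrArg Spc.Pt.co (Dim.snd_pair _ _)).trans (Ge.co_adjPt _ hp)
  have hw : c.IsPt w Z := ⟨e2 ▸ h1, hZ, by rw [e1, e2, Ctx.Usp, h3]; exact hm⟩
  obtain ⟨a, ha⟩ := Ctx.exists_pt ⟨Z, hw⟩
  exact ⟨a, (congrArg (fun w => c.fpt ((Mor.fst _ _).onPt w)) ha).trans e1, ha ▸ hw⟩

theorem _root_.Vale.Agent.P297Z.Spc.rad_prod {X Y : Spc} (z : (X.prod Y).Pt)
    {D : (X.prod Y).R →ₗ[ℂ] ℂ} (hD : D ∈ Tan z.1)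
    (h₁ : X.Rad ((Mor.fst X Y).onPt z) (D.comp (Mor.fst X Y).φ.toLinearMap))
    (h₂ : Y.Rad ((Mor.snd X Y).onPt z) (D.comp (Mor.snd X Y).φ.toLinearMap)) :
    (X.prod Y).Rad z D := by
  obtain ⟨ξ, h₁⟩ := h₁
  obtain ⟨η, h₂⟩ := h₂
  refine rad_of z hD (Sum.elim ξ η) (Spc.ten_induction X Y (Subalgebra.zero_mem _)
    (fun γ δ x hx y hy => ?_) fun _ _ => Subalgebra.add_mem _)
  have e : (Mor.fst X Y).φ x * (Mor.snd X Y).φ y = TensorProduct.tmul ℂ x y :=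
    (Algebra.TensorProduct.tmul_mul_tmul _ _ _ _).trans (by rw [mul_one, one_mul])
  refine e ▸ Subalgebra.mul_mem _
    (Algebra.subset_adjoin ⟨_, (Mor.fst X Y).wt_map γ x hx, (h₁ γ x hx).trans ?_⟩)
    (Algebra.subset_adjoin ⟨_, (Mor.snd X Y).wt_map δ y hy, (h₂ δ y hy).trans ?_⟩)
  · refine congrArg₂ (· * ·) ?_ rfl
    change _ = ∑ j : X.J ⊕ Y.J, Sum.elim ξ η j * ((Sum.elim γ 0 j : ℤ) : ℂ)
    simp
  · refine congrArg₂ (· * ·) ?_ rfl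
    change _ = ∑ j : X.J ⊕ Y.J, Sum.elim ξ η j * ((Sum.elim 0 δ j : ℤ) : ℂ)
    simp

namespace Two

variable {P : Two S} {h : S.All} {n₁ n₂ r₁ r₂ e₁ e₂ : ℕ} {σ : Fin r₁ ⊕ Fin r₂ ≃ Fin P.r}
  {j : Mor ((P.X r₁ r₂).prod ptT) (P.dat h).Pol}

theorem pt_y (z : ((P.X r₁ r₂).prod ptT).Pt) (J : Fin P.r → P.c₁.B ⊕ P.c₂.B) :
    z.1 (P.y σ J) = P.q σ ((P.π₁ r₁ r₂).onPt z) ((P.π₂ r₁ r₂).onPt z) J :=
  Plk.wed_map σ (z.1 : ((P.X r₁ r₂).prod ptT).R →+* ℂ) _ _ J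

theorem q_ne (c₁ : P.c₁.Cl r₁) (c₂ : P.c₂.Cl r₂) (a₁ : (P.c₁.Xr r₁).Pt) (a₂ : (P.c₂.Xr r₂).Pt) :
    P.q σ a₁ a₂ ≠ 0 :=
  Plk.wed_ne σ (Ctx.rel_pz c₁ a₁) (Ctx.rel_pz c₂ a₂) (Ctx.pz_ne a₁) (Ctx.pz_ne a₂)

theorem mem_sub_q (c₁ : P.c₁.Cl r₁) (c₂ : P.c₂.Cl r₂) (a₁ : (P.c₁.Xr r₁).Pt)
    (a₂ : (P.c₂.Xr r₂).Pt) (v : P.c₁.B ⊕ P.c₂.B → ℂ) : v ∈ Plk.sub (P.q σ a₁ a₂) ↔
      (fun i => v (.inl i)) ∈ Plk.sub (P.c₁.pz a₁) ∧ (fun i => v (.inr i)) ∈ Plk.sub (P.c₂.pz a₂) :=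
  Plk.mem_sub_wed σ (Ctx.rel_pz c₁ a₁) (Ctx.rel_pz c₂ a₂) (Ctx.pz_ne a₁) (Ctx.pz_ne a₂) v

theorem exists_j (h : S.All) (σ : Fin r₁ ⊕ Fin r₂ ≃ Fin P.r) (c₁ : P.c₁.Cl r₁) (c₂ : P.c₂.Cl r₂) :
    ∃ j, P.IsJ h σ j := by
  refine ⟨Mor.toAdj (Mor.snd _ ptT) (P.dat h).Ix (fun a _ => (P.dat h).d a)
    (P.dy r₁ r₂ - (Mor.snd (P.X r₁ r₂) ptT).ρ fun _ => r₂) (P.y σ) (fun J => ?_)
    (fun w => ?_), fun J => MvPolynomial.aevalTower_X _ _ J, fun γ => ?_⟩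
  · rcases Plk.wed_cases σ J with e | ⟨ε, J₁, J₂, e, e'⟩
    · exact (show P.y σ J = 0 from e _ _ _) ▸ Submodule.zero_mem _
    · refine Qt.wt_eq (γ := P.dy r₁ r₂) ((show P.y σ J = _ from e' _ _ _) ▸
        zsmul_mem (Spc.mul_mem ((P.π₁ r₁ r₂).wt_map _ _ (P.c₁.pl_wt r₁ J₁))
          ((P.π₂ r₁ r₂).wt_map _ _ (P.c₂.pl_wt r₂ J₂))) ε) ?_
      rw [(P.d_eq h J).trans e, add_sub_cancel]
  · obtain ⟨J, hJ⟩ := Function.ne_iff.1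
      (q_ne (σ := σ) c₁ c₂ ((P.π₁ r₁ r₂).onPt w) ((P.π₂ r₁ r₂).onPt w))
    exact ⟨J, (pt_y w J).trans_ne hJ⟩
  · change (Mor.snd (P.X r₁ r₂) ptT).ρ (fun j => γ (some j)) + γ none • _ = _
    rw [smul_sub, ← map_zsmul, add_sub, add_sub_right_comm, ← map_sub]
    rfl

theorem IsJ.co (hj : P.IsJ h σ j) (z : ((P.X r₁ r₂).prod ptT).Pt) :
    (P.dat h).co (j.onPt z) = P.q σ ((P.π₁ r₁ r₂).onPt z) ((P.π₂ r₁ r₂).onPt z) :=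
  funext fun J => (congrArg z.1 (hj.φ J)).trans (pt_y z J)

theorem IsJ.jt (hj : P.IsJ h σ j) : j.ρ (Pi.single (some ()) 1) = Pi.single (.inr ()) 1 := by
  rw [hj.ρ]
  change (Mor.snd (P.X r₁ r₂) ptT).ρ (fun _ => 1 - 0 * r₂) + (0 : ℤ) • _ = _
  rw [zero_mul, sub_zero, zero_smul, add_zero]
  funext i
  rcases i with i | ⟨⟩
  · exact (Pi.single_eq_of_ne (M := fun _ : ((P.X r₁ r₂).prod ptT).J => ℤ) Sum.inl_ne_inr _).symm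
  · exact (Pi.single_eq_same (M := fun _ : ((P.X r₁ r₂).prod ptT).J => ℤ) _ _).symm

theorem IsJ.fix (hj : P.IsJ h σ j) (J : (P.dat h).Ix) (hJ : (P.dat h).d J ≠ r₂) :
    j.φ (Amb.x (P.dat h).d J) = 0 :=
  (hj.φ J).trans (Plk.wed_cnt σ _ _ (P.d_eq h J ▸ hJ))

theorem IsJ.deg (hj : P.IsJ h σ j) (J : (P.dat h).Ix) (hJ : (P.dat h).d J = r₂) :
    j.ρ (Amb.deg (P.dat h).d J) = P.dy r₁ r₂ := by
  rw [hj.ρ]
  change (Mor.snd (P.X r₁ r₂) ptT).ρ (fun _ => (P.dat h).d J - 1 * r₂) + (1 : ℤ) • _ = _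
  rw [hJ, one_mul, sub_self, one_smul]
  exact (congrArg (· + _) (map_zero _)).trans (zero_add _)

theorem map_q (c₁ : P.c₁.Cl r₁) (c₂ : P.c₂.Cl r₂) (a₁ : (P.c₁.Xr r₁).Pt) (a₂ : (P.c₂.Xr r₂).Pt) :
    (Plk.sub (P.q σ a₁ a₂)).map P.lc =
      (P.c₁.Usp (P.c₁.pz a₁)).prod (P.c₂.Usp (P.c₂.pz a₂)) := by
  ext x
  constructor
  · rintro ⟨v, hv, rfl⟩
    obtain ⟨h1, h2⟩ := (mem_sub_q c₁ c₂ a₁ a₂ v).1 hv
    rw [lc_apply]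
    exact ⟨⟨_, h1, rfl⟩, _, h2, rfl⟩
  · rintro ⟨⟨v₁, h1, e1⟩, v₂, h2, e2⟩
    exact ⟨Sum.elim v₁ v₂, (mem_sub_q c₁ c₂ a₁ a₂ _).2 ⟨h1, h2⟩,
      (P.lc_apply _).trans (Prod.ext e1 e2)⟩

theorem typ (h : S.All) (o₁ : P.c₁.Ok r₁) (o₂ : P.c₂.Ok r₂) (c₁ : P.c₁.Cl r₁)
    (c₂ : P.c₂.Cl r₂) (s₁ : n₁ + r₁ = P.c₁.s) (s₂ : n₂ + r₂ = P.c₂.s) (hp : P.Hp (P.c₁.L - P.c₁.D) (P.c₂.L - P.c₂.D) n₁ n₂)
    {a₁ : (P.c₁.Xr r₁).Pt} {a₂ : (P.c₂.Xr r₂).Pt} {Z₁ Z₂ : Zs S.W}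
    (h₁ : P.c₁.IsPt (P.c₁.am a₁) Z₁) (h₂ : P.c₂.IsPt (P.c₂.am a₂) Z₂) :
    Z₁.len = n₁ ∧ Z₂.len = n₂ ∧ P.Typ (P.q σ a₁ a₂) (P.c₁.D + div S.W (P.c₁.fz a₁))
      (P.c₂.D + div S.W (P.c₂.fz a₂)) Z₁ Z₂ := by
  have l₁ : Z₁.len = n₁ := Nat.add_right_cancel (h₁.2.1.trans s₁.symm)
  have l₂ : Z₂.len = n₂ := Nat.add_right_cancel (h₂.2.1.trans s₂.symm)
  refine ⟨l₁, l₂, (Ctx.rel_pz c₁ a₁).wed σ (Ctx.rel_pz c₂ a₂), q_ne c₁ c₂ a₁ a₂, Ctx.eff_fz h a₁,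
    Ctx.eff_fz h a₂, fun k => ?_, (o₁.reg_pt le_rfl h₁).1, P.hm ▸ (o₂.reg_pt le_rfl h₂).1,
    (map_q c₁ c₂ a₁ a₂).trans
      (congrArg₂ (fun U V : Submodule ℂ K => U.prod V) h₁.2.2 (P.hm ▸ h₂.2.2))⟩
  rw [← hp k, l₁, l₂, ← Ctx.chi_A h (Ctx.fz_mem a₁).2, ← Ctx.chi_A h (Ctx.fz_mem a₂).2]
  rfl

theorem sub_orb {z z' : (P.dat h).Pol.Pt} {w : ℤ} (ho : (P.dat h).Pol.Orb z z')
    (hw : ∀ J, Plk.cnt J ≠ w → (P.dat h).co z J = 0) :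
    ∃ t : ℂ, t ≠ 0 ∧ (P.dat h).co z' = t • (P.dat h).co z := by
  obtain ⟨g, hg⟩ := ho
  refine ⟨chr (fun o : Option Unit => o.elim 1 fun _ => w) g, chr_ne _ _, funext fun J => ?_⟩
  refine (Spc.co_orb hg J).trans ?_
  by_cases e : Plk.cnt J = w
  · rw [(P.d_eq h J).trans e]
    rfl
  · exact (mul_eq_zero_of_right _ (hw J e)).trans (mul_eq_zero_of_right _ (hw J e)).symm

theorem orb_of_smul {z z' : (P.dat h).Pol.Pt} {t : ℂ} (e : (P.dat h).co z' = t • (P.dat h).co z) :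
    (P.dat h).Pol.Orb z z' := by
  have ht : t ≠ 0 := fun o => Ge.co_ne z' (e.trans (by rw [o, zero_smul]))
  let g : Option Unit → ℂˣ := fun o => o.elim (Units.mk0 t ht) 1
  refine Ge.adj_ext (z := Spc.mv z g) (z' := z') (ptT_ext _ _)
    (funext fun J => Eq.trans ?_ (congrFun e J).symm) ▸ Spc.orb_mv z _
  refine (Spc.co_orb (z := z) (g := g) rfl J).trans (congrArg₂ (· * ·) ?_ rfl)
  change chr (fun o : Option Unit => o.elim 1 fun _ => (P.dat h).d J) g = t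
  simp [g, chr, Fintype.prod_option]

theorem IsJ.inj (hj : P.IsJ h σ j) (t₁ : P.c₁.Tb h e₁ r₁) (t₂ : P.c₂.Tb h e₂ r₂) : j.Inj := by
  intro z z' ho
  obtain ⟨t, ht, e⟩ := sub_orb (w := r₂) ho fun J hJ =>
    (congrFun (hj.co z) J).trans (Plk.wed_cnt σ _ _ hJ)
  rw [hj.co, hj.co] at e
  have e' := (congrArg Plk.sub e).trans (Plk.sub_smul _ ht)
  have key : ∀ {c : Ctx S} {e r : ℕ} (t : c.Tb h e r) (a a' : (c.Xr r).Pt),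
      Plk.sub (c.pz a') ≤ Plk.sub (c.pz a) → (c.Xr r).Orb a a' := fun t a a' hle => by
    obtain ⟨J, hJ⟩ := Function.ne_iff.1 (Ctx.pz_ne a)
    obtain ⟨J', hJ'⟩ := Function.ne_iff.1 (Ctx.pz_ne a')
    obtain ⟨s, -, hs⟩ := (Ctx.rel_pz t.clo a).eq_of_sub (Ctx.rel_pz t.clo a') hJ hJ' hle
    exact t.inj _ _ (Ge.PI_orb (funext hs))
  refine (Spc.orb_prod _ _).2 ⟨(Spc.orb_prod _ _).2 ⟨key t₁ _ _ fun v hv => ?_,
    key t₂ _ _ fun v hv => ?_⟩, ptT_ext ((Mor.snd _ _).onPt z) _ ▸ Spc.Orb.refl _⟩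
  · exact ((mem_sub_q t₁.clo t₂.clo _ _ (Sum.elim v 0)).1
      (e' ▸ (mem_sub_q t₁.clo t₂.clo _ _ _).2 ⟨hv, Submodule.zero_mem _⟩)).1
  · exact ((mem_sub_q t₁.clo t₂.clo _ _ (Sum.elim 0 v)).1
      (e' ▸ (mem_sub_q t₁.clo t₂.clo _ _ _).2 ⟨Submodule.zero_mem _, hv⟩)).2

/-- the rule of Leibniz for the coordinates -/
theorem tan_y (z : ((P.X r₁ r₂).prod ptT).Pt) {D : ((P.X r₁ r₂).prod ptT).R →ₗ[ℂ] ℂ}
    (hD : D ∈ Tan z.1) (J : Fin P.r → P.c₁.B ⊕ P.c₂.B) :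
    D (P.y σ J) = Plk.dwed σ (P.c₁.pz ((P.π₁ r₁ r₂).onPt z)) (P.c₂.pz ((P.π₂ r₁ r₂).onPt z))
      (fun J => D ((P.π₁ r₁ r₂).φ (P.c₁.pl r₁ J))) (fun J => D ((P.π₂ r₁ r₂).φ (P.c₂.pl r₂ J))) J := by
  rcases Plk.wed_cases σ J with e | ⟨ε, J₁, J₂, -, e⟩
  · rw [y, Plk.dwed, e, e, e, map_zero, add_zero]
  · rw [y, Plk.dwed, e, e, e, map_zsmul, hD, ← smul_add, add_comm, mul_comm]
    rfl

theorem IsJ.unr (hj : P.IsJ h σ j) (hG : Qt.GRT) (t₁ : P.c₁.Tb h e₁ r₁) (t₂ : P.c₂.Tb h e₂ r₂) :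
    j.Unr := by
  rintro z D hD ⟨ξ, hξ⟩
  obtain ⟨a, b, ha, hb, -⟩ := Plk.dwed_rad σ hG (Ctx.rel_pz t₁.clo ((P.π₁ r₁ r₂).onPt z))
    (Ctx.rel_pz t₂.clo ((P.π₂ r₁ r₂).onPt z)) (Ctx.pz_ne _) (Ctx.pz_ne _)
    (Plk.mem_TG z.1 hD ((Ctx.rel_pl t₁.clo).map (P.π₁ r₁ r₂).φ.toRingHom))
    (Plk.mem_TG z.1 hD ((Ctx.rel_pl t₂.clo).map (P.π₂ r₁ r₂).φ.toRingHom))
    (s := ξ none + ξ (some ()) * r₂) (funext fun J => by
      refine ((tan_y z hD J).symm.trans (congrArg D (hj.φ J).symm)).trans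
        ((hξ _ _ (Spc.X_mem ptT _ _ J)).trans ?_)
      refine (congrArg (_ * ·) (congrFun (hj.co z) J)).trans ?_
      by_cases e : Plk.cnt J = r₂
      · refine congrArg₂ (· * ·) ?_ rfl
        change ∑ o : Option Unit, ξ o * ((o.elim 1 fun _ => (P.dat h).d J : ℤ) : ℂ) = _
        rw [(P.d_eq h J).trans e, Fintype.sum_option, Fintype.sum_unique]
        exact congrArg₂ (· + ·) ((congrArg _ Int.cast_one).trans (mul_one _)) rfl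
      · exact (mul_eq_zero_of_right _ (Plk.wed_cnt σ _ _ e)).trans
          (mul_eq_zero_of_right _ (Plk.wed_cnt σ _ _ e)).symm)
  have d₁ := tan_comp (P.π₁ r₁ r₂) hD
  have d₂ := tan_comp (P.π₂ r₁ r₂) hD
  exact Spc.rad_prod z hD (Spc.rad_prod _ (tan_comp _ hD)
    (t₁.unr _ _ d₁ (rad_PI _ (tan_comp _ d₁) (congrFun ha)))
    (t₂.unr _ _ d₂ (rad_PI _ (tan_comp _ d₂) (congrFun hb)))) (rad_ptT _ (tan_comp _ hD))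

end Two

end Sf

end Vale.Agent.P297Z
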