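import Vale.Agent.P297Z.Cp.Pts
import Vale.Agent.P297Z.Surf.SspB
import Vale.Agent.P297Z.K.AF
import Vale.Agent.P297Z.Quot.Big

/-! P297: the Euler characteristics of the quotient at a point that is a direct sum. -/

set_option linter.all false

noncomputable section

namespace Vale.Agent.P297Z

namespace Sf

open Fb Pw SA Sl

variable {K : Type} [Field K] [Algebra ℂ K] {S : Surf K}

namespace Tau

/-- an element of a direct sum -/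
def pm {X : Spc} {A B : GMod X} (x : A.M) (y : B.M) : (A.prod B).M := (x, y)

theorem pm_wt {X : Spc} {A B : GMod X} {γ : X.J → ℤ} {x : A.M} {y : B.M} (hx : x ∈ A.wt γ)
    (hy : y ∈ B.wt γ) : pm x y ∈ (A.prod B).wt γ := fun g => Prod.ext (hx g) (hy g)

theorem prod_loc {X : Spc} {A B V : GMod X} (z : X.R →ₐ[ℂ] ℂ) (f : (A.prod B).M →ₗ[X.R] V.M)
    (G : Submodule X.R V.M) {α : A.M} {β : B.M} (c1 : f (pm α 0) ∈ G) (c2 : f (pm 0 β) ∈ G)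
    (x : (A.prod B).M) (h1 : ∃ r u : X.R, z r ≠ 0 ∧ r • x.1 = u • α)
    (h2 : ∃ r u : X.R, z r ≠ 0 ∧ r • x.2 = u • β) : ∃ r, z r ≠ 0 ∧ r • f x ∈ G := by
  obtain ⟨r, u, r1, r2⟩ := h1
  obtain ⟨r', u', r3, r4⟩ := h2
  have c3 : (r * r') • x = (r' * u) • pm α 0 + (r * u') • pm 0 β := by
    refine Prod.ext ?_ ?_
    · change (r * r') • x.1 = (r' * u) • α + (r * u') • (0 : A.M)
      rw [smul_zero, add_zero, mul_smul r', ← r2, mul_comm, mul_smul]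
    · change (r * r') • x.2 = (r' * u) • (0 : B.M) + (r * u') • β
      rw [smul_zero, zero_add, mul_smul r u', ← r4, mul_smul]
  refine ⟨_, ev_mul r1 r3, ?_⟩
  rw [← map_smul, c3, map_add, map_smul, map_smul]
  exact G.add_mem (G.smul_mem _ c1) (G.smul_mem _ c2)

theorem M_sub_le {L D : Div S.W} (hD : 0 ≤ D) (k : ℤ) : M (L - D) k ≤ M L k :=
  secOn_mono fun C _ => ⟨trivial, by
    have := hD C
    simp only [Finsupp.add_apply, Finsupp.sub_apply, Finsupp.coe_zero, Pi.zero_apply] at this ⊢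
    omega⟩

/-- the inclusion of the modules of sections -/
def inc (h : S.All) (L : Div S.W) {D : Div S.W} (hD : 0 ≤ D) :
    (S.lb h (L - D)).M →ₗ[(S.spc h).R] (S.lb h L).M :=
  Submodule.inclusion (p := S.lbS (L - D)) (p' := S.lbS L) fun f hf m => M_sub_le hD m (hf m)

theorem exists_gen (h : S.All) (hB : FibB S) {m : ℤ} {A : Div S.W} {Z : Zs S.W} (hR : Reg S m A Z)
    {p : Pt S.W} (hp : Z.J p = ⊤) : ∃ a ∈ EM Z A m, GenAt p (A + m • S.H) a := by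
  obtain ⟨s, hs⟩ := h.gen p (A + m • S.H)
  have h1 := hB.stalk m A Z hR p s hs
  by_contra h2
  refine (IsLocalRing.maximalIdeal.isMaximal p.ring).ne_top (eq_top_iff.2 ?_)
  rw [← hp, h1, Ideal.span_le]
  intro a ha
  by_contra h3
  obtain ⟨h4, h5⟩ := Pt.inv_mem a.2 fun e => h3 ((p.mem_max a).2 e)
  have h6 : GenAt p 0 (a : K) :=
    ⟨h4, fun C hC => by simpa using Pl.ord_unit _ (hC _ a.2) (hC _ h5)⟩
  exact h2 ⟨_, ha, zero_add (A + m • S.H) ▸ genAt_mul h6 hs⟩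

theorem chiG_lb (h : S.All) (B L : Div S.W) :
    chiG _ (kact _ (S.lK h B) (cls (S.lb h L))) = chi (B + L) := by
  rw [← kact_lK_oG, ← kact_mul, ← lK_add, chiG_lK]

theorem cdim_lt (h : S.All) {T : Set (Pt S.W)} (hT : T.Finite) :
    (S.spc h).cdim {z | ∃ p ∈ T, S.Over h z p} < (1 + Fintype.card (S.spc h).J : ℕ) := by
  haveI := hT.to_subtype
  choose y hy using exists_pt h
  refine (Dim.cdim_mono (W := ⋃ p : T, {z | (S.spc h).Orb (y p) z}) ?_).trans_lt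
    (Dim.cdim_iUnion_lt fun p => ?_)
  · rintro z ⟨p, hp, hz⟩
    exact Set.mem_iUnion.2 ⟨⟨p, hp⟩, orb_of_over (hy p) hz⟩
  · rw [add_comm]
    exact Dim.le_iff_lt_succ.1 (Dim.cdim_orb_le _)

end Tau

open Tau

namespace Two

variable {P : Two S} {h : S.All} {q : (Fin P.r → P.c₁.B ⊕ P.c₂.B) → ℂ} {D₁ D₂ : Div S.W}
  {Z₁ Z₂ : Zs S.W}

variable (P h) in
/-- the element of the sum with given components -/
def pr (x : S.lbS P.c₁.L) (y : S.lbS P.c₂.L) : (P.dat h).V.M :=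
  fun a => Bool.rec (motive := fun a => S.lbS (P.Ld a)) x y a

variable (P h) in
/-- the inclusion of the sum of the smaller line bundles -/
def incl (e₁ : 0 ≤ D₁) (e₂ : 0 ≤ D₂) :
    ((S.lb h (P.c₁.L - D₁)).prod (S.lb h (P.c₂.L - D₂))).M →ₗ[(S.spc h).R] (P.dat h).V.M where
  toFun := fun x => P.pr h (inc h _ e₁ x.1) (inc h _ e₂ x.2)
  map_add' := fun x y => funext fun a => by cases a <;> rfl
  map_smul' := fun r x => funext fun a => by cases a <;> rfl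

theorem incl_hom (e₁ : 0 ≤ D₁) (e₂ : 0 ≤ D₂) :
    ((S.lb h (P.c₁.L - D₁)).prod (S.lb h (P.c₂.L - D₂))).IsHom (P.dat h).V (P.incl h e₁ e₂) :=
  fun g x => funext fun a => by cases a <;> rfl

theorem incl_inj (e₁ : 0 ≤ D₁) (e₂ : 0 ≤ D₂) : Function.Injective (P.incl h e₁ e₂) :=
  fun x y e => Prod.ext (Subtype.ext (congrArg Subtype.val (congrFun e false) :))
    (Subtype.ext (congrArg Subtype.val (congrFun e true) :))

theorem mem_incl (e₁ : 0 ≤ D₁) (e₂ : 0 ≤ D₂) {v : (P.dat h).V.M}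
    (hv : ∀ k, P.cv h k v ∈ (M (P.c₁.L - D₁) k).prod (M (P.c₂.L - D₂) k)) :
    v ∈ LinearMap.range (P.incl h e₁ e₂) :=
  ⟨(⟨(show S.lbS P.c₁.L from v false).1, fun k => (hv k).1⟩,
    ⟨(show S.lbS P.c₂.L from v true).1, fun k => (hv k).2⟩), funext fun a => by cases a <;> rfl⟩

theorem cv_incl₁ (e₁ : 0 ≤ D₁) (e₂ : 0 ≤ D₂) (k : ℤ) (a : K) (ha : a ∈ M (P.c₁.L - D₁) k) :
    P.cv h k (P.incl h e₁ e₂ (pm (S.sec k a ha) 0)) = (a, 0) :=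
  Prod.ext ((coeff_mon a k k).trans (if_pos rfl)) rfl

theorem cv_incl₂ (e₁ : 0 ≤ D₁) (e₂ : 0 ≤ D₂) (k : ℤ) (a : K) (ha : a ∈ M (P.c₂.L - D₂) k) :
    P.cv h k (P.incl h e₁ e₂ (pm 0 (S.sec k a ha))) = (0, a) :=
  Prod.ext rfl ((coeff_mon a k k).trans (if_pos rfl))

theorem tau_eq (b : K0 (S.spc h)) :
    (P.dat h).tau b q = chiG _ (kact _ b (cls ((P.dat h).F0 q))) := rfl

theorem Typ.mem (hA : FibA S) (ht : P.Typ q D₁ D₂ Z₁ Z₂) {k : ℤ} (hk : P.c₁.m ≤ k)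
    {v : (P.dat h).V.M} (hv : v ∈ (P.dat h).V.wt (Qt.dg _ k)) : v ∈ (P.dat h).gen q ↔
      P.cv h k v ∈ (EM Z₁ (P.c₁.L - D₁) k).prod (EM Z₂ (P.c₂.L - D₂) k) := by
  obtain ⟨j, rfl⟩ : ∃ j : ℕ, k = P.c₁.m + j := ⟨(k - P.c₁.m).toNat, by omega⟩
  rw [P.mem_gen h q j hv, ht.gen hA j]

theorem Typ.le (hA : FibA S) (ht : P.Typ q D₁ D₂ Z₁ Z₂) :
    (P.dat h).gen q ≤ LinearMap.range (P.incl h ht.eff₁ ht.eff₂) := by
  have e : (P.dat h).gen q = Submodule.span _ (Set.range ((P.dat h).v0 q)) :=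
    Fintype.range_linearCombination _ _
  have h1 : ∀ s, (P.dat h).v0 q s ∈ (P.dat h).gen q := fun s =>
    e ▸ Submodule.subset_span ⟨s, rfl⟩
  rw [e, Submodule.span_le]
  rintro _ ⟨s, rfl⟩
  refine mem_incl _ _ fun k => ?_
  by_cases hk : k = P.c₁.m
  · have h2 := (ht.mem hA le_rfl ((P.dat h).v0_wt q s)).1 (h1 s)
    rw [hk]
    exact ⟨hA.le _ _ _ h2.1, hA.le _ _ _ h2.2⟩
  · rw [P.cv_of_wt h ((P.dat h).v0_wt q s) hk]
    exact Submodule.zero_mem _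

theorem incl_wt (e₁ : 0 ≤ D₁) (e₂ : 0 ≤ D₂) {k : ℤ} {x : (S.lb h (P.c₁.L - D₁)).M}
    {y : (S.lb h (P.c₂.L - D₂)).M} (hx : x ∈ (S.lb h (P.c₁.L - D₁)).wt (Qt.dg _ k))
    (hy : y ∈ (S.lb h (P.c₂.L - D₂)).wt (Qt.dg _ k)) :
    P.incl h e₁ e₂ (pm x y) ∈ (P.dat h).V.wt (Qt.dg _ k) :=
  (incl_hom e₁ e₂).map_wt (pm_wt hx hy)

theorem Typ.mem₁ (hA : FibA S) (ht : P.Typ q D₁ D₂ Z₁ Z₂) {a : K}
    (a1 : a ∈ EM Z₁ (P.c₁.L - D₁) P.c₁.m) (ha : a ∈ M (P.c₁.L - D₁) P.c₁.m) :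
    P.incl h ht.eff₁ ht.eff₂ (pm (S.sec _ a ha) 0) ∈ (P.dat h).gen q := by
  have h1 := incl_wt (h := h) ht.eff₁ ht.eff₂ (k := P.c₁.m) (sec_mem_wt S h _ a ha)
    (Submodule.zero_mem _)
  rw [ht.mem hA le_rfl h1, cv_incl₁, Submodule.mem_prod]
  exact ⟨a1, Submodule.zero_mem _⟩

theorem Typ.mem₂ (hA : FibA S) (ht : P.Typ q D₁ D₂ Z₁ Z₂) {a : K}
    (a1 : a ∈ EM Z₂ (P.c₂.L - D₂) P.c₁.m) (ha : a ∈ M (P.c₂.L - D₂) P.c₁.m) :
    P.incl h ht.eff₁ ht.eff₂ (pm 0 (S.sec _ a ha)) ∈ (P.dat h).gen q := by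
  have h1 := incl_wt (h := h) ht.eff₁ ht.eff₂ (k := P.c₁.m) (Submodule.zero_mem _)
    (sec_mem_wt S h _ a ha)
  rw [ht.mem hA le_rfl h1, cv_incl₂, Submodule.mem_prod]
  exact ⟨Submodule.zero_mem _, a1⟩

theorem Typ.loc (hA : FibA S) (hB : FibB S) (ht : P.Typ q D₁ D₂ Z₁ Z₂) {z : (S.spc h).Pt}
    {p : Pt S.W} (hz : S.Over h z p) (h₁ : Z₁.J p = ⊤) (h₂ : Z₂.J p = ⊤)
    (x : ((S.lb h (P.c₁.L - D₁)).prod (S.lb h (P.c₂.L - D₂))).M) :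
    ∃ r, z.1 r ≠ 0 ∧ r • P.incl h ht.eff₁ ht.eff₂ x ∈ (P.dat h).gen q := by
  obtain ⟨a, a1, a2⟩ := Tau.exists_gen h hB ht.reg₁ h₁
  obtain ⟨b, b1, b2⟩ := Tau.exists_gen h hB ht.reg₂ h₂
  have c1 := ht.mem₁ (h := h) hA a1 (hA.le _ _ _ a1)
  have c2 := ht.mem₂ (h := h) hA b1 (hA.le _ _ _ b1)
  have c3 := lb_gen S h _ p z hz _ a (hA.le _ _ _ a1) a2 x.1
  have c4 := lb_gen S h _ p z hz _ b (hA.le _ _ _ b1) b2 x.2
  exact prod_loc z.1 _ _ c1 c2 x c3 c4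

theorem Typ.cls (hA : FibA S) (hB : FibB S) (ht : P.Typ q D₁ D₂ Z₁ Z₂) :
    ∃ y ∈ Fd (S.spc h) 1, cls ((P.dat h).F0 q) = y +
      (cls (S.lb h P.c₁.L) - cls (S.lb h (P.c₁.L - D₁))) +
      (cls (S.lb h P.c₂.L) - cls (S.lb h (P.c₂.L - D₂))) := by
  have hi := incl_hom (P := P) (h := h) ht.eff₁ ht.eff₂
  have h1 := cls_ses (hi.ses_coker fun z => InjAt.of_inj (incl_inj _ _))
  have h2 : P297Z.cls (P.dat h).V =
      P297Z.cls (S.lb h P.c₂.L) + P297Z.cls (S.lb h P.c₁.L) :=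
    (cls_pi _).trans (Fintype.sum_bool _)
  have h3 := (GMod.IsHom.id (P.dat h).V).mapQ ((P.dat h).μ0_hom q).stab_range hi.stab_range
    (ht.le hA)
  refine ⟨_, AF.birat_Fl h3 _ (fun z hz => ⟨fun v hv => ?_, SurjAt.of_surj fun v => ?_⟩)
    (cdim_lt h (Z₁.fin.union Z₂.fin)), ?_⟩
  · obtain ⟨v, rfl⟩ := Submodule.Quotient.mk_surjective _ v
    obtain ⟨x, hx⟩ := (Submodule.Quotient.mk_eq_zero _).1 hv
    obtain ⟨p, hp⟩ := exists_over z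
    obtain ⟨r, r1, r2⟩ := ht.loc hA hB hp (by_contra fun e => hz ⟨p, Or.inl e, hp⟩)
      (by_contra fun e => hz ⟨p, Or.inr e, hp⟩) x
    rw [hx] at r2
    exact ⟨r, r1, (Submodule.Quotient.mk_eq_zero _).2 r2⟩
  · obtain ⟨v, rfl⟩ := Submodule.Quotient.mk_surjective _ v
    exact ⟨Submodule.Quotient.mk v, rfl⟩
  · rw [h2, cls_prod] at h1
    have h4 := eq_sub_of_add_eq' h1.symm
    change P297Z.cls ((P.dat h).F0 q) = P297Z.cls ((P.dat h).F0 q) - P297Z.cls hi.cokerM + _ + _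
    rw [h4]
    abel

theorem Typ.tau (hA : FibA S) (hB : FibB S) (ht : P.Typ q D₁ D₂ Z₁ Z₂) (B : Div S.W) :
    (P.dat h).tau (S.lK h B) q = chi (B + P.c₁.L) - chi (B + (P.c₁.L - D₁)) + Z₁.len +
      (chi (B + P.c₂.L) - chi (B + (P.c₂.L - D₂)) + Z₂.len) := by
  obtain ⟨y, hy, e⟩ := ht.cls (h := h) hA hB
  have key : ∀ B : Div S.W, (P.dat h).tau (S.lK h B) q = chiG _ y +
      (chi (B + P.c₁.L) - chi (B + (P.c₁.L - D₁))) +
      (chi (B + P.c₂.L) - chi (B + (P.c₂.L - D₂))) := fun B => by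
    rw [tau_eq, e]
    simp only [map_add, map_sub, Tau.chiG_lb]
    rw [AF.chiG_kact (isProj h) _ hy, rk_lK, one_mul]
  obtain ⟨k₀, hk⟩ := chiG_shift (isProj h) ((P.dat h).F0 q)
  obtain ⟨k₁, l₁⟩ := h.large P.c₁.L
  obtain ⟨k₂, l₂⟩ := h.large P.c₂.L
  obtain ⟨k, b0, b1, b2, b3⟩ : ∃ k : ℤ, k₀ () ≤ k ∧ k₁ ≤ k ∧ k₂ ≤ k ∧ P.c₁.m ≤ k :=
    ⟨max (max (k₀ ()) k₁) (max k₂ P.c₁.m), by omega, by omega, by omega, by omega⟩
  have h1 := key (k • S.H)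
  rw [tau_eq, lK_H, kact_line, hk (fun _ => k) fun _ => b0] at h1
  have h2 := (sur S h).hq_eq _ ((P.dat h).μ0_hom q).stab_range k
  have h3 := P.hq_eq h ((P.dat h).gen q) k _ _ ((hA.le Z₁ _ k).trans (M_sub_le ht.eff₁ k))
    ((hA.le Z₂ _ k).trans (M_sub_le ht.eff₂ k)) fun v hv => ht.mem hA b3 hv
  rw [ht.reg₁.dim k b3, ht.reg₂.dim k b3, l₁ k b1, l₂ k b2] at h3
  have h4 := h1.symm.trans (h2.symm.trans h3)
  simp only [add_comm (k • S.H)] at h4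
  rw [key]
  omega

end Two

end Sf

end Vale.Agent.P297Z
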