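import Vale.Agent.P297Z.Cp.Wed2
import Vale.Agent.P297Z.Cp.Dic
import Vale.Agent.P297Z.Cp.Geo

/-! P297: the fixed tangent vectors. -/

noncomputable section

namespace Vale.Agent.P297Z.Sf

open Fb Pw

variable {K : Type} [Field K] [Algebra ℂ K] {S : Surf K}

namespace TtA

variable {V B ι ι' : Type} [AddCommGroup V] [Module K V] [Module ℂ V] [IsScalarTower ℂ K V]
  [AddCommGroup B] [Module ℂ B] [Fintype ι] [Fintype ι'] {W : Submodule ℂ K} {j : ℕ}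
  {x : ι → B} (L : B →ₗ[ℂ] V)

theorem smul_mem_Gn {t : K} (ht : t ∈ W ^ j) {w : B} (hw : w ∈ Submodule.span ℂ (Set.range x)) :
    t • L w ∈ Gn W (fun s => L (x s)) j := by
  obtain ⟨m, rfl⟩ := (Submodule.mem_span_range_iff_exists_fun ℂ).1 hw
  exact ⟨fun s => m s • t, fun s => Submodule.smul_mem _ _ ht, by
    simp [Finset.smul_sum, smul_comm t]⟩

theorem mov_iff {y y' : ι → B} (h : ∀ s, y s - y' s ∈ Submodule.span ℂ (Set.range x)) {c : ι → K}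
    (hc : ∀ s, c s ∈ W ^ j) : ∑ s, c s • L (y s) ∈ Gn W (fun s => L (x s)) j ↔
      ∑ s, c s • L (y' s) ∈ Gn W (fun s => L (x s)) j := by
  rw [← Submodule.sub_mem_iff_left _ (Submodule.sum_mem _ fun s (_ : s ∈ Finset.univ) =>
    smul_mem_Gn L (hc s) (h s))]
  simp [smul_sub]

theorem transfer {x' : ι' → B} (hx : ∀ a, x' a ∈ Submodule.span ℂ (Set.range x)) (φ : B →ₗ[ℂ] B)
    {N : Submodule ℂ V} (H : ∀ c ∈ RelV W (fun s => L (x s)) j, ∑ s, c s • L (φ (x s)) ∈ N) :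
    ∀ c ∈ RelV W (fun a => L (x' a)) j, ∑ a, c a • L (φ (x' a)) ∈ N := fun c hc => by
  choose m hm using fun a => (Submodule.mem_span_range_iff_exists_fun ℂ).1 (hx a)
  have key : ∀ F : B →ₗ[ℂ] V, ∑ s, (∑ a, m a s • c a) • F (x s) = ∑ a, c a • F (x' a) := fun F => by
    simp only [← hm, map_sum, map_smul, Finset.sum_smul, Finset.smul_sum, smul_assoc]
    rw [Finset.sum_comm]
    simp only [smul_comm (c _)]
  exact key (L ∘ₗ φ) ▸ H _ ⟨fun s => Submodule.sum_mem _ fun a _ => Submodule.smul_mem _ _ (hc.1 a),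
    (key L).trans hc.2⟩

variable {c : Ctx S} {r e : ℕ} {h : S.All}

theorem pz_ne (a : (c.Xr r).Pt) : c.pz a ≠ 0 := Hb.Ge.co_ne (X := pt0) ((c.gr r).onPt a)

theorem mem_TT (t : c.Tb h e r) {a : (c.Xr r).Pt} {τ : (Fin r → c.B) → ℂ} (h1 : Plk.Alt τ)
    (h2 : ∀ j, ∀ b ∈ RelV S.W (fun s => c.lc (Qt.vec (c.pz a) s)) j,
      ∑ s, b s • c.lc (Qt.vec τ s) ∈ Gn S.W (fun s => c.lc (Qt.vec (c.pz a) s)) j) :
    τ ∈ c.TT r a := by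
  rw [t.eq]
  refine ⟨fun J π => (h1 J π).trans (zsmul_eq_mul _ _), fun s => ?_, fun j b hb => ?_⟩
  · refine ⟨fun i => algebraMap ℂ K (Qt.vec τ s i), fun i => ?_, ?_⟩
    · rw [pow_zero]
      exact Submodule.algebraMap_mem _
    · exact (Finset.sum_congr rfl fun i _ => algebraMap_smul K _ _).trans (c.β_eq r τ s).symm
  · rw [funext (c.β_eq r τ)]
    exact h2 j b hb

theorem self_mem (t : c.Tb h e r) (a : (c.Xr r).Pt) : c.pz a ∈ c.TT r a :=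
  mem_TT t (Ctx.rel_pz t.clo a).alt fun _ _ hb => hb.2.symm ▸ zero_mem _

end TtA

namespace Two

open TtA

variable {P : Two S} {h : S.All} {n₁ n₂ r₁ r₂ e₁ e₂ : ℕ} {σ : Fin r₁ ⊕ Fin r₂ ≃ Fin P.r}
  {j : Mor ((P.X r₁ r₂).prod ptT) (P.dat h).Pol}

theorem tt (hG : Qt.GRT) (hT : Qt.TAN) (hB : Qt.BAS) (hp : Qt.Pts (sur S h) (P.dat h))
    (t₁ : P.c₁.Tb h e₁ r₁) (t₂ : P.c₂.Tb h e₂ r₂)
    (a₁ : (P.c₁.Xr r₁).Pt) (a₂ : (P.c₂.Xr r₂).Pt) (hq : (P.dat h).Pt (P.q σ a₁ a₂))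
    {τ : (Fin P.r → P.c₁.B ⊕ P.c₂.B) → ℂ} (hτ : τ ∈ Qt.Tq (P.dat h).I (P.q σ a₁ a₂))
    (hw : ∀ J, Plk.cnt J ≠ r₂ → τ J = 0) :
      ∃ τ₁ ∈ P.c₁.TT r₁ a₁, ∃ τ₂ ∈ P.c₂.TT r₂ a₂,
        τ = Plk.dwed σ (P.c₁.pz a₁) (P.c₂.pz a₂) τ₁ τ₂ := by
  have h₁ := Ctx.rel_pz t₁.clo a₁
  have h₂ := Ctx.rel_pz t₂.clo a₂
  have n₁ := pz_ne a₁
  have n₂ := pz_ne a₂
  obtain ⟨τ₁, k₁, τ₂, k₂, e⟩ := Plk.exists_dwed σ hG h₁ h₂ n₁ n₂
    (fun a ha => hτ a (Ideal.mem_sup_left ha)) hw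
  obtain ⟨φ₁, m₁⟩ := Plk.exists_mov hG h₁ n₁ k₁
  obtain ⟨φ₂, m₂⟩ := Plk.exists_mov hG h₂ n₂ k₂
  have m := (Plk.dwed_mem σ hG h₁ h₂ n₁ n₂ k₁ k₂ m₁ m₂).2
  rw [← e] at m
  have H := (P.tan_iff h _ τ).1 ((hT hB _ (sur S h) (P.dat h) _ τ (hp.reg _ hq).hq).1
    fun a ha => hτ a (Ideal.mem_sup_right (Ideal.subset_span ha)))
  have e1 : ∀ j, Gn S.W (fun s => P.lc (Qt.vec (P.q σ a₁ a₂) s)) j =
      (Gn S.W (fun s => P.c₁.lc (Qt.vec (P.c₁.pz a₁) s)) j).prod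
        (Gn S.W (fun s => P.c₂.lc (Qt.vec (P.c₂.pz a₂) s)) j) := Gn_prod _ (by
    rw [← funext (P.c₁.β_eq r₁ _), ← funext (P.c₂.β_eq r₂ _), Ctx.span_β, Ctx.span_β,
      ← map_q t₁.clo t₂.clo, ← Plk.span_vec, Submodule.map_span, ← Set.range_comp]
    rfl)
  have H' : ∀ j, ∀ c ∈ RelV S.W (fun s => P.lc (Qt.vec (P.q σ a₁ a₂) s)) j,
      ∑ s, c s • P.lc (Plk.dsum φ₁ φ₂ (Qt.vec (P.q σ a₁ a₂) s)) ∈ _ := fun j c hc =>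
    (e1 j).le ((mov_iff P.lc (fun s => (Plk.span_vec _).ge (m s)) hc.1).1 (H j c hc))
  refine ⟨τ₁, mem_TT t₁ (Plk.TG_alt hG h₁ n₁ k₁) fun j b hb => ?_, τ₂,
    mem_TT t₂ (Plk.TG_alt hG h₂ n₂ k₂) fun j b hb => ?_, e⟩
  · refine (mov_iff P.c₁.lc (fun s => (Plk.span_vec _).ge (m₁ s)) hb.1).2 ?_
    have := (transfer P.lc (x' := fun s => Sum.elim (Qt.vec (P.c₁.pz a₁) s) 0) (fun s =>
      (Plk.span_vec _).ge ((Plk.mem_sub_wed σ h₁ h₂ n₁ n₂ _).2 ⟨Plk.vec_mem _ s, zero_mem _⟩)) _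
      (H' j) b ⟨hb.1, Prod.ext (by simpa [lc_apply, Prod.fst_sum] using hb.2)
        (by simp [lc_apply, Prod.snd_sum, ← Pi.zero_def])⟩).1
    simpa [lc_apply, Prod.fst_sum, Plk.dsum] using this
  · refine (mov_iff P.c₂.lc (fun s => (Plk.span_vec _).ge (m₂ s)) hb.1).2 ?_
    have := (transfer P.lc (x' := fun s => Sum.elim 0 (Qt.vec (P.c₂.pz a₂) s)) (fun s =>
      (Plk.span_vec _).ge ((Plk.mem_sub_wed σ h₁ h₂ n₁ n₂ _).2 ⟨zero_mem _, Plk.vec_mem _ s⟩)) _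
      (H' j) b ⟨hb.1, Prod.ext (by simp [lc_apply, Prod.fst_sum, ← Pi.zero_def])
        (by simpa [lc_apply, Prod.snd_sum] using hb.2)⟩).2
    simpa [lc_apply, Prod.snd_sum, Plk.dsum] using this

theorem IsJ.tan (hj : P.IsJ h σ j) (hG : Qt.GRT) (hT : Qt.TAN) (hB : Qt.BAS)
    (hp : Qt.Pts (sur S h) (P.dat h)) (t₁ : P.c₁.Tb h e₁ r₁) (t₂ : P.c₂.Tb h e₂ r₂)
    (hq : ∀ a₁ a₂, (P.dat h).Pt (P.q σ a₁ a₂)) {I : Ideal (P.dat h).Pol.R} (hI : (P.dat h).I ≤ I)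
    (z : ((P.X r₁ r₂).prod ptT).Pt) (V : Submodule ℂ ((P.dat h).Pol.R →ₗ[ℂ] ℂ))
    (hV : ∀ D ∈ V, D ∈ Tan (j.onPt z).1 ∧ (∀ a ∈ I, D a = 0) ∧
      ∀ a, (P.dat h).d a ≠ r₂ → D (Amb.x (P.dat h).d a) = 0) :
    Module.finrank ℂ V ≤ e₁ + e₂ + 1 := by
  have hc := hj.co z
  generalize (P.π₁ r₁ r₂).onPt z = a₁ at hc
  generalize (P.π₂ r₁ r₂).onPt z = a₂ at hc
  let Ψ : V →ₗ[ℂ] ((Fin P.r → P.c₁.B ⊕ P.c₂.B) → ℂ) :=
    (LinearMap.pi fun J => LinearMap.applyₗ ((P.dat h).X J)) ∘ₗ V.subtype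
  have h1 : ∀ (D : V) a, D.1 a = Qt.dd (P.q σ a₁ a₂) (Ψ D) a := fun D a =>
    hc ▸ (congrArg D.1 (MvPolynomial.aeval_X_left_apply a)).symm.trans
      (Plk.dd_eq _ (hV D.1 D.2).1 (P.dat h).X a)
  let Φ : (P.c₁.TT r₁ a₁ × P.c₂.TT r₂ a₂) →ₗ[ℂ] ((Fin P.r → P.c₁.B ⊕ P.c₂.B) → ℂ) :=
    { toFun := fun t => Plk.dwed σ (P.c₁.pz a₁) (P.c₂.pz a₂) t.1 t.2
      map_add' := fun t t' => funext fun J => by
        simp only [Plk.dwed, Prod.fst_add, Prod.snd_add, Submodule.coe_add, Plk.wed_add_left,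
          Plk.wed_add_right, Pi.add_apply]
        ring
      map_smul' := fun c t => funext fun J => by
        simp only [Plk.dwed, Prod.smul_fst, Prod.smul_snd, Submodule.coe_smul, Plk.wed_smul_left,
          Plk.wed_smul_right, Pi.smul_apply, RingHom.id_apply, smul_add] }
  have h2 : LinearMap.range Ψ ≤ LinearMap.range Φ := by
    rintro _ ⟨D, rfl⟩
    obtain ⟨τ₁, k₁, τ₂, k₂, e⟩ := tt hG hT hB hp t₁ t₂ a₁ a₂ (hq a₁ a₂) (τ := Ψ D)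
      (fun a ha => (h1 D a).symm.trans ((hV D.1 D.2).2.1 a (hI ha)))
      fun J hJ => (hV D.1 D.2).2.2 J (by rwa [d_eq])
    exact ⟨(⟨τ₁, k₁⟩, ⟨τ₂, k₂⟩), e.symm⟩
  have h3 : Function.Injective Ψ := (injective_iff_map_eq_zero Ψ).2 fun D e =>
    Subtype.ext (LinearMap.ext fun a => by rw [h1, e]; simp [Qt.dd])
  have h0 : (⟨_, self_mem t₁ a₁⟩, (-1 : ℂ) • ⟨_, self_mem t₂ a₂⟩) ∈ LinearMap.ker Φ :=
    funext fun J => by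
      change Plk.wed σ _ _ J + Plk.wed σ _ ((-1 : ℂ) • P.c₂.pz a₂) J = 0
      rw [Plk.wed_smul_right]
      simp
  have h4 : Module.finrank ℂ (LinearMap.ker Φ) ≠ 0 := fun o => pz_ne a₁ (congrArg (·.1.1)
    ((Submodule.mem_bot ℂ).1 (Submodule.finrank_eq_zero.1 o ▸ h0)))
  have h5 := Φ.finrank_range_add_finrank_ker
  have h6 := Submodule.finrank_mono h2
  rw [LinearMap.finrank_range_of_inj h3] at h6
  have h7 : Module.finrank ℂ (P.c₁.TT r₁ a₁) = e₁ + 1 := t₁.sb.dim a₁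
  have h8 : Module.finrank ℂ (P.c₂.TT r₂ a₂) = e₂ + 1 := t₂.sb.dim a₂
  rw [Module.finrank_prod, h7, h8] at h5
  omega

end Two

end Vale.Agent.P297Z.Sf
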