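import Vale.Agent.P297Z.Cp.Wed2
import Vale.Agent.P297Z.Loc.Td
import Vale.Agent.P297Z.Hb.Pw

/-! P297: the bundle of the fixed tangent vectors. -/

set_option linter.all false

noncomputable section

namespace Vale.Agent.P297Z

namespace CpT

open Pw Pw.Rp Plk GMod
open Submodule.Quotient renaming mk → mq

section tan

variable {A B : Type} [CommRing A] [Algebra ℂ A] [CommRing B] [Algebra ℂ B]

theorem tan_const {z : A →ₐ[ℂ] ℂ} {D : A →ₗ[ℂ] ℂ} (h : D ∈ Tan z) (c : ℂ) :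
    D (algebraMap ℂ A c) = 0 := by
  have h1 := h 1 1
  rw [mul_one, map_one z, one_mul] at h1
  rw [Algebra.algebraMap_eq_smul_one, map_smul, left_eq_add.1 h1, smul_zero]

theorem tan_comp (F : A →ₐ[ℂ] B) {z : B →ₐ[ℂ] ℂ} {D : B →ₗ[ℂ] ℂ} (h : D ∈ Tan z) :
    D.comp F.toLinearMap ∈ Tan (z.comp F) := fun a b => by
  show D (F (a * b)) = z (F a) * D (F b) + z (F b) * D (F a)
  rw [map_mul, h]

theorem tan_prod {X Y : Spc} (z : (X.prod Y).Pt) {D₁ : X.R →ₗ[ℂ] ℂ} {D₂ : Y.R →ₗ[ℂ] ℂ}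
    (h₁ : D₁ ∈ Tan ((Mor.fst X Y).onPt z).1) (h₂ : D₂ ∈ Tan ((Mor.snd X Y).onPt z).1) :
    ∃ D ∈ Tan z.1, (∀ a, D ((Mor.fst X Y).φ a) = D₁ a) ∧ ∀ b, D ((Mor.snd X Y).φ b) = D₂ b := by
  obtain ⟨x, y, rfl⟩ : ∃ x y, z = Dim.pair x y :=
    ⟨_, _, Dim.prod_pt_ext (Dim.fst_pair _ _).symm (Dim.snd_pair _ _).symm⟩
  rw [Dim.fst_pair] at h₁
  rw [Dim.snd_pair] at h₂
  have k₁ : D₁.comp (Mor.lift (Mor.id X) (Dim.cst X y)).φ.toLinearMap ∈ Tan (Dim.pair x y).1 :=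
    tan_comp _ h₁
  have k₂ : D₂.comp (Mor.lift (Dim.cst Y x) (Mor.id Y)).φ.toLinearMap ∈ Tan (Dim.pair x y).1 :=
    Dim.pair_eq x y ▸ tan_comp _ h₂
  refine ⟨_, add_mem k₁ k₂, fun a => ?_, fun b => ?_⟩
  · show D₁ (a * (Dim.cst X y).φ 1) + D₂ (algebraMap ℂ Y.R (x.1 a) * 1) = _
    rw [map_one, mul_one, mul_one, tan_const h₂, add_zero]
  · show D₁ (1 * algebraMap ℂ X.R (y.1 b)) + D₂ ((Dim.cst Y x).φ 1 * b) = _
    rw [map_one, one_mul, one_mul, tan_const h₁, zero_add]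

theorem tan_pd {W : Spc} {ι : Type} [Fintype ι] [Nonempty ι] {d : ι → ℤ} (j : Mor W (Amb ι d))
    (z : W.Pt) {D : W.R →ₗ[ℂ] ℂ} (hD : D ∈ Tan z.1) (t : ι → W.R)
    (ht : ∀ a, z.1 (t a) = D (j.φ (Amb.x d a))) (f : (Amb ι d).R) (hf : j.φ f = 0) :
    z.1 (∑ a, t a * j.φ (Amb.pd d a f)) = 0 := by
  have e₁ : ∀ g : MvPolynomial ι ℂ, j.φ g = MvPolynomial.aeval (fun a => j.φ (Amb.x d a)) g :=
    fun g => AlgHom.congr_fun (MvPolynomial.aeval_unique (show MvPolynomial ι ℂ →ₐ[ℂ] W.R from j.φ)) g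
  have e₂ : ∀ g : MvPolynomial ι ℂ, z.1 (j.φ g) =
      MvPolynomial.eval (fun a => z.1 (j.φ (Amb.x d a))) g := fun g =>
    AlgHom.congr_fun (MvPolynomial.aeval_unique
      (z.1.comp (show MvPolynomial ι ℂ →ₐ[ℂ] W.R from j.φ))) g
  have h := (dd_eq z.1 hD (fun a => j.φ (Amb.x d a)) f).symm.trans
    ((congrArg D ((e₁ f).symm.trans hf)).trans (map_zero D))
  rw [map_sum]
  refine Eq.trans (Finset.sum_congr rfl fun a _ => ?_) h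
  rw [map_mul, ht]
  exact congrArg _ (e₂ _)

end tan

section pw

variable {W X : Spc} {P : Rp X} {V : X.Pt → Submodule ℂ P.Y} {n : ℕ}

/-- the space of coordinates -/
abbrev sT (X : Spc) (κ : Type) [Fintype κ] (η : X.J → ℤ) : Rp X :=
  sc X (⊤ : Submodule ℂ (κ → ℂ)) η

theorem mp_of {Y κ : Type} [AddCommGroup Y] [Module ℂ Y] (U : Submodule ℂ Y)
    [FiniteDimensional ℂ U] [Fintype κ] {η η' δ : X.J → ℤ} (e : η = η' + δ)
    {Φ : X.Pt → Y →ₗ[ℂ] (κ → ℂ)} (h : ∀ u k, ∃ a ∈ X.wt δ, ∀ z : X.Pt, Φ z u k = z.1 a) :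
    Mp (sc X U η) (sT X κ η') Φ := by
  classical
  choose a ha h using h
  refine ⟨fun (u : Y) _ => ?_, fun z g (u : Y) _ => funext fun k => ?_⟩
  · let c : κ → (sT X κ η').poly := fun k =>
      ⟨cst X (Pi.single k 1 : κ → ℂ), (sT X κ η').cst_mem trivial⟩
    have e1 : (fun z => Φ z u : Fn X (κ → ℂ)) = (∑ k, a u k • c k).1 := funext fun z => by
      refine Eq.trans ?_ (sum_val (P := sT X κ η') _ _ z).symm
      refine (Finset.univ_sum_single (Φ z u)).symm.trans (Finset.sum_congr rfl fun k _ => ?_)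
      show _ = z.1 (a u k) • (Pi.single k 1 : κ → ℂ)
      rw [← Pi.single_smul, smul_eq_mul, mul_one, h]
    exact e1.symm ▸ (∑ k, a u k • c k).2
  · show Φ z (chr η g • u) k = chr η' g * Φ (Spc.mv z g) u k
    rw [map_smul, Pi.smul_apply, h, h, e, chr_add, smul_eq_mul, mul_assoc]
    exact congrArg _ ((congrArg z.1 (ha u k g)).trans (map_smul z.1 _ _)).symm

theorem sc_pull {κ : Type} [Fintype κ] {η : X.J → ℤ} {V : X.Pt → Submodule ℂ (κ → ℂ)}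
    (h : (sT X κ (-η)).Sb V n) (f : Mor W X) :
    (sT W κ (-f.ρ η)).Sb (fun w => V (f.onPt w)) n ∧
      (sT W κ (-f.ρ η)).cl (fun w => V (f.onPt w)) n = pullK f ((sT X κ (-η)).cl V n) :=
  ((h.pull f).1.iso (P' := sT W κ (-f.ρ η))
    (mp_cst (P := (sT X κ (-η)).pull f) (P' := sT W κ (-f.ρ η)) LinearMap.id (fun _ h => h)
      fun g u _ => congrArg (· • u) ((chr_tor f.ρ (-η) g).trans (by rw [map_neg])))
    (fun _ _ _ h => h) fun _ => (Submodule.map_id _).symm).imp_right fun e => e.trans (h.pull f).2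

theorem exists_L (h : P.Sb V n) (f : Mor W X) :
    ∃ L : (f.pull (P.Sec V h.eqv)).M →ₗ[W.R] (P.pull f).tot.M,
      (f.pull (P.Sec V h.eqv)).IsHom (P.pull f).tot L ∧ (∀ w a, (L a).1 w ∈ V (f.onPt w)) ∧
      ∀ (w : W.Pt) a, (L a).1 w = 0 → (mq a : Fib w.1 (f.pull (P.Sec V h.eqv)).M) = 0 := by
  obtain ⟨L, hL⟩ := AK.exists_plift f (P.Sec V h.eqv) (V := (P.pull f).tot.M)
    (AddMonoidHom.mk' (fun s => ⟨_, pull_mem f s.1.2⟩) fun _ _ => rfl) fun _ _ => rfl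
  have h1 : (f.pull (P.Sec V h.eqv)).IsHom (P.pull f).tot L := AK.isHom_pu fun t s => by
    rw [hL, hL]
    exact Subtype.ext (funext fun w => congrArg (fun y => P.D (tor f.ρ t) (s.1.1 y))
      (onPt_mv f w t).symm)
  have h2 : ∀ w v, v ∈ V (f.onPt w) ↔ ∃ a, (L a).1 w = v := fun w v => by
    constructor
    · intro hv
      obtain ⟨s, rfl⟩ := (h.val _ v).1 hv
      exact ⟨_, congrArg (fun t : (P.pull f).poly => t.1 w) (hL s)⟩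
    · rintro ⟨a, rfl⟩
      induction a using AK.pu_ind with
      | h0 => rw [map_zero]; exact (V _).zero_mem
      | h1 s => rw [hL]; exact s.2 _
      | hs r a ha => rw [map_smul]; exact (V _).smul_mem (w.1 r) ha
      | ha a b ha hb => rw [map_add]; exact (V _).add_mem ha hb
  refine ⟨L, h1, fun w a => (h2 w _).2 ⟨a, rfl⟩, fun w a ha => ?_⟩
  have h3 := (evF (P := P.pull f) L w).finrank_range_add_finrank_ker
  rw [range_evF (P := P.pull f) (h2 w)] at h3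
  have h4 := h3.trans (((h.isBun.pull f).fdim w).trans (h.dim (f.onPt w)).symm)
  exact (Submodule.eq_bot_iff _).1 (Submodule.finrank_eq_zero.1 (left_eq_add.1 h4.symm)) _ ha

end pw

section wed

variable {W X : Spc} {r r₁ r₂ : ℕ} {B B₁ B₂ : Type} [Fintype B] [DecidableEq B] [Fintype B₁]
  [DecidableEq B₁] [Fintype B₂] [DecidableEq B₂] (σ : Fin r₁ ⊕ Fin r₂ ≃ Fin r)

theorem tan_wed {R : Type} [CommRing R] [Algebra ℂ R] {z : R →ₐ[ℂ] ℂ} {D : R →ₗ[ℂ] ℂ}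
    (hD : D ∈ Tan z) (y₁ : (Fin r₁ → B₁) → R) (y₂ : (Fin r₂ → B₂) → R) (J : Fin r → B₁ ⊕ B₂) :
    D (wed σ y₁ y₂ J) = dwed σ (fun J => z (y₁ J)) (fun J => z (y₂ J)) (fun J => D (y₁ J))
      (fun J => D (y₂ J)) J := by
  rcases wed_cases σ J with h | ⟨ε, J₁, J₂, -, h⟩
  · rw [dwed, h, h, h, map_zero, add_zero]
  · rw [dwed, h, h, h, map_zsmul, hD, ← smul_add, add_comm, mul_comm (z (y₂ J₂))]

/-- the product with a fixed second factor -/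
def wl (p₂ : (Fin r₂ → B₂) → ℂ) : ((Fin r₁ → B₁) → ℂ) →ₗ[ℂ] ((Fin r → B₁ ⊕ B₂) → ℂ) where
  toFun := fun τ => wed σ τ p₂
  map_add' := fun a b => wed_add_left σ a b p₂
  map_smul' := fun t a => wed_smul_left σ t a p₂

/-- the product with a fixed first factor -/
def wr (p₁ : (Fin r₁ → B₁) → ℂ) : ((Fin r₂ → B₂) → ℂ) →ₗ[ℂ] ((Fin r → B₁ ⊕ B₂) → ℂ) where
  toFun := fun τ => wed σ p₁ τ
  map_add' := fun a b => wed_add_right σ p₁ a b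
  map_smul' := fun t a => wed_smul_right σ t p₁ a

/-- the values at a point -/
def pv {κ : Type} (y : κ → X.R) (z : X.Pt) : κ → ℂ := fun J => z.1 (y J)

/-- the image of the two families -/
def im (y₁ : (Fin r₁ → B₁) → X.R) (y₂ : (Fin r₂ → B₂) → X.R)
    (V₁ : X.Pt → Submodule ℂ ((Fin r₁ → B₁) → ℂ)) (V₂ : X.Pt → Submodule ℂ ((Fin r₂ → B₂) → ℂ))
    (z : X.Pt) : Submodule ℂ ((Fin r → B₁ ⊕ B₂) → ℂ) :=
  ((V₁ z).prod (V₂ z)).map ((wl σ (pv y₂ z)).coprod (wr σ (pv y₁ z)))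

/-- a bundle of tangent vectors of the cone over the Grassmannian -/
structure Hf (y : (Fin r → B) → X.R) (d : X.J → ℤ) (V : X.Pt → Submodule ℂ ((Fin r → B) → ℂ))
    (n : ℕ) : Prop where
  wt : ∀ J, y J ∈ X.wt d
  rel : ∀ z, Rel (pv y z)
  ne : ∀ z, pv y z ≠ 0
  sb : (sT X _ (-d)).Sb V n
  le : ∀ z, V z ≤ TG r B (pv y z)
  mem : ∀ z, pv y z ∈ V z

theorem Hf.pull {y : (Fin r → B) → X.R} {d : X.J → ℤ} {V : X.Pt → Submodule ℂ ((Fin r → B) → ℂ)}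
    {n : ℕ} (h : Hf y d V n) (f : Mor W X) :
    Hf (fun J => f.φ (y J)) (f.ρ d) (fun w => V (f.onPt w)) n :=
  ⟨fun J => f.wt_map _ _ (h.wt J), fun w => h.rel (f.onPt w), fun w => h.ne (f.onPt w),
    (sc_pull h.sb f).1, fun w => h.le (f.onPt w), fun w => h.mem (f.onPt w)⟩

variable {y₁ : (Fin r₁ → B₁) → X.R} {y₂ : (Fin r₂ → B₂) → X.R} {d₁ d₂ : X.J → ℤ}
  {V₁ : X.Pt → Submodule ℂ ((Fin r₁ → B₁) → ℂ)} {V₂ : X.Pt → Submodule ℂ ((Fin r₂ → B₂) → ℂ)}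
  {n₁ n₂ : ℕ}

theorem mp_wl (w₂ : ∀ J, y₂ J ∈ X.wt d₂) :
    Mp (sT X (Fin r₁ → B₁) (-d₁)) (sT X (Fin r → B₁ ⊕ B₂) (-(d₁ + d₂))) fun z => wl σ (pv y₂ z) :=
  mp_of _ (δ := d₂) (by abel) fun u J => by
    rcases wed_cases σ J with h | ⟨ε, J₁, J₂, -, h⟩
    · exact ⟨0, zero_mem _, fun z => (h _ _ _).trans (map_zero _).symm⟩
    · refine ⟨(ε • u J₁) • y₂ J₂, Submodule.smul_mem _ _ (w₂ _), fun z => (h _ _ _).trans ?_⟩
      rw [map_smul, smul_eq_mul, smul_mul_assoc]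
      rfl

theorem mp_wr (w₁ : ∀ J, y₁ J ∈ X.wt d₁) :
    Mp (sT X (Fin r₂ → B₂) (-d₂)) (sT X (Fin r → B₁ ⊕ B₂) (-(d₁ + d₂))) fun z => wr σ (pv y₁ z) :=
  mp_of _ (δ := d₁) (by abel) fun u J => by
    rcases wed_cases σ J with h | ⟨ε, J₁, J₂, -, h⟩
    · exact ⟨0, zero_mem _, fun z => (h _ _ _).trans (map_zero _).symm⟩
    · refine ⟨(ε • u J₂) • y₁ J₁, Submodule.smul_mem _ _ (w₁ _), fun z => (h _ _ _).trans ?_⟩
      rw [map_smul, smul_eq_mul, smul_mul_assoc, mul_comm]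
      rfl

theorem mp_pv {κ : Type} [Fintype κ] {y : κ → X.R} {d : X.J → ℤ} (w : ∀ J, y J ∈ X.wt d) :
    Mp (sc X (⊤ : Submodule ℂ ℂ) 0) (sT X κ (-d))
      fun z => LinearMap.toSpanSingleton ℂ (κ → ℂ) (pv y z) :=
  mp_of _ (δ := d) (by abel) fun u J =>
    ⟨u • y J, Submodule.smul_mem _ _ (w _), fun z => (map_smul z.1 _ _).symm⟩

theorem im_sb (hG : Qt.GRT) [Nonempty X.Pt] (h₁ : Hf y₁ d₁ V₁ (n₁ + 1))
    (h₂ : Hf y₂ d₂ V₂ (n₂ + 1)) :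
    (sT X _ (-(d₁ + d₂))).Sb (im σ y₁ y₂ V₁ V₂) (n₁ + n₂ + 1) ∧
      (sT X _ (-(d₁ + d₂))).cl (im σ y₁ y₂ V₁ V₂) (n₁ + n₂ + 1) =
        (sT X _ (-d₁)).cl V₁ (n₁ + 1) + (sT X _ (-d₂)).cl V₂ (n₂ + 1) - 1 := by
  obtain ⟨s1, s2⟩ := h₁.sb.prod h₂.sb
  have H := (mp_wl σ (d₁ := d₁) h₂.wt).coprod (mp_wr σ (d₂ := d₂) h₁.wt)
  have e1 : Module.finrank ℂ (⊤ : Submodule ℂ ℂ) = 1 := by
    rw [finrank_top, Module.finrank_self]
  have e2 := cl_sc (X := X) (⊤ : Submodule ℂ ℂ) 0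
  have e3 : (sc X (⊤ : Submodule ℂ ℂ) 0).Sb (fun _ => ⊤) 1 := e1 ▸ sb_top (sc X (⊤ : Submodule ℂ ℂ) 0)
  rw [e1, one_smul, neg_zero, line_zero] at e2
  obtain ⟨u1, u2⟩ := e3.iso ((mp_pv h₁.wt).prod (mp_pv h₂.wt).neg)
    (V' := fun z => (V₁ z).prod (V₂ z) ⊓
      LinearMap.ker ((wl σ (pv y₂ z)).coprod (wr σ (pv y₁ z))))
    (fun z v _ hv => (smul_eq_zero.1 (congrArg Prod.fst hv)).resolve_right (h₁.ne z)) fun z => by
      refine le_antisymm (fun τ hτ => ?_) ?_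
      · obtain ⟨a, b, ha, hb, e⟩ := dwed_rad σ hG (h₁.rel z) (h₂.rel z) (h₁.ne z) (h₂.ne z)
          (h₁.le z hτ.1.1) (h₂.le z hτ.1.2) (s := 0) (Eq.trans hτ.2 (zero_smul _ _).symm)
        refine ⟨a, trivial, Prod.ext ha.symm (Eq.trans ?_ hb.symm)⟩
        rw [eq_neg_of_add_eq_zero_right e, neg_smul]
        rfl
      · rintro _ ⟨a : ℂ, -, rfl⟩
        refine ⟨⟨(V₁ z).smul_mem a (h₁.mem z), (V₂ z).neg_mem ((V₂ z).smul_mem a (h₂.mem z))⟩, ?_⟩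
        show wl σ (pv y₂ z) (a • pv y₁ z) + wr σ (pv y₁ z) (-(a • pv y₂ z)) = 0
        rw [map_neg, map_smul, map_smul]
        exact add_neg_cancel _
  obtain ⟨-, -, v1, v2⟩ := s1.ses H (fun _ => rfl) (V' := im σ y₁ y₂ V₁ V₂) (fun _ => rfl) u1.dim
  rw [show n₁ + 1 + (n₂ + 1) - 1 = n₁ + n₂ + 1 by omega] at v1 v2
  exact ⟨v1, eq_sub_of_add_eq' ((congrArg (· + _) (u2.trans e2).symm).trans (v2.symm.trans s2))⟩

theorem im_zero {z : X.Pt} {v : (Fin r → B₁ ⊕ B₂) → ℂ} (hv : v ∈ im σ y₁ y₂ V₁ V₂ z)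
    {J : Fin r → B₁ ⊕ B₂} (h : cnt J ≠ r₂) : v J = 0 := by
  obtain ⟨τ, -, rfl⟩ := hv
  exact (congrArg₂ (· + ·) (wed_cnt σ _ _ h) (wed_cnt σ _ _ h)).trans (add_zero (0 : ℂ))

end wed

open Sf Sf.Fb

variable {K : Type} [Field K] [Algebra ℂ K] {S : Surf K}

theorem hf_of {c : Ctx S} {h : S.All} {e r : ℕ} (t : c.Tb h e r) :
    Hf (c.pl r) (c.dp r) (c.TT r) (e + 1) := by
  have hr : ∀ z, Rel (pv (c.pl r) z) := fun z => by
    obtain ⟨Z, hZ⟩ := t.clo (c.am z) fun f hf =>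
      (congrArg z.1 (Ideal.Quotient.eq_zero_iff_mem.2 hf)).trans (map_zero _)
    exact hZ.1
  have hr' : Rel (c.pl r) := fun J J₁ => ext_pt fun z => by
    rw [map_mul, map_mul, map_pow]
    exact (hr z J J₁).trans (congrArg _ (plk_map (z.1 : (c.Xr r).R →+* ℂ) _ J₁).symm)
  refine ⟨c.pl_wt r, hr, fun z hz => ?_, t.sb, ?_, fun z => ?_⟩
  · obtain ⟨J, hJ⟩ := ((Spc.adj_pt pt0 _ _ _).1 ((c.gr r).onPt z).2).2
    exact hJ (congrFun hz J)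
  · rintro z _ ⟨D, hD, rfl⟩
    exact mem_TG z.1 hD hr'
  · have e1 : c.β r (pv (c.pl r) z) = (c.famV r).u z := funext fun s => LinearMap.sum_apply _ _ _
    rw [t.eq]
    refine ⟨fun J π => ((hr z).alt J π).trans (zsmul_eq_mul _ _), ?_⟩
    show c.β r (pv (c.pl r) z) ∈ (c.famV r).Tq S z
    rw [e1]
    refine ⟨fun s => ⟨fun i => algebraMap ℂ K (z.1 ((c.famV r).g s i)), fun i => ?_,
      Finset.sum_congr rfl fun i _ => algebraMap_smul K _ _⟩, fun j a ha => ?_⟩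
    · rw [pow_zero]
      exact Submodule.algebraMap_mem _
    · rw [ha.2]
      exact zero_mem _

end CpT

namespace Sf

open Fb Pw

variable {K : Type} [Field K] [Algebra ℂ K] {S : Surf K}

namespace Two

variable {P : Two S} {h : S.All} {n₁ n₂ r₁ r₂ e₁ e₂ : ℕ} {σ : Fin r₁ ⊕ Fin r₂ ≃ Fin P.r}
  {j : Mor ((P.X r₁ r₂).prod ptT) (P.dat h).Pol}

open CpT in
theorem IsJ.exists_Tt (hj : P.IsJ h σ j) (hG : Qt.GRT)
    (t₁ : P.c₁.Tb h e₁ r₁) (t₂ : P.c₂.Tb h e₂ r₂) :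
    ∃ (Tt : Bun (P.X r₁ r₂)) (τ : (P.dat h).Ix → ((Mor.fst (P.X r₁ r₂) ptT).pull Tt.M).M →ₗ[
        ((P.X r₁ r₂).prod ptT).R] ((P.X r₁ r₂).prod ptT).R),
      Tt.rk = e₁ + e₂ + 1 ∧
      Tt.cls = 1 + pullK (Mor.fst _ _) (P.c₁.Tc h r₁) + pullK (Mor.snd _ _) (P.c₂.Tc h r₂) ∧
      (∀ a, ((Mor.fst (P.X r₁ r₂) ptT).pull Tt.M).IsHom
        ((GMod.one _).shift (j.ρ (Amb.deg (P.dat h).d a))) (τ a)) ∧
      (∀ (z : ((P.X r₁ r₂).prod ptT).Pt) v, (∀ a, z.1 (τ a v) = 0) →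
        (Submodule.Quotient.mk v : Fib z.1 _) = 0) ∧
      ∀ (z : ((P.X r₁ r₂).prod ptT).Pt) v, ∀ f, j.φ f = 0 →
        z.1 (∑ a, τ a v * j.φ (Amb.pd (P.dat h).d a f)) = 0 := by
  have f₁ := hf_of t₁
  have f₂ := hf_of t₂
  have : Nonempty (P.X r₁ r₂).Pt := t₁.var.ne.elim fun x => t₂.var.ne.elim fun y => ⟨Dim.pair x y⟩
  obtain ⟨s1, s2⟩ := im_sb σ hG (f₁.pull (Mor.fst _ (P.c₂.Xr r₂))) (f₂.pull (Mor.snd _ _))
  obtain ⟨L, l1, l2, l3⟩ := exists_L s1 (Mor.fst (P.X r₁ r₂) ptT)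
  choose c hc using fun a : Fin P.r → P.c₁.B ⊕ P.c₂.B => Rp.exists_coord
    (P := (sT (P.X r₁ r₂) (Fin P.r → P.c₁.B ⊕ P.c₂.B) (-((Mor.fst _ _).ρ (P.c₁.dp r₁) +
      (Mor.snd _ _).ρ (P.c₂.dp r₂)))).pull (Mor.fst (P.X r₁ r₂) ptT)) (LinearMap.proj a)
  refine ⟨⟨_, _, s1.isBun⟩, fun a => c a ∘ₗ L, rfl, ?_, fun a => ?_,
    fun z v hv => l3 z v (funext fun a => (hc a _ z).symm.trans (hv a)), fun z v f hf => ?_⟩
  · refine (kc_eq s1.isBun).symm.trans (s1.cl_eq.symm.trans (s2.trans ?_))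
    have e₁ := (sc_pull f₁.sb (Mor.fst _ (P.c₂.Xr r₂))).2.trans (congrArg _ t₁.cl)
    have e₂ := (sc_pull f₂.sb (Mor.snd (P.c₁.Xr r₁) _)).2.trans (congrArg _ t₂.cl)
    rw [e₁, e₂, map_add, map_add, map_one, map_one]
    ring
  · by_cases ha : Plk.cnt a = r₂
    · refine (Rp.coord_isHom _ _ (fun g u _ => ?_) (c a) (hc a)).comp l1
      have e0 : (P.dat h).d a = Plk.cnt a := Finset.sum_congr rfl fun b _ => by
        change cond (P.sd (a b)) (1 : ℤ) 0 = _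
        rcases a b with i | i <;> rfl
      have e1 : j.ρ (Amb.deg (P.dat h).d a) = P.dy r₁ r₂ := by
        rw [hj.ρ]
        show (Mor.snd _ ptT).ρ (fun _ => (P.dat h).d a - 1 * r₂) + (1 : ℤ) • P.dy r₁ r₂ = _
        rw [e0, ha, one_mul, sub_self, one_smul]
        exact (congrArg (· + _) (map_zero _)).trans (zero_add _)
      rw [e1]
      refine congrArg (· * u a) ((chr_tor _ _ g).trans (congrArg (chr · g) ?_))
      rw [map_neg, map_add]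
      rfl
    · have e0 : ∀ v, c a (L v) = 0 := fun v => Rp.ext_pt fun z =>
        (hc a _ z).trans ((im_zero σ (l2 z v) ha).trans (map_zero _).symm)
      exact fun g v => (e0 _).trans ((congrArg _ (e0 v)).trans (map_zero _)).symm
  · obtain ⟨τ, ⟨⟨D₁, d₁, k₁⟩, D₂, d₂, k₂⟩, e⟩ := l2 z v
    obtain ⟨D', d', m₁, m₂⟩ := tan_prod _ d₁ d₂
    obtain ⟨D, d, m, -⟩ := tan_prod z d' (zero_mem _)
    refine tan_pd j z d _ (fun a => (hc a _ z).trans ((congrFun e a).symm.trans ?_)) f hf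
    refine Eq.trans ?_ ((congrArg D (hj.φ a)).trans (tan_wed σ d _ _ a)).symm
    exact congrArg₂ (fun a b => Plk.dwed σ _ _ a b _)
      (k₁.symm.trans (funext fun J => ((m _).trans (m₁ _)).symm))
      (k₂.symm.trans (funext fun J => ((m _).trans (m₂ _)).symm))

end Two

end Sf

end Vale.Agent.P297Z
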