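import Vale.Agent.P297Z.Cp.MainB
import Vale.Agent.P297Z.Cp.Big
import Vale.Agent.P297Z.Cp.Br
import Vale.Agent.P297Z.Cp.Fin
import Vale.Agent.P297Z.Cp.Tau
import Vale.Agent.P297Z.Cp.Tt
import Vale.Agent.P297Z.Cp.Tt2
import Vale.Agent.P297Z.Quot.Obs
import Vale.Agent.P297Z.Hb.Tow0

/-! P297: the fixed components of the Quot space. -/

set_option linter.all false

noncomputable section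

namespace Vale.Agent.P297Z

theorem Spc.exists_pair {X Y : Spc} (x : X.Pt) (y : Y.Pt) :
    ∃ w : (X.prod Y).Pt, (Mor.fst X Y).onPt w = x ∧ (Mor.snd X Y).onPt w = y :=
  ⟨⟨Algebra.TensorProduct.productMap x.1 y.1, (Spc.prod_pt X Y _).2 (by
    simpa using And.intro x.2 y.2)⟩,
    Subtype.ext (Algebra.TensorProduct.productMap_left x.1 y.1),
    Subtype.ext (Algebra.TensorProduct.productMap_right x.1 y.1)⟩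

namespace Sf

open Fb Gl

variable {K : Type} [Field K] [Algebra ℂ K] {S : Surf K}

theorem Ctx.dim_EM {c : Ctx S} {h : S.All} {e n r : ℕ} (o : c.Ok r) (t : c.Tb h e r)
    (s : n + r = c.s) {f : K} (hf : f ≠ 0) {Z : Zs S.W} (hZ : Z.len = n)
    (hR : Reg S c.m (c.A f) Z) : Module.finrank ℂ (EM Z (c.A f) c.m) = r := by
  obtain ⟨a⟩ := t.var.ne
  obtain ⟨Z', h'⟩ := Mor.incl_mem (c.XS_stab r) t.clo a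
  have h1 := (h'.reg o.reg le_rfl).dim _ le_rfl
  have h2 := hR.dim _ le_rfl
  have h3 := h'.2.1
  rw [← h'.2.2, Ctx.finrank_Usp h'.1 (Hb.Ge.co_ne _), Ctx.A, add_comm,
    chi_sub_div h _ _ _ (c.fpt_ne _)] at h1
  rw [add_comm (c.A f), show chi (_ + c.A f) = _ from chi_sub_div h _ _ _ hf] at h2
  omega

namespace Two

variable {P : Two S} {h : S.All} {n₁ n₂ r₁ r₂ e₁ e₂ : ℕ} {σ : Fin r₁ ⊕ Fin r₂ ≃ Fin P.r}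
  {q : (Fin P.r → P.c₁.B ⊕ P.c₂.B) → ℂ} {D₁ D₂ D₁' D₂' A₁ A₂ β : Div S.W} {Z₁ Z₂ Z₁' Z₂' : Zs S.W}
  {c₀ : ℤ}

theorem Typ.smul (ht : P.Typ q D₁ D₂ Z₁ Z₂) {t : ℂ} (h0 : t ≠ 0) : P.Typ (t • q) D₁ D₂ Z₁ Z₂ :=
  { ht with
    rel := ht.rel.smul t
    ne := smul_ne_zero h0 ht.ne
    sub := (congrArg (Submodule.map P.lc) (Plk.sub_smul q h0)).trans ht.sub }

theorem Typ.uniq (h : S.All) (ht : P.Typ q D₁ D₂ Z₁ Z₂) (ht' : P.Typ q D₁' D₂' Z₁' Z₂') :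
    D₁ = D₁' ∧ D₂ = D₂' ∧ Z₁ = Z₁' ∧ Z₂ = Z₂' := by
  have e := ht.sub.symm.trans ht'.sub
  have e₁ := congrArg (Submodule.map (LinearMap.fst ℂ K K)) e
  have e₂ := congrArg (Submodule.map (LinearMap.snd ℂ K K)) e
  rw [Submodule.prod_map_fst, Submodule.prod_map_fst] at e₁
  rw [Submodule.prod_map_snd, Submodule.prod_map_snd] at e₂
  have k₁ := (fbB h).uniq _ _ _ _ _ ht.reg₁ ht'.reg₁ e₁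
  have k₂ := (fbB h).uniq _ _ _ _ _ ht.reg₂ ht'.reg₂ e₂
  exact ⟨sub_right_injective k₁.1, sub_right_injective k₂.1, k₁.2, k₂.2⟩

variable (P) in
/-- the coordinates have the given type -/
def Ty (q : (Fin P.r → P.c₁.B ⊕ P.c₂.B) → ℂ) (A₁ A₂ : Div S.W) (n₁ n₂ : ℕ) : Prop :=
  ∃ D₁ D₂ Z₁ Z₂, P.Typ q D₁ D₂ Z₁ Z₂ ∧ Lin D₁ A₁ ∧ Lin D₂ A₂ ∧ Z₁.len = n₁ ∧ Z₂.len = n₂

variable (P h) in
/-- the data of one fixed locus -/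
structure Lo (n₁ n₂ r₁ r₂ : ℕ) : Prop where
  ok : P.Ok h
  o₁ : P.c₁.Ok r₁
  o₂ : P.c₂.Ok r₂
  s₁ : n₁ + r₁ = P.c₁.s
  s₂ : n₂ + r₂ = P.c₂.s
  t₁ : P.c₁.Tb h (P.c₁.v + 2 * n₁) r₁
  t₂ : P.c₂.Tb h (P.c₂.v + 2 * n₂) r₂
  hp : P.Hp (P.c₁.L - P.c₁.D) (P.c₂.L - P.c₂.D) n₁ n₂

theorem Lo.typ (H : P.Lo h n₁ n₂ r₁ r₂) (σ : Fin r₁ ⊕ Fin r₂ ≃ Fin P.r) (a₁ : (P.c₁.Xr r₁).Pt)
    (a₂ : (P.c₂.Xr r₂).Pt) : ∃ Z₁ Z₂, Z₁.len = n₁ ∧ Z₂.len = n₂ ∧ P.Typ (P.q σ a₁ a₂)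
      (P.c₁.D + div S.W (P.c₁.fz a₁)) (P.c₂.D + div S.W (P.c₂.fz a₂)) Z₁ Z₂ := by
  obtain ⟨Z₁, h₁⟩ := Mor.incl_mem (P.c₁.XS_stab r₁) H.t₁.clo a₁
  obtain ⟨Z₂, h₂⟩ := Mor.incl_mem (P.c₂.XS_stab r₂) H.t₂.clo a₂
  exact ⟨Z₁, Z₂, Two.typ h H.o₁ H.o₂ H.t₁.clo H.t₂.clo H.s₁ H.s₂ H.hp h₁ h₂⟩

theorem Lo.pt (H : P.Lo h n₁ n₂ r₁ r₂) (σ : Fin r₁ ⊕ Fin r₂ ≃ Fin P.r) (a₁ : (P.c₁.Xr r₁).Pt)
    (a₂ : (P.c₂.Xr r₂).Pt) : (P.dat h).Pt (P.q σ a₁ a₂) := by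
  obtain ⟨Z₁, Z₂, -, -, ht⟩ := H.typ σ a₁ a₂
  exact ht.pt H.ok (fbA h)

theorem Lo.ty (H : P.Lo h n₁ n₂ r₁ r₂) (σ : Fin r₁ ⊕ Fin r₂ ≃ Fin P.r) (a₁ : (P.c₁.Xr r₁).Pt)
    (a₂ : (P.c₂.Xr r₂).Pt) {t : ℂ} (h0 : t ≠ 0) :
    P.Ty (t • P.q σ a₁ a₂) P.c₁.D P.c₂.D n₁ n₂ := by
  obtain ⟨Z₁, Z₂, l₁, l₂, ht⟩ := H.typ σ a₁ a₂
  exact ⟨_, _, Z₁, Z₂, ht.smul h0, Lin.symm h ⟨_, P.c₁.fpt_ne _, rfl⟩,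
    Lin.symm h ⟨_, P.c₂.fpt_ne _, rfl⟩, l₁, l₂⟩

theorem Lo.of_ty (H : P.Lo h n₁ n₂ r₁ r₂) (σ : Fin r₁ ⊕ Fin r₂ ≃ Fin P.r)
    (hq : P.Ty q P.c₁.D P.c₂.D n₁ n₂) : ∃ a₁ a₂, ∃ t : ℂ, q = t • P.q σ a₁ a₂ := by
  obtain ⟨D₁, D₂, Z₁, Z₂, ht, k₁, k₂, l₁, l₂⟩ := hq
  obtain ⟨f₁, m₁, z₁, rfl⟩ := k₁.sec h ht.eff₁
  obtain ⟨f₂, m₂, z₂, rfl⟩ := k₂.sec h ht.eff₂
  have g₂ : Reg S P.c₂.m (P.c₂.A f₂) Z₂ := P.hm ▸ ht.reg₂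
  obtain ⟨a₁, rfl, p₁⟩ := Ctx.exists_of m₁ z₁ (l₁ ▸ H.s₁)
    (Ctx.dim_EM H.o₁ H.t₁ H.s₁ z₁ l₁ ht.reg₁) (((fbA h).sat Z₁ _ _ ht.eff₁).le _)
  obtain ⟨a₂, rfl, p₂⟩ := Ctx.exists_of m₂ z₂ (l₂ ▸ H.s₂)
    (Ctx.dim_EM H.o₂ H.t₂ H.s₂ z₂ l₂ g₂) (((fbA h).sat Z₂ _ _ ht.eff₂).le _)
  have ht' := (Two.typ (σ := σ) h H.o₁ H.o₂ H.t₁.clo H.t₂.clo H.s₁ H.s₂ H.hp p₁ p₂).2.2
  obtain ⟨J, hJ⟩ := Function.ne_iff.1 ht.ne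
  obtain ⟨J', hJ'⟩ := Function.ne_iff.1 ht'.ne
  obtain ⟨t, -, e⟩ := ht'.rel.eq_of_sub ht.rel hJ' hJ
    (Submodule.map_injective_of_injective P.lc_inj (ht.sub.trans ht'.sub.symm)).le
  exact ⟨a₁, a₂, t, funext e⟩

variable (P h) in
/-- the points of the Quot space with the given numerical type -/
def Zs' (β : Div S.W) (c₀ : ℤ) : Set (P.dat h).Pol.Pt :=
  {z | z ∈ (P.dat h).VI ∧ ((P.dat h).hd ((P.dat h).co z) : ℤ) =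
      Fintype.card (P.dat h).Sx * (P.dat h).p (P.dat h).m - vdim S P.c₁.L P.c₂.L β c₀ ∧
    ∀ B, (P.dat h).tau (S.lK h B) ((P.dat h).co z) = inter B β + c₀}

theorem num_Zs : Qt.Num (P.dat h) (P.Zs' h β c₀) :=
  ⟨fun _ hz => hz.1, fun _ hz _ hz' e e' => ⟨hz', (congrArg Nat.cast e).trans hz.2.1,
    fun B => (e' _).trans (hz.2.2 B)⟩⟩

/-- the top of the first tower -/
abbrev tp (c : Ctx S) (h : S.All) (r : ℕ) : Tp (S.spc h) c.v := ⟨c.Xr r, c.Ecl h r, c.pr r⟩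

variable {j : Mor ((P.X r₁ r₂).prod ptT) (P.dat h).Pol}

theorem Lo.ptj (H : P.Lo h n₁ n₂ r₁ r₂) (hj : P.IsJ h σ j) (z : ((P.X r₁ r₂).prod ptT).Pt) :
    (P.dat h).Pt (((P.dat h).crd.pull j).cz z) :=
  (hj.co z).symm ▸ H.pt σ _ _ |> fun k : (P.dat h).Pt ((P.dat h).co (j.onPt z)) => k

theorem Lo.vt (H : P.Lo h n₁ n₂ r₁ r₂) (hj : P.IsJ h σ j) :
    pK _ (S.spc h) (dualK _ ((P.dat h).crd.pull j).eK *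
      (((P.dat h).crd.pull j).vK - ((P.dat h).crd.pull j).eK)) =
    Tp.vt (S.lK h P.c₁.L) (S.lK h P.c₂.L) (tp P.c₁ h r₁) (tp P.c₂ h r₂) := by
  have hF := H.ok.ok.fm _ (H.ptj hj)
  rw [hj.eK H.t₁ H.t₂ hF, hj.vK hF]
  rfl

theorem Lo.mem (H : P.Lo h n₁ n₂ r₁ r₂) (hj : P.IsJ h σ j)
    (hl : Lc P.c₁.L P.c₂.L β c₀ P.c₁.D P.c₂.D n₁ n₂)
    (hv : rk _ (Tp.vt (S.lK h P.c₁.L) (S.lK h P.c₂.L) (tp P.c₁ h r₁) (tp P.c₂ h r₂)) =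
      vdim S P.c₁.L P.c₂.L β c₀) (z : ((P.X r₁ r₂).prod ptT).Pt) : j.onPt z ∈ P.Zs' h β c₀ := by
  refine ⟨(H.ok.ok.pts.mem _).2 (H.ptj hj z), ?_, fun B => ?_⟩
  · have := H.ok.ok.hdk _ (H.ptj hj) (cnT (H.t₁.var.prod H.t₂.var)) z
    rw [H.vt hj] at this
    exact this.trans (congrArg _ hv)
  · obtain ⟨Z₁, Z₂, l₁, l₂, ht⟩ := H.typ σ ((P.π₁ r₁ r₂).onPt z) ((P.π₂ r₁ r₂).onPt z)
    rw [hj.co, ← hl.num, ← tw_div h _ _ _ _ _ _ (P.c₁.fpt_ne _) (P.c₂.fpt_ne _), ← l₁, ← l₂]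
    exact ht.tau (fbA h) (fbB h) B

variable (P h) in
/-- the obstruction theory -/
structure Ob (β : Div S.W) (c₀ : ℤ) (O : Obs (P.dat h).Ix (P.dat h).d) : Prop where
  Z : O.Z = P.Zs' h β c₀
  I : (P.dat h).I ≤ O.I
  hb : ∀ (W : Spc) (j : Mor W O.Q), W.Cn → pullK j O.C.cls -
      ∑ a, pullK (O.inc.comp j) (line _ fun o => -o.elim 1 fun _ => (P.dat h).d a) + 1 =
    -dualK W (pK W (S.spc h) (dualK _ ((P.dat h).crd.pull (O.inc.comp j)).eK *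
      (((P.dat h).crd.pull (O.inc.comp j)).vK - ((P.dat h).crd.pull (O.inc.comp j)).eK)))

theorem Ob.mem {O : Obs (P.dat h).Ix (P.dat h).d} (hO : P.Ob h β c₀ O) (z : O.Q.Pt) :
    O.inc.onPt z ∈ P.Zs' h β c₀ :=
  hO.Z ▸ Mor.incl_mem O.hZ (fun z hz => (O.mem z).2 fun a ha =>
    hz a fun z' hz' => (O.mem z').1 hz' a ha) z

theorem Lo.iff (H : P.Lo h n₁ n₂ r₁ r₂) (hj : P.IsJ h σ j) (z : (P.dat h).Pol.Pt) :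
    (∃ x, (P.dat h).Pol.Orb (j.onPt x) z) ↔ P.Ty ((P.dat h).co z) P.c₁.D P.c₂.D n₁ n₂ := by
  refine ⟨?_, fun hz => ?_⟩
  · rintro ⟨x, o⟩
    obtain ⟨t, h0, e⟩ := sub_orb (w := r₂) o fun J hJ =>
      (congrFun (hj.co x) J).trans (Plk.wed_cnt σ _ _ hJ)
    rw [e, hj.co]
    exact H.ty σ _ _ h0
  · obtain ⟨a₁, a₂, t, e⟩ := H.of_ty σ hz
    obtain ⟨y, y₁, y₂⟩ := Spc.exists_pair a₁ a₂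
    obtain ⟨o⟩ := Spc.nonempty_pt' Unit
    obtain ⟨x, x₁, -⟩ := Spc.exists_pair y o
    refine ⟨x, orb_of_smul (t := t) ?_⟩
    rw [e, hj.co, ← y₁, ← y₂, ← x₁]
    rfl

theorem Lo.ecl (H : P.Lo h n₁ n₂ r₁ r₂) {O : Obs (P.dat h).Ix (P.dat h).d} (hO : P.Ob h β c₀ O)
    {j : Mor ((P.X r₁ r₂).prod ptT) O.Q} (hj : P.IsJ h σ (O.inc.comp j)) :
    pullK (j.map (Mor.id _)) ((P.dat h).crd.pull O.inc).eK =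
      tSum (Tp.a₁ (tp P.c₁ h r₁) (tp P.c₂ h r₂)) (Tp.a₂ (tp P.c₁ h r₁) (tp P.c₂ h r₂)) :=
  (H.ok.ok.nat ((P.dat h).crd.pull O.inc)
    (fun z => (H.ok.ok.pts.mem _).1 (hO.mem z).1) j).trans
      (hj.eK H.t₁ H.t₂ (H.ok.ok.fm _ (H.ptj hj)))

theorem Lo.has (H : P.Lo h n₁ n₂ r₁ r₂) (σ : Fin r₁ ⊕ Fin r₂ ≃ Fin P.r)
    (hl : Lc P.c₁.L P.c₂.L β c₀ P.c₁.D P.c₂.D n₁ n₂)
    (hv : rk _ (Tp.vt (S.lK h P.c₁.L) (S.lK h P.c₂.L) (tp P.c₁ h r₁) (tp P.c₂ h r₂)) =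
      vdim S P.c₁.L P.c₂.L β c₀) {O : Obs (P.dat h).Ix (P.dat h).d} (hO : P.Ob h β c₀ O) :
    Tp.Has (S.lK h P.c₁.L) (S.lK h P.c₂.L) (tp P.c₁ h r₁) (tp P.c₂ h r₂)
      (P.c₁.v + 2 * n₁ + (P.c₂.v + 2 * n₂)) O ((P.dat h).crd.pull O.inc).eK
      {z | P.Ty ((P.dat h).co (O.inc.onPt z)) P.c₁.D P.c₂.D n₁ n₂} := by
  obtain ⟨j₀, hj₀⟩ := exists_j h σ H.t₁.clo H.t₂.clo
  obtain ⟨j, e⟩ : ∃ j : Mor ((P.X r₁ r₂).prod ptT) O.Q, O.inc.comp j = j₀ :=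
    ⟨j₀.toSub O.Z O.hZ fun w => hO.Z.ge (H.mem hj₀ hl hv w), Dim.incl_toSub _ _ _⟩
  subst e
  obtain ⟨Tt, τ, k1, k2, k3, k4, k5⟩ := hj₀.exists_Tt Qt.grt H.t₁ H.t₂
  exact Tp.has (A₁ := tp P.c₁ h r₁) (A₂ := tp P.c₂ h r₂) H.t₁.var H.t₂.var (SA.isProj h) O _ r₂ j
    hj₀.jt hj₀.fix (hj₀.inj H.t₁ H.t₂) (hj₀.unr Qt.grt H.t₁ H.t₂)
    (hj₀.tan Qt.grt Qt.tan Qt.bas H.ok.ok.pts H.t₁ H.t₂ (H.pt σ) hO.I)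
    ((hO.hb _ j (cnT (H.t₁.var.prod H.t₂.var))).trans (congrArg (fun x => -dualK _ x) (H.vt hj₀)))
    Tt τ k1 k2 k3 k4 k5 (H.ecl hO hj₀) fun z =>
      (exists_congr fun x => Spc.orb_sub _ _ _ _).trans (H.iff hj₀ _)

end Two

end Sf

end Vale.Agent.P297Z
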