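import Vale.Agent.P297Z.Top.Glue3
import Vale.Agent.P297Z.Loc.Obk

/-! P297: fixed components that are products of two spaces with universal classes. -/

set_option linter.all false

noncomputable section

namespace Vale.Agent.P297Z

open Gl

/-- a space with a universal class and a map to the linear system -/
structure Tp (S : Spc) (v : ℕ) where
  X : Spc
  E : K0 (X.prod S)
  p : Mor X (PP v)

theorem Tp.mk_eq {S : Spc} {v : ℕ} {X X' : Spc} {E : K0 (X.prod S)} {E' : K0 (X'.prod S)}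
    {p : Mor X (PP v)} {p' : Mor X' (PP v)} (h : X = X') (h1 : HEq E E') (h2 : HEq p p') :
    (⟨X, E, p⟩ : Tp S v) = ⟨X', E', p'⟩ := by
  subst h
  cases h1
  cases h2
  rfl

/-- the top of a tower -/
def Tower.tp {S : Spc} {L M : K0 S} {v n₀ o₀ : ℕ} (T : Tower S L M v n₀ o₀) : Tp S v :=
  ⟨T.X n₀, T.E n₀, T.p n₀⟩

namespace Tp

variable {S : Spc} {v v₁ v₂ : ℕ} (L₁ L₂ : K0 S) (A₁ : Tp S v₁) (A₂ : Tp S v₂)

/-- the product -/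
abbrev F : Spc := A₁.X.prod A₂.X

/-- the first class -/
def a₁ : K0 ((F A₁ A₂).prod S) := pullK ((Mor.fst _ _).map (Mor.id S)) A₁.E

/-- the second class -/
def a₂ : K0 ((F A₁ A₂).prod S) := pullK ((Mor.snd _ _).map (Mor.id S)) A₂.E

/-- the fixed part -/
def b0 : K0 (F A₁ A₂) :=
  -dualK _ (pK _ S (dualK _ (a₁ A₁ A₂) * (pullK (Mor.snd _ _) L₁ - a₁ A₁ A₂))) -
    dualK _ (pK _ S (dualK _ (a₂ A₁ A₂) * (pullK (Mor.snd _ _) L₂ - a₂ A₁ A₂)))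

/-- the part of weight one -/
def bp : K0 (F A₁ A₂) :=
  -dualK _ (pK _ S (dualK _ (a₂ A₁ A₂) * (pullK (Mor.snd _ _) L₁ - a₁ A₁ A₂)))

/-- the part of weight minus one -/
def bm : K0 (F A₁ A₂) :=
  -dualK _ (pK _ S (dualK _ (a₁ A₁ A₂) * (pullK (Mor.snd _ _) L₂ - a₂ A₁ A₂)))

/-- the dual of the obstruction class -/
def ob (A : Tp S v) (L : K0 S) : K0 A.X := (v + 1 : ℕ) • pullK A.p (OP v (-1)) -
  dualK _ (pK A.X S (pullK (Mor.snd _ _) L * dualK _ A.E))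

/-- the class of the tangent bundle -/
def tc (A : Tp S v) : K0 A.X := (v + 1 : ℕ) • pullK A.p (OP v 1) - pK A.X S (dualK _ A.E * A.E)

/-- the virtual tangent class -/
def vt : K0 ((F A₁ A₂).prod ptT) :=
  pK ((F A₁ A₂).prod ptT) S (dualK _ (tSum (a₁ A₁ A₂) (a₂ A₁ A₂)) *
    (tSum (pullK (Mor.snd _ _) L₁) (pullK (Mor.snd _ _) L₂) - tSum (a₁ A₁ A₂) (a₂ A₁ A₂)))

/-- the data of a fixed component -/
structure Fix (e : ℕ) {ι : Type} [Fintype ι] [Nonempty ι] {d : ι → ℤ} (O : Obs ι d)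
    (E : K0 (O.Q.prod S)) where
  w : ℤ
  j : Mor ((F A₁ A₂).prod ptT) O.Q
  jt : j.ρ (Pi.single (some ()) 1) = Pi.single (.inr ()) 1
  fix : ∀ a, d a ≠ w → (O.inc.comp j).φ (Amb.x d a) = 0
  inj : ∀ z z' : ((F A₁ A₂).prod ptT).Pt, O.Q.Orb (j.onPt z) (j.onPt z') →
    ((F A₁ A₂).prod ptT).Orb z z'
  unr : j.Unr
  tan : ∀ (z : ((F A₁ A₂).prod ptT).Pt) (V : Submodule ℂ ((Amb ι d).R →ₗ[ℂ] ℂ)),
    (∀ D ∈ V, D ∈ Tan ((O.inc.comp j).onPt z).1 ∧ (∀ a ∈ O.I, D a = 0) ∧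
      ∀ a, d a ≠ w → D (Amb.x d a) = 0) → Module.finrank ℂ V ≤ e + 1
  hb : pullK j O.C.cls - ∑ a, pullK (O.inc.comp j) (line _ fun o => -o.elim 1 fun _ => d a) + 1 =
    pullK (Mor.fst _ _) (b0 L₁ L₂ A₁ A₂) + tK _ 1 * pullK (Mor.fst _ _) (bp L₁ A₁ A₂) +
      tK _ (-1) * pullK (Mor.fst _ _) (bm L₂ A₁ A₂)
  Ob : Bun (F A₁ A₂)
  rkOb : (Ob.rk : ℤ) = rk _ (b0 L₁ L₂ A₁ A₂) + e
  u : ((Mor.fst _ ptT).pull Ob.M).M →ₗ[((F A₁ A₂).prod ptT).R] (j.pull O.C.M).M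
  uhom : GMod.IsHom _ _ u
  uinj : ∀ z : ((F A₁ A₂).prod ptT).Pt, Function.Injective (fibMap z.1 u)
  uzero : ∀ (a : ι) (ψ : (O.inc.pull ((GMod.one (Amb ι d)).sub O.I O.stab)).M →ₗ[O.Q.R] O.Q.R),
    (∀ f : O.I, ψ ((1 : O.inc.Src) ⊗ₜ f) = O.inc.φ (Amb.pd d a f)) →
    ∀ χ : (j.pull O.C.M).M →ₗ[((F A₁ A₂).prod ptT).R] ((F A₁ A₂).prod ptT).R,
    (∀ c : O.C.M.M, χ ((1 : j.Src) ⊗ₜ c) = j.φ (ψ (O.θ c))) → ∀ o, χ (u o) = 0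
  obcls : Ob.cls = pullK (Mor.fst _ _) (A₁.ob L₁) + pullK (Mor.snd _ _) (A₂.ob L₂)
  Ecl : pullK (j.map (Mor.id S)) E = tSum (a₁ A₁ A₂) (a₂ A₁ A₂)

/-- there is a fixed component with the given set of points -/
def Has (e : ℕ) {ι : Type} [Fintype ι] [Nonempty ι] {d : ι → ℤ} (O : Obs ι d)
    (E : K0 (O.Q.prod S)) (Y : Set O.Q.Pt) : Prop :=
  ∃ G : Fix L₁ L₂ A₁ A₂ e O E, ∀ z, (∃ x, O.Q.Orb (G.j.onPt x) z) ↔ z ∈ Y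

variable {L₁ L₂ A₁ A₂} {e₁ e₂ : ℕ}

theorem ob_eq (h₁ : A₁.X.IsVar e₁) (h₂ : A₂.X.IsVar e₂) (hS : S.IsProj) :
    b0 L₁ L₂ A₁ A₂ - 1 + dualK _ (1 + pullK (Mor.fst _ _) A₁.tc + pullK (Mor.snd _ _) A₂.tc) =
      pullK (Mor.fst _ _) (A₁.ob L₁) + pullK (Mor.snd _ _) (A₂.ob L₂) := by
  have h := cn (h₁.prod h₂)
  have d1 : ∀ v, dualK _ (OP v 1) = OP v (-1) := fun v => dualK_line _
  simp only [b0, ob, tc, a₁, a₂, map_add, map_sub, map_nsmul, map_one, mul_sub, ← pullK_dualK, d1,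
    ← pullK_map_snd (Mor.fst A₁.X A₂.X) L₁, ← pullK_map_snd (Mor.snd A₁.X A₂.X) L₂,
    ← RingHom.map_mul, ← pK_pull h (cn h₁) hS, ← pK_pull h (cn h₂) hS,
    mul_comm (pullK (Mor.snd A₁.X S) L₁), mul_comm (pullK (Mor.snd A₂.X S) L₂)]
  abel

theorem has (h₁ : A₁.X.IsVar e₁) (h₂ : A₂.X.IsVar e₂) (hS : S.IsProj)
    {ι : Type} [Fintype ι] [Nonempty ι] {d : ι → ℤ} (O : Obs ι d) (E : K0 (O.Q.prod S)) (w : ℤ)
    (j : Mor ((F A₁ A₂).prod ptT) O.Q)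
    (jt : (O.inc.comp j).ρ (Pi.single (some ()) 1) = Pi.single (.inr ()) 1)
    (fix : ∀ a, d a ≠ w → (O.inc.comp j).φ (Amb.x d a) = 0)
    (inj : (O.inc.comp j).Inj) (unr : (O.inc.comp j).Unr)
    (tan : ∀ (z : ((F A₁ A₂).prod ptT).Pt) (V : Submodule ℂ ((Amb ι d).R →ₗ[ℂ] ℂ)),
      (∀ D ∈ V, D ∈ Tan ((O.inc.comp j).onPt z).1 ∧ (∀ a ∈ O.I, D a = 0) ∧
        ∀ a, d a ≠ w → D (Amb.x d a) = 0) → Module.finrank ℂ V ≤ e₁ + e₂ + 1)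
    (hb : pullK j O.C.cls -
      ∑ a, pullK (O.inc.comp j) (line _ fun o => -o.elim 1 fun _ => d a) + 1 =
        -dualK _ (vt L₁ L₂ A₁ A₂))
    (Tt : Bun (F A₁ A₂))
    (τ : ι → ((Mor.fst _ ptT).pull Tt.M).M →ₗ[((F A₁ A₂).prod ptT).R] ((F A₁ A₂).prod ptT).R)
    (hT : Tt.rk = e₁ + e₂ + 1)
    (hc : Tt.cls = 1 + pullK (Mor.fst _ _) A₁.tc + pullK (Mor.snd _ _) A₂.tc)
    (τhom : ∀ a, ((Mor.fst _ ptT).pull Tt.M).IsHom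
      ((GMod.one _).shift ((O.inc.comp j).ρ (Amb.deg d a))) (τ a))
    (τinj : ∀ (z : ((F A₁ A₂).prod ptT).Pt) v, (∀ a, z.1 (τ a v) = 0) →
      (Submodule.Quotient.mk v : Fib z.1 _) = 0)
    (τI : ∀ (z : ((F A₁ A₂).prod ptT).Pt) v, ∀ f, (O.inc.comp j).φ f = 0 →
      z.1 (∑ a, τ a v * (O.inc.comp j).φ (Amb.pd d a f)) = 0)
    (hE : pullK (j.map (Mor.id S)) E = tSum (a₁ A₁ A₂) (a₂ A₁ A₂)) {Y : Set O.Q.Pt}
    (hY : ∀ z, (∃ x, O.Q.Orb (j.onPt x) z) ↔ z ∈ Y) : Has L₁ L₂ A₁ A₂ (e₁ + e₂) O E Y := by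
  have hv := h₁.prod h₂
  have hb' := hb.trans (hb_gen hv hS _ _ _ _)
  obtain ⟨Ob, u, k1, k2, k3, k4, k5⟩ := O.obk hv w j jt fix tan _ _ _ hb' Tt hT τ τhom τinj
    fun z v f hf => τI z v f (by
      have : O.inc.φ f = 0 := Ideal.Quotient.eq_zero_iff_mem.2 fun z hz => (O.mem z).1 hz f hf
      exact (congrArg j.φ this).trans (map_zero _))
  refine ⟨⟨w, j, jt, fix, fun z z' o => inj z z' (O.inc.orb o), fun z D hD hR => unr z D hD ?_, tan,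
    hb', Ob, k1, u, k2, k3, k4, k5.trans (hc ▸ ob_eq h₁ h₂ hS), hE⟩, hY⟩
  obtain ⟨ξ, hξ⟩ := hR
  exact ⟨ξ, fun γ r hr => hξ γ _ (O.inc.wt_map γ r hr)⟩

end Tp

section two

variable {S : Spc} {L₁ M₁ L₂ M₂ : K0 S} {v₁ v₂ n₁ n₂ o₁ o₂ : ℕ}
  (T₁ : Tower S L₁ M₁ v₁ n₁ o₁) (T₂ : Tower S L₂ M₂ v₂ n₂ o₂)

theorem Tp.Has.fix {ι : Type} [Fintype ι] [Nonempty ι] {d : ι → ℤ} {O : Obs ι d}
    {E : K0 (O.Q.prod S)} {Y : Set O.Q.Pt}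
    (h : Tp.Has L₁ L₂ T₁.tp T₂.tp (v₁ + 2 * n₁ + (v₂ + 2 * n₂)) O E Y) :
    ∃ G : FixData T₁ T₂ O E, ∀ z, (∃ x, O.Q.Orb (G.j.onPt x) z) ↔ z ∈ Y := by
  obtain ⟨G, hG⟩ := h
  exact ⟨⟨G.w, G.j, G.jt, G.fix, G.inj, G.unr, G.tan, G.hb, G.Ob, G.rkOb, G.u, G.uhom, G.uinj,
    G.uzero, G.obcls, G.Ecl⟩, hG⟩

theorem Gl.rk_bz (hS : S.IsProj) (hD : DRk S) (hL : rk S L₁ = 1) :
    rk _ (T₁.bz n₁) = chiG S (kact S (dualK S M₁ * M₁) (oG S)) -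
      chiG S (kact S (dualK S M₁ * L₁) (oG S)) - n₁ := by
  have hv := T₁.var n₁ le_rfl
  have h1 := rk_pK_E12 T₁ T₁ hS hD
  have h2 := rk_pK_snd T₁ hS hD true L₁ le_rfl
  rw [← rk_pK_pull hv (hv.prod hv) hS (Mor.lift (Mor.id _) (Mor.id _)), RingHom.map_mul,
    pullK_dualK, E1, E2, pullK_map_map, pullK_map_map, Mor.fst_lift, Mor.snd_lift, Mor.map_id,
    pullK_id] at h1
  rw [hL] at h2
  rw [Tower.bz, map_neg, rk_dualK, mul_sub, map_sub, map_sub, h1]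
  refine (congrArg (fun x => -(x - _)) h2).trans ?_
  show -(chiG S (kact S (dualK S M₁ * L₁) (oG S)) - _ - _) = _
  ring

theorem Gl.rk_vt (hS : S.IsProj) : rk _ (Tp.vt L₁ L₂ T₁.tp T₂.tp) =
    -(rk _ (T₁.bz n₁) + rk _ (T₂.bz n₂) + rk _ (bP T₁ T₂) + rk _ (bM T₁ T₂)) := by
  have := congrArg (rk _) (hb_eq T₁ T₂ hS)
  rw [bZ_eq hS] at this
  simp only [map_add, map_neg, RingHom.map_mul, rk_dualK, rk_pullK, rk_tK, one_mul] at this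
  exact neg_eq_iff_eq_neg.1 this

end two

end Vale.Agent.P297Z
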