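import Vale.Agent.P297Z.Cp.Defs

/-! P297: the exterior product of Pluecker coordinates. -/

set_option linter.all false

noncomputable section

namespace Vale.Agent.P297Z

namespace Plk

section ring

variable {A A' : Type} [CommRing A] [CommRing A'] {r r₁ r₂ : ℕ} {B B₁ B₂ : Type}
  (σ : Fin r₁ ⊕ Fin r₂ ≃ Fin r)

theorem cat_inl (J₁ : Fin r₁ → B₁) (J₂ : Fin r₂ → B₂) (c : Fin r₁) :
    cat σ J₁ J₂ (σ (.inl c)) = .inl (J₁ c) := by rw [cat, σ.symm_apply_apply, Sum.map_inl]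

theorem cat_inr (J₁ : Fin r₁ → B₁) (J₂ : Fin r₂ → B₂) (c : Fin r₂) :
    cat σ J₁ J₂ (σ (.inr c)) = .inr (J₂ c) := by rw [cat, σ.symm_apply_apply, Sum.map_inr]

theorem blk_inl (u₁ : Fin r₁ → B₁ → A) (u₂ : Fin r₂ → B₂ → A) (c : Fin r₁) :
    blk σ u₁ u₂ (σ (.inl c)) = Sum.elim (u₁ c) (0 : B₂ → A) := by
  rw [blk, σ.symm_apply_apply, Sum.elim_inl]

theorem blk_inr (u₁ : Fin r₁ → B₁ → A) (u₂ : Fin r₂ → B₂ → A) (c : Fin r₂) :
    blk σ u₁ u₂ (σ (.inr c)) = Sum.elim (0 : B₁ → A) (u₂ c) := by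
  rw [blk, σ.symm_apply_apply, Sum.elim_inr]

theorem cnt_cat (J₁ : Fin r₁ → B₁) (J₂ : Fin r₂ → B₂) : cnt (cat σ J₁ J₂) = r₂ := by
  rw [cnt, ← σ.sum_comp, Fintype.sum_sum_type]
  simp [cat_inl, cat_inr]

theorem cnt_comp (J : Fin r → B₁ ⊕ B₂) (π : Equiv.Perm (Fin r)) : cnt (J ∘ π) = cnt J :=
  Equiv.sum_comp π fun b => Sum.elim (fun _ => (0 : ℤ)) (fun _ => 1) (J b)

theorem cnt_update (J : Fin r → B₁ ⊕ B₂) (c : Fin r) : ∃ w : ℤ,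
    (∀ i, cnt (Function.update J c (.inl i)) = w) ∧ ∀ i, cnt (Function.update J c (.inr i)) = w + 1 := by
  have h : ∀ x, cnt (Function.update J c x) = Sum.elim (fun _ => (0 : ℤ)) (fun _ => 1) x +
      ∑ b ∈ Finset.univ.erase c, Sum.elim (fun _ => (0 : ℤ)) (fun _ => 1) (J b) := fun x => by
    rw [cnt, ← Finset.add_sum_erase _ _ (Finset.mem_univ c), Function.update_self,
      Finset.sum_congr rfl fun b hb => by rw [Function.update_of_ne (Finset.ne_of_mem_erase hb)]]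
  exact ⟨_, fun i => (h _).trans (zero_add _), fun i => (h _).trans (add_comm _ _)⟩

theorem wed_cases (J : Fin r → B₁ ⊕ B₂) :
    (∀ (A : Type) [CommRing A] (p₁ : (Fin r₁ → B₁) → A) (p₂ : (Fin r₂ → B₂) → A),
      wed σ p₁ p₂ J = 0) ∨
    ∃ (ε : ℤ) (J₁ : Fin r₁ → B₁) (J₂ : Fin r₂ → B₂), cnt J = r₂ ∧
      ∀ (A : Type) [CommRing A] (p₁ : (Fin r₁ → B₁) → A) (p₂ : (Fin r₂ → B₂) → A),
        wed σ p₁ p₂ J = ε • (p₁ J₁ * p₂ J₂) := by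
  by_cases h : ∃ t, Spl σ J t
  · refine Or.inr ⟨_, _, _, ?_, fun A _ p₁ p₂ => dif_pos h⟩
    rw [← cnt_comp J h.choose.1, h.choose_spec, cnt_cat]
  · exact Or.inl fun A _ p₁ p₂ => dif_neg h

theorem wed_map (φ : A →+* A') (p₁ : (Fin r₁ → B₁) → A) (p₂ : (Fin r₂ → B₂) → A)
    (J : Fin r → B₁ ⊕ B₂) :
    φ (wed σ p₁ p₂ J) = wed σ (fun J => φ (p₁ J)) (fun J => φ (p₂ J)) J := by
  rcases wed_cases σ J with h | ⟨ε, J₁, J₂, -, h⟩
  · rw [h, h, map_zero]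
  · rw [h, h, map_zsmul, map_mul]

theorem wed_add_left (p₁ p₁' : (Fin r₁ → B₁) → A) (p₂ : (Fin r₂ → B₂) → A) :
    wed σ (p₁ + p₁') p₂ = wed σ p₁ p₂ + wed σ p₁' p₂ := funext fun J => by
  rcases wed_cases σ J with h | ⟨ε, J₁, J₂, -, h⟩
  · rw [Pi.add_apply, h, h, h, add_zero]
  · rw [Pi.add_apply, h, h, h, Pi.add_apply, add_mul, smul_add]

theorem wed_add_right (p₁ : (Fin r₁ → B₁) → A) (p₂ p₂' : (Fin r₂ → B₂) → A) :
    wed σ p₁ (p₂ + p₂') = wed σ p₁ p₂ + wed σ p₁ p₂' := funext fun J => by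
  rcases wed_cases σ J with h | ⟨ε, J₁, J₂, -, h⟩
  · rw [Pi.add_apply, h, h, h, add_zero]
  · rw [Pi.add_apply, h, h, h, Pi.add_apply, mul_add, smul_add]

theorem wed_smul_left (t : A) (p₁ : (Fin r₁ → B₁) → A) (p₂ : (Fin r₂ → B₂) → A) :
    wed σ (t • p₁) p₂ = t • wed σ p₁ p₂ := funext fun J => by
  rcases wed_cases σ J with h | ⟨ε, J₁, J₂, -, h⟩
  · rw [Pi.smul_apply, h, h, smul_zero]
  · rw [Pi.smul_apply, h, h, Pi.smul_apply, smul_mul_assoc, smul_comm]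

theorem wed_smul_right (t : A) (p₁ : (Fin r₁ → B₁) → A) (p₂ : (Fin r₂ → B₂) → A) :
    wed σ p₁ (t • p₂) = t • wed σ p₁ p₂ := funext fun J => by
  rcases wed_cases σ J with h | ⟨ε, J₁, J₂, -, h⟩
  · rw [Pi.smul_apply, h, h, smul_zero]
  · rw [Pi.smul_apply, h, h, Pi.smul_apply, mul_smul_comm, smul_comm]

theorem wed_cnt (p₁ : (Fin r₁ → B₁) → A) (p₂ : (Fin r₂ → B₂) → A) {J : Fin r → B₁ ⊕ B₂}
    (h : cnt J ≠ r₂) : wed σ p₁ p₂ J = 0 := by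
  rcases wed_cases σ J with h' | ⟨ε, J₁, J₂, h', -⟩
  · exact h' _ _ _
  · exact absurd h' h

theorem plk_comp (u : Fin r → B → A) (J : Fin r → B) (π : Equiv.Perm (Fin r)) :
    plk u (J ∘ π) = ((Equiv.Perm.sign π : ℤˣ) : ℤ) • plk u J :=
  (Matrix.det_permute' π (cols u J)).trans (zsmul_eq_mul _ _).symm

theorem sign_sign (π : Equiv.Perm (Fin r)) (a : A) :
    ((Equiv.Perm.sign π : ℤˣ) : ℤ) • ((Equiv.Perm.sign π : ℤˣ) : ℤ) • a = a := by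
  rw [smul_smul, ← Units.val_mul, Int.units_mul_self, Units.val_one, one_smul]

theorem plk_cat (u₁ : Fin r₁ → B₁ → A) (u₂ : Fin r₂ → B₂ → A) (J₁ : Fin r₁ → B₁)
    (J₂ : Fin r₂ → B₂) : plk (blk σ u₁ u₂) (cat σ J₁ J₂) = plk u₁ J₁ * plk u₂ J₂ := by
  rw [plk, ← Matrix.det_submatrix_equiv_self σ, plk, plk, ← Matrix.det_fromBlocks_zero₁₂ _ 0]
  congr 1
  ext a b
  rcases a with a | a <;> rcases b with b | b <;>
    simp [cols, blk_inl, blk_inr, cat_inl, cat_inr]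

theorem plk_blk (u₁ : Fin r₁ → B₁ → A) (u₂ : Fin r₂ → B₂ → A) {J : Fin r → B₁ ⊕ B₂}
    (h : ¬∃ t, Spl σ J t) : plk (blk σ u₁ u₂) J = 0 := by
  rw [plk, Matrix.det_apply]
  refine Finset.sum_eq_zero fun π _ => ?_
  by_contra h0
  have h1 : ∀ a, blk σ u₁ u₂ a (J (π.symm a)) ≠ 0 := fun a e => h0 (by
    rw [Finset.prod_eq_zero (Finset.mem_univ (π.symm a)), smul_zero]
    exact (congrArg (fun t => blk σ u₁ u₂ t (J (π.symm a))) (π.apply_symm_apply a)).trans e)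
  have h2 : ∀ c, ∃ i, J (π.symm (σ (.inl c))) = .inl i := fun c => by
    have := h1 (σ (.inl c))
    rw [blk_inl] at this
    rcases hx : J (π.symm (σ (.inl c))) with i | i
    · exact ⟨i, rfl⟩
    · exact absurd (by rw [hx]; rfl) this
  have h3 : ∀ c, ∃ i, J (π.symm (σ (.inr c))) = .inr i := fun c => by
    have := h1 (σ (.inr c))
    rw [blk_inr] at this
    rcases hx : J (π.symm (σ (.inr c))) with i | i
    · exact absurd (by rw [hx]; rfl) this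
    · exact ⟨i, rfl⟩
  choose J₁ h2 using h2
  choose J₂ h3 using h3
  refine h ⟨(π.symm, J₁, J₂), funext fun a => ?_⟩
  obtain ⟨x, rfl⟩ := σ.surjective a
  rcases x with c | c
  · exact (h2 c).trans (cat_inl σ J₁ J₂ c).symm
  · exact (h3 c).trans (cat_inr σ J₁ J₂ c).symm

theorem wed_plk (t₁ t₂ : A) (u₁ : Fin r₁ → B₁ → A) (u₂ : Fin r₂ → B₂ → A) (J : Fin r → B₁ ⊕ B₂) :
    wed σ (fun J => t₁ * plk u₁ J) (fun J => t₂ * plk u₂ J) J =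
      t₁ * t₂ * plk (blk σ u₁ u₂) J := by
  by_cases h : ∃ t, Spl σ J t
  · have h1 := plk_comp (blk σ u₁ u₂) J h.choose.1
    rw [h.choose_spec, plk_cat] at h1
    rw [wed, dif_pos h, mul_mul_mul_comm, h1, mul_smul_comm, sign_sign]
  · rw [wed, dif_neg h, plk_blk σ u₁ u₂ h, mul_zero]

theorem wed_cat {p₁ : (Fin r₁ → B₁) → A} {p₂ : (Fin r₂ → B₂) → A} (h₁ : Alt p₁) (h₂ : Alt p₂)
    (J₁ : Fin r₁ → B₁) (J₂ : Fin r₂ → B₂) : wed σ p₁ p₂ (cat σ J₁ J₂) = p₁ J₁ * p₂ J₂ := by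
  have h : ∃ t, Spl σ (cat σ J₁ J₂) t := ⟨(1, J₁, J₂), rfl⟩
  rw [wed, dif_pos h]
  have h1 := h.choose_spec
  generalize h.choose = t at h1
  obtain ⟨π, K₁, K₂⟩ := t
  have h2 : ∀ x, Sum.map J₁ J₂ (σ.symm.permCongr π x) = Sum.map K₁ K₂ x := fun x =>
    (congrFun h1 (σ x)).trans (congrArg _ (σ.symm_apply_apply x))
  obtain ⟨⟨π₁, π₂⟩, e⟩ := Equiv.Perm.mem_sumCongrHom_range_of_perm_mapsTo_inl
    (σ := σ.symm.permCongr π) (by
      rintro _ ⟨c, rfl⟩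
      have := h2 (.inl c)
      rcases hx : σ.symm.permCongr π (.inl c) with i | i
      · exact ⟨i, rfl⟩
      · rw [hx] at this
        exact absurd this (by simp))
  have e1 : K₁ = J₁ ∘ π₁ := funext fun c => by
    have := h2 (.inl c)
    rw [← e] at this
    exact (Sum.inl_injective this).symm
  have e2 : K₂ = J₂ ∘ π₂ := funext fun c => by
    have := h2 (.inr c)
    rw [← e] at this
    exact (Sum.inr_injective this).symm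
  have e3 : Equiv.Perm.sign π = Equiv.Perm.sign π₁ * Equiv.Perm.sign π₂ := by
    rw [← Equiv.Perm.sign_permCongr σ.symm π, ← e]
    exact Equiv.Perm.sign_sumCongr π₁ π₂
  dsimp only
  rw [e1, e2, h₁, h₂, smul_mul_smul_comm, ← Units.val_mul, ← e3, sign_sign]

end ring

section field

variable {r r₁ r₂ : ℕ} {B B₁ B₂ : Type} [Fintype B] [DecidableEq B] [Fintype B₁] [DecidableEq B₁]
  [Fintype B₂] [DecidableEq B₂] (σ : Fin r₁ ⊕ Fin r₂ ≃ Fin r) {p τ : (Fin r → B) → ℂ}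
  {p₁ τ₁ : (Fin r₁ → B₁) → ℂ} {p₂ τ₂ : (Fin r₂ → B₂) → ℂ}

theorem Rel.eq_mul (h : Rel p) (n : p ≠ 0) : ∃ (t : ℂ) (u : Fin r → B → ℂ), t ≠ 0 ∧
    LinearIndependent ℂ u ∧ p = fun J => t * plk u J := by
  obtain ⟨J, hJ⟩ := Function.ne_iff.1 n
  obtain ⟨u, h1, -, h2⟩ := h.exists_plk hJ
  exact ⟨_, u, hJ, h1, funext h2⟩

theorem Rel.eq_mul' (h : Rel p) : ∃ (t : ℂ) (u : Fin r → B → ℂ), p = fun J => t * plk u J := by
  by_cases n : p = 0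
  · exact ⟨0, 0, n.trans (funext fun J => (zero_mul _).symm)⟩
  · obtain ⟨t, u, -, -, e⟩ := h.eq_mul n
    exact ⟨t, u, e⟩

theorem Rel.alt (h : Rel p) : Alt p := fun J π => by
  obtain ⟨t, u, rfl⟩ := h.eq_mul'
  exact (congrArg (t * ·) (plk_comp u J π)).trans (mul_smul_comm _ _ _)

theorem Rel.wed (h₁ : Rel p₁) (h₂ : Rel p₂) : Rel (wed σ p₁ p₂) := by
  obtain ⟨t₁, u₁, rfl⟩ := h₁.eq_mul'
  obtain ⟨t₂, u₂, rfl⟩ := h₂.eq_mul'
  rw [funext (wed_plk σ t₁ t₂ u₁ u₂)]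
  exact rel_plk _ _

theorem wed_ne (h₁ : Rel p₁) (h₂ : Rel p₂) (n₁ : p₁ ≠ 0) (n₂ : p₂ ≠ 0) : wed σ p₁ p₂ ≠ 0 := by
  obtain ⟨J₁, e₁⟩ := Function.ne_iff.1 n₁
  obtain ⟨J₂, e₂⟩ := Function.ne_iff.1 n₂
  exact Function.ne_iff.2 ⟨cat σ J₁ J₂, (wed_cat σ h₁.alt h₂.alt J₁ J₂).trans_ne (mul_ne_zero e₁ e₂)⟩

theorem linInd_blk {u₁ : Fin r₁ → B₁ → ℂ} {u₂ : Fin r₂ → B₂ → ℂ} (h₁ : LinearIndependent ℂ u₁)
    (h₂ : LinearIndependent ℂ u₂) : LinearIndependent ℂ (blk σ u₁ u₂) := by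
  obtain ⟨J₁, e₁⟩ := exists_plk_ne h₁
  obtain ⟨J₂, e₂⟩ := exists_plk_ne h₂
  exact linInd_of_plk ((plk_cat σ u₁ u₂ J₁ J₂).trans_ne (mul_ne_zero e₁ e₂))

theorem sum_blk (u₁ : Fin r₁ → B₁ → ℂ) (u₂ : Fin r₂ → B₂ → ℂ) (c : Fin r → ℂ) :
    ∑ a, c a • blk σ u₁ u₂ a =
      Sum.elim (∑ a, c (σ (.inl a)) • u₁ a) (∑ a, c (σ (.inr a)) • u₂ a) := by
  rw [← σ.sum_comp, Fintype.sum_sum_type]
  funext i
  rcases i with i | i <;> simp [blk_inl, blk_inr, Finset.sum_apply]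

theorem mem_sub_wed (h₁ : Rel p₁) (h₂ : Rel p₂) (n₁ : p₁ ≠ 0) (n₂ : p₂ ≠ 0) (v : B₁ ⊕ B₂ → ℂ) :
    v ∈ sub (wed σ p₁ p₂) ↔ (fun i => v (.inl i)) ∈ sub p₁ ∧ (fun i => v (.inr i)) ∈ sub p₂ := by
  obtain ⟨t₁, u₁, a₁, b₁, rfl⟩ := h₁.eq_mul n₁
  obtain ⟨t₂, u₂, a₂, b₂, rfl⟩ := h₂.eq_mul n₂
  rw [funext (wed_plk σ t₁ t₂ u₁ u₂), sub_plk (mul_ne_zero a₁ a₂) (linInd_blk σ b₁ b₂),
    sub_plk a₁ b₁, sub_plk a₂ b₂]
  simp only [Submodule.mem_span_range_iff_exists_fun, sum_blk]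
  constructor
  · rintro ⟨c, rfl⟩
    exact ⟨⟨_, rfl⟩, ⟨_, rfl⟩⟩
  · rintro ⟨⟨c₁, e₁⟩, ⟨c₂, e₂⟩⟩
    refine ⟨fun a => Sum.elim c₁ c₂ (σ.symm a), ?_⟩
    simp only [σ.symm_apply_apply, Sum.elim_inl, Sum.elim_inr, e₁, e₂]
    exact funext fun i => by rcases i with i | i <;> rfl

/-- the extension by zero from the first summand -/
def in₁ (B₁ B₂ : Type) : (B₁ → ℂ) →ₗ[ℂ] (B₁ ⊕ B₂ → ℂ) where
  toFun := fun v => Sum.elim v 0
  map_add' := fun v v' => funext fun i => by rcases i with i | i <;> simp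
  map_smul' := fun c v => funext fun i => by rcases i with i | i <;> simp

/-- the extension by zero from the second summand -/
def in₂ (B₁ B₂ : Type) : (B₂ → ℂ) →ₗ[ℂ] (B₁ ⊕ B₂ → ℂ) where
  toFun := fun v => Sum.elim 0 v
  map_add' := fun v v' => funext fun i => by rcases i with i | i <;> simp
  map_smul' := fun c v => funext fun i => by rcases i with i | i <;> simp

theorem in_add (v : B₁ ⊕ B₂ → ℂ) :
    in₁ B₁ B₂ (fun i => v (.inl i)) + in₂ B₁ B₂ (fun i => v (.inr i)) = v :=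
  funext fun i => by rcases i with i | i <;> simp [in₁, in₂]

/-- the vectors of homogeneous coordinates lie in one of the summands -/
theorem vc_side {w : ℤ} (J : Fin r → B₁ ⊕ B₂) (c : Fin r) :
    (∀ q : (Fin r → B₁ ⊕ B₂) → ℂ, (∀ J, cnt J ≠ w → q J = 0) → ∀ i, vc q J c (.inl i) = 0) ∨
    ∀ q : (Fin r → B₁ ⊕ B₂) → ℂ, (∀ J, cnt J ≠ w → q J = 0) → ∀ i, vc q J c (.inr i) = 0 := by
  obtain ⟨w', h1, h2⟩ := cnt_update J c
  by_cases e : w' = w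
  · exact Or.inr fun q hq i => hq _ (by rw [h2]; omega)
  · exact Or.inl fun q hq i => hq _ (by rw [h1]; exact e)

theorem split (q : (Fin r → B₁ ⊕ B₂) → ℂ) {w : ℤ} (hw : ∀ J, cnt J ≠ w → q J = 0) :
    ∃ (U₁ : Submodule ℂ (B₁ → ℂ)) (U₂ : Submodule ℂ (B₂ → ℂ)),
      ∀ v, v ∈ sub q ↔ (fun i => v (.inl i)) ∈ U₁ ∧ (fun i => v (.inr i)) ∈ U₂ := by
  refine ⟨(sub q).comap (in₁ B₁ B₂), (sub q).comap (in₂ B₁ B₂), fun v => ⟨fun hv => ?_,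
    fun hv => in_add v ▸ add_mem hv.1 hv.2⟩⟩
  have h1 : in₁ B₁ B₂ (fun i => v (.inl i)) ∈ sub q := by
    refine (Submodule.span_le (p := (sub q).comap
      (in₁ B₁ B₂ ∘ₗ LinearMap.funLeft ℂ ℂ Sum.inl))).2 ?_ hv
    rintro _ ⟨J, c, rfl⟩
    change in₁ B₁ B₂ (fun i => vc q J c (.inl i)) ∈ sub q
    rcases vc_side (w := w) J c with h | h
    · rw [funext (h q hw)]
      exact (map_zero (in₁ B₁ B₂)).symm ▸ zero_mem _
    · have := in_add (vc q J c)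
      rw [funext (h q hw), show in₂ B₁ B₂ (fun _ => 0) = 0 from map_zero _, add_zero] at this
      rw [this]
      exact Submodule.subset_span ⟨J, c, rfl⟩
  refine ⟨h1, ?_⟩
  have := sub_mem hv h1
  rwa [← eq_sub_iff_add_eq'.2 (in_add v)] at this

end field

end Plk

end Vale.Agent.P297Z
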