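import Vale.Agent.P297Z.Cp.PtsA
import Vale.Agent.P297Z.Cp.Wed

/-! P297: the fixed points of the Quot space are direct sums. -/

set_option linter.all false

open Filter

noncomputable section

namespace Vale.Agent.P297Z.Sf

open Fb Pw PtA

variable {K : Type} [Field K] [Algebra ℂ K] {S : Surf K}

namespace PtA

theorem exists_fam (N : Submodule ℂ K) [FiniteDimensional ℂ N] :
    ∃ (n : ℕ) (u : Fin n → K), Submodule.span ℂ (Set.range u) = N :=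
  Submodule.fg_iff_exists_fin_generating_family.1 (Module.Finite.iff_fg.1 inferInstance)

theorem span_vec {r : ℕ} {B V : Type} [AddCommGroup V] [Module ℂ V] (f : (B → ℂ) →ₗ[ℂ] V)
    (q : (Fin r → B) → ℂ) :
    Submodule.span ℂ (Set.range fun s => f (Qt.vec q s)) = (Plk.sub q).map f := by
  rw [Plk.sub, Submodule.map_span]
  congr 1
  ext v
  exact ⟨fun ⟨s, h⟩ => ⟨_, ⟨s.1, s.2, rfl⟩, h⟩, fun ⟨_, ⟨J, c, e⟩, h⟩ => ⟨(J, c), (congrArg f e.symm).trans h⟩⟩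

/-- the saturation of the module generated by `u` in degree `m` -/
def satE (S : Surf K) (L : Div S.W) (m : ℤ) {n : ℕ} (u : Fin n → K) (k : ℤ) : Submodule ℂ K where
  carrier := {f | f ∈ M L k ∧ ∀ i, ∀ᶠ N : ℕ in atTop, ∀ j : ℕ, k + N = m + j →
    S.x i ^ N * f ∈ Gn S.W u j}
  zero_mem' := ⟨zero_mem _, fun i => Eventually.of_forall fun N j _ => by
    rw [mul_zero]
    exact zero_mem _⟩
  add_mem' := fun ha hb => ⟨add_mem ha.1 hb.1, fun i => ((ha.2 i).and (hb.2 i)).mono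
    fun N h j e => by
      rw [mul_add]
      exact add_mem (h.1 j e) (h.2 j e)⟩
  smul_mem' := fun t f hf => ⟨Submodule.smul_mem _ t hf.1, fun i => (hf.2 i).mono fun N h j e => by
    rw [mul_smul_comm]
    exact Submodule.smul_mem _ t (h j e)⟩

theorem mem_satE {L : Div S.W} {m : ℤ} {n : ℕ} {u : Fin n → K} {j : ℕ} {f : K}
    (h1 : f ∈ M L (m + j)) (h2 : f ∈ Gn S.W u j) : f ∈ satE S L m u (m + j) :=
  ⟨h1, fun i => Eventually.of_forall fun N j' e => by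
    obtain rfl : j' = N + j := by omega
    exact smul_mem_Gn S.W u (Submodule.pow_mem_pow _ (S.x_mem i) N) h2⟩

theorem satE_sat (hA : FibA S) (L : Div S.W) (m : ℤ) {n : ℕ} (u : Fin n → K) :
    Sat S L (satE S L m u) := by
  obtain ⟨Z, hZ⟩ := hA.empty
  have h0 := (hA.sat Z L 0 le_rfl).mul
  simp only [sub_zero, hA.zero Z L _ hZ] at h0
  refine ⟨fun j f hf => hf.1, fun k => Submodule.mul_le.2 fun w hw f hf =>
    ⟨h0 k (Submodule.mul_mem_mul hw hf.1), fun i => ?_⟩, fun k f hf h1 => ⟨hf, fun i => ?_⟩⟩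
  · filter_upwards [hf.2 i, eventually_ge_atTop (m - k).toNat] with N h2 h3 j e
    obtain ⟨j, rfl⟩ : ∃ j', j = 1 + j' := ⟨j - 1, by omega⟩
    rw [mul_left_comm]
    exact smul_mem_Gn S.W u (by rwa [pow_one]) (h2 j (by omega))
  · obtain ⟨N, -, h2⟩ := h1 i
    obtain ⟨a, ha⟩ := eventually_atTop.1 (h2 i)
    refine eventually_atTop.2 ⟨a + N, fun b hb j e => ?_⟩
    obtain ⟨b, rfl⟩ : ∃ b', b = b' + N := ⟨b - N, by omega⟩
    rw [pow_add, mul_assoc]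
    exact ha b (by omega) j (by omega)

theorem exists_len (h : S.All) (hA : FibA S) (n : ℕ) : ∃ Z : Zs S.W, Z.len = n := by
  induction n with
  | zero => exact hA.empty
  | succ n ih =>
    obtain ⟨Z, rfl⟩ := ih
    obtain ⟨Z', h1⟩ := hA.add Z h.pt_ne.some
    exact ⟨Z', h1.len⟩

theorem exists_reg (hA : FibA S) (L : Div S.W) :
    ∀ᶠ m : ℤ in atTop, ∀ Z : Zs S.W, Z.len = 0 → Reg S m L Z := by
  obtain ⟨Z₀, h0⟩ := hA.empty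
  obtain ⟨a, ha⟩ := hA.large Z₀ L
  filter_upwards [eventually_ge_atTop a] with m hm Z hZ
  rw [Zs.ext (funext fun x => ((hA.len_zero Z).1 hZ x).trans ((hA.len_zero Z₀).1 h0 x).symm)]
  exact ha m hm

theorem exists_van (h : S.All) (L : Div S.W) (l : ℤ) : ∀ᶠ m : ℤ in atTop, ∀ D : Div S.W,
    inter S.H D ≤ l → ∀ j, m ≤ j → H0 (S.kap - (L - D + j • S.H)) = ⊥ := by
  filter_upwards [eventually_gt_atTop |inter S.H S.kap - inter S.H L + l|] with m hm D hD j hj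
  refine H0_bot h ?_
  have h1 := h.sq
  simp only [← interHom_apply h.toRR, map_add, map_sub, map_zsmul, smul_eq_mul] at *
  have h2 := le_abs_self (interHom h.toRR S.H S.kap - interHom h.toRR S.H L + l)
  have h3 := abs_nonneg (interHom h.toRR S.H S.kap - interHom h.toRR S.H L + l)
  nlinarith

/-- the data of a tower for the zero divisor -/
def ctx (h : S.All) (L : Div S.W) (m : ℕ) (hL : M L m ≠ ⊥) : Ctx S :=
  have h1 : H0 (0 : Div S.W) ≠ ⊥ := fun e => by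
    have := h0_zero h.toLoc2
    rw [h0_bot e] at this
    omega
  { L := L
    D := 0
    m := m
    B := Fin ((h0 (L + (m : ℤ) • S.H) - 1).toNat + 1)
    e := (Ctx.exists_basis h hL).choose
    e_ind := (Ctx.exists_basis h hL).choose_spec.1
    e_span := (Ctx.exists_basis h hL).choose_spec.2
    v := (h0 (0 : Div S.W) - 1).toNat
    φ := (Ctx.exists_basis h h1).choose
    φ_ind := (Ctx.exists_basis h h1).choose_spec.1
    φ_span := (Ctx.exists_basis h h1).choose_spec.2 }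

end PtA

namespace Two

variable {P : Two S} {h : S.All} {q : (Fin P.r → P.c₁.B ⊕ P.c₂.B) → ℂ} {D₁ D₂ : Div S.W}
  {Z₁ Z₂ : Zs S.W}

theorem Typ.gen (hA : FibA S) (ht : P.Typ q D₁ D₂ Z₁ Z₂) (j : ℕ) :
    Gn S.W (fun s : (P.dat h).Sx => P.lc (Qt.vec q s)) j =
      (EM Z₁ (P.c₁.L - D₁) (P.c₁.m + j)).prod (EM Z₂ (P.c₂.L - D₂) (P.c₁.m + j)) := by
  have := fin_M h (P.c₁.L - D₁) P.c₁.m
  have := fin_M h (P.c₂.L - D₂) P.c₁.m
  have := Submodule.finiteDimensional_of_le (hA.le Z₁ (P.c₁.L - D₁) P.c₁.m)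
  have := Submodule.finiteDimensional_of_le (hA.le Z₂ (P.c₂.L - D₂) P.c₁.m)
  obtain ⟨n₁, u₁, e₁⟩ := exists_fam (EM Z₁ (P.c₁.L - D₁) P.c₁.m)
  obtain ⟨n₂, u₂, e₂⟩ := exists_fam (EM Z₂ (P.c₂.L - D₂) P.c₁.m)
  rw [← Gn_EM h hA ht.reg₁ e₁, ← Gn_EM h hA ht.reg₂ e₂]
  exact Gn_prod _ (((span_vec P.lc q).trans ht.sub).trans (by rw [e₁, e₂])) j

theorem Typ.pt (hP : P.Ok h) (hA : FibA S) (ht : P.Typ q D₁ D₂ Z₁ Z₂) : (P.dat h).Pt q := by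
  refine ⟨ht.rel, Function.ne_iff.1 ht.ne, fun k hk => ?_⟩
  have hk' : (P.c₁.m : ℤ) ≤ k := hk
  obtain ⟨j, rfl⟩ : ∃ j : ℕ, k = P.c₁.m + j := ⟨(k - P.c₁.m).toNat, by omega⟩
  rw [P.hq_eq h _ _ _ _ ((hA.sat Z₁ _ _ ht.eff₁).le _) ((hA.sat Z₂ _ _ ht.eff₂).le _)
    fun v hv => by rw [P.mem_gen h q j hv, ht.gen hA], h0_chi hA hP.reg₁ hk', h0_chi hA hP.reg₂' hk',
    ht.reg₁.dim _ hk', ht.reg₂.dim _ hk']
  exact (ht.hp _).ge.trans (le_of_eq (by ring))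

theorem exists_typ (hP : P.Ok h) (hA : FibA S) (hp : Qt.Pts (sur S h) (P.dat h))
    (hq : (P.dat h).Pt q) {w : ℤ} (hw : ∀ J, Plk.cnt J ≠ w → q J = 0) :
    ∃ D₁ D₂ Z₁ Z₂, P.Typ q D₁ D₂ Z₁ Z₂ := by
  obtain ⟨U₁, U₂, hU⟩ := Plk.split q hw
  obtain ⟨n₁, u₁, e₁⟩ := exists_fam (U₁.map P.c₁.lc)
  obtain ⟨n₂, u₂, e₂⟩ := exists_fam (U₂.map P.c₂.lc)
  have h1 : (Plk.sub q).map P.lc =
      (Submodule.span ℂ (Set.range u₁)).prod (Submodule.span ℂ (Set.range u₂)) := by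
    rw [e₁, e₂]
    refine le_antisymm ?_ ?_
    · rintro _ ⟨v, hv, rfl⟩
      rw [lc_apply]
      exact ⟨⟨_, ((hU v).1 hv).1, rfl⟩, ⟨_, ((hU v).1 hv).2, rfl⟩⟩
    · rintro ⟨_, _⟩ ⟨⟨a, ha, rfl⟩, ⟨b, hb, rfl⟩⟩
      exact ⟨Sum.elim a b, (hU _).2 ⟨ha, hb⟩, P.lc_apply _⟩
  have h2 : ∀ (j : ℕ), ∀ v ∈ (P.dat h).V.wt (Qt.dg _ (P.c₁.m + j)), v ∈ (P.dat h).gen q ↔
      P.cv h (P.c₁.m + j) v ∈ (Gn S.W u₁ j).prod (Gn S.W u₂ j) := fun j v hv =>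
    (P.mem_gen h q j hv).trans (SetLike.ext_iff.1 (Gn_prod _ ((span_vec P.lc q).trans h1) j) _)
  have s₁ := satE_sat hA P.c₁.L P.c₁.m u₁
  have s₂ := satE_sat hA P.c₂.L P.c₁.m u₂
  have h3 : ∀ (j : ℕ), ∀ v ∈ (P.dat h).V.wt (Qt.dg _ (P.c₁.m + j)), v ∈ (P.dat h).gen q ↔
      P.cv h (P.c₁.m + j) v ∈ (satE S P.c₁.L P.c₁.m u₁ (P.c₁.m + j)).prod
        (satE S P.c₂.L P.c₁.m u₂ (P.c₁.m + j)) := fun j v hv => by
    refine ⟨fun e => ⟨mem_satE (P.cv_mem h _ v).1 ((h2 j v hv).1 e).1,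
      mem_satE (P.cv_mem h _ v).2 ((h2 j v hv).1 e).2⟩, fun e => ?_⟩
    obtain ⟨N, hN⟩ := (eventually_all.2 fun i => (e.1.2 i).and (e.2.2 i)).exists
    refine hp.sat_eq q hq _ (show (P.c₁.m : ℤ) ≤ P.c₁.m + j by omega) v hv ⟨N, fun i => ?_⟩
    have h4 : (P.c₁.m : ℤ) + j + N = P.c₁.m + (j + N : ℕ) := by push_cast; ring
    refine (h2 (j + N) _ (Qt.mwt_eq (GMod.smul_mem_wt (Spc.pow_mem ((sur S h).x_wt i) N) hv)
      (funext fun _ => ?_))).2 ?_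
    · change N • (1 : ℤ) + (P.c₁.m + j) = P.c₁.m + (j + N : ℕ)
      rw [nsmul_one, add_comm, h4]
    · rw [← h4, cv_xp]
      exact ⟨(hN i).1 _ h4, (hN i).2 _ h4⟩
  have h4 : ∀ k : ℤ, P.c₁.m ≤ k → P.l * k + P.c =
      chi (P.c₁.L + k • S.H) - Module.finrank ℂ (satE S P.c₁.L P.c₁.m u₁ k) +
        (chi (P.c₂.L + k • S.H) - Module.finrank ℂ (satE S P.c₂.L P.c₁.m u₂ k)) := fun k hk => by
    obtain ⟨j, rfl⟩ : ∃ j : ℕ, k = P.c₁.m + j := ⟨(k - P.c₁.m).toNat, by omega⟩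
    rw [← h0_chi hA hP.reg₁ hk, ← h0_chi hA hP.reg₂' hk, ← P.hq_eq h _ _ _ _ (s₁.le _) (s₂.le _) (h3 j)]
    exact ((hp.reg q hq).hq _ hk).symm
  have h5 : ∀ {L : Div S.W} {E : ℤ → Submodule ℂ K}, Sat S L E →
      (∀ Z : Zs S.W, Z.len = 0 → Reg S P.c₁.m L Z) → ∀ k : ℤ, P.c₁.m ≤ k →
      (Module.finrank ℂ (E k) : ℤ) ≤ chi (L + k • S.H) := fun {L E} s r k hk => by
    have := fin_M h L k
    rw [← h0_chi hA r hk]
    exact Int.ofNat_le.2 (Submodule.finrank_mono (s.le k) :)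
  obtain ⟨D₁, Z₁, d₁, f₁⟩ := hA.ty _ _ s₁ (by
    obtain ⟨k, h6, h7⟩ := grow h P.c₁.L P.l P.c P.c₁.m
    refine ⟨k, fun e => ?_⟩
    have h8 := h4 k h6
    have h9 := h5 s₂ hP.reg₂' k h6
    rw [e, finrank_bot] at h8
    omega)
  obtain ⟨D₂, Z₂, d₂, f₂⟩ := hA.ty _ _ s₂ (by
    obtain ⟨k, h6, h7⟩ := grow h P.c₂.L P.l P.c P.c₁.m
    refine ⟨k, fun e => ?_⟩
    have h8 := h4 k h6
    have h9 := h5 s₁ hP.reg₁ k h6
    rw [e, finrank_bot] at h8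
    omega)
  have h6 : P.Hp (P.c₁.L - D₁) (P.c₂.L - D₂) Z₁.len Z₂.len := by
    obtain ⟨a, ha⟩ := hA.large Z₁ (P.c₁.L - D₁)
    obtain ⟨b, hb⟩ := hA.large Z₂ (P.c₂.L - D₂)
    have h7 : ∀ k, max (max a b) P.c₁.m ≤ k → chi P.c₁.L - chi (P.c₁.L - D₁) + k * inter S.H D₁ +
        Z₁.len + (chi P.c₂.L - chi (P.c₂.L - D₂) + k * inter S.H D₂ + Z₂.len) = P.l * k + P.c := by
      intro k hk
      rw [h4 k (by omega), f₁, f₂, (ha k (by omega)).dim k le_rfl, (hb k (by omega)).dim k le_rfl,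
        ← chi_diff h, ← chi_diff h]
      ring
    intro k
    rw [chi_diff h, chi_diff h]
    generalize max (max a b) P.c₁.m = t at h7
    linear_combination (1 - (k - t)) * h7 t le_rfl + (k - t) * h7 (t + 1) (by omega)
  obtain ⟨r₁, r₂, -⟩ := hP.reg hA d₁ d₂ h6
  refine ⟨D₁, D₂, Z₁, Z₂, hq.rel, Function.ne_iff.2 hq.ne, d₁, d₂, h6, r₁, r₂, ?_⟩
  rw [h1, ← f₁, ← f₂, ← Gn_zero S.W, ← Gn_zero S.W]
  have h7 : (P.c₁.m : ℤ) = P.c₁.m + (0 : ℕ) := (add_zero _).symm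
  refine le_antisymm (fun x hx => ?_) fun x hx => ?_
  · have h8 : x ∈ (Plk.sub q).map P.lc := by rwa [h1, ← Gn_zero S.W, ← Gn_zero S.W]
    rw [← span_vec] at h8
    have h9 : x ∈ (M P.c₁.L P.c₁.m).prod (M P.c₂.L P.c₁.m) := by
      refine Submodule.span_le.2 ?_ h8
      rintro _ ⟨s, rfl⟩
      exact (congrArg (· ∈ _) (P.cv_v0 h q s)).mp (P.cv_mem h _ _)
    exact h7 ▸ ⟨mem_satE (h7 ▸ h9.1) hx.1, mem_satE (h7 ▸ h9.2) hx.2⟩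
  · obtain ⟨v, hv, rfl⟩ := P.exists_cv h (k := P.c₁.m + (0 : ℕ))
      (h7 ▸ ⟨s₁.le _ hx.1, s₂.le _ hx.2⟩ : x ∈ _)
    exact (h2 0 v hv).1 ((h3 0 v hv).2 (h7 ▸ hx))

theorem exists_ok (h : S.All) (hA : FibA S) (hR : Qt.REGB) (hB : Qt.BAS) (hK : Qt.KOSP)
    (L₁ L₂ : Div S.W) (l : ℕ) (c : ℤ) {n₁ n₂ : ℕ} (e₁ : 0 ≤ D₁) (e₂ : 0 ≤ D₂)
    (hp : ∀ k : ℤ, chi (L₁ + k • S.H) - chi (L₁ - D₁ + k • S.H) + n₁ +
      (chi (L₂ + k • S.H) - chi (L₂ - D₂ + k • S.H) + n₂) = l * k + c) :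
    ∃ P : Two S, P.c₁.L = L₁ ∧ P.c₂.L = L₂ ∧ P.l = l ∧ P.c = c ∧ P.Ok h := by
  obtain ⟨m₀, h0⟩ := hR hB hK _ (sur S h) (GMod.pi fun a : Bool => S.lb h (cond a L₂ L₁)) l c
  obtain ⟨m, ⟨⟨⟨⟨r₁, r₂⟩, v₁⟩, v₂⟩, h1⟩, h2⟩ := ((((((exists_reg hA L₁).and (exists_reg hA L₂)).and
    (exists_van h L₁ l)).and (exists_van h L₂ l)).and (eventually_ge_atTop m₀)).and
      (eventually_ge_atTop 0)).exists
  lift m to ℕ using h2
  obtain ⟨Z, hZ⟩ := hA.empty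
  obtain ⟨Z₁, rfl⟩ := exists_len h hA n₁
  obtain ⟨Z₂, rfl⟩ := exists_len h hA n₂
  let P : ℕ → Two S := fun r => ⟨ctx h L₁ m (hA.zero Z _ _ hZ ▸ (r₁ Z hZ).ne_bot h),
    ctx h L₂ m (hA.zero Z _ _ hZ ▸ (r₂ Z hZ).ne_bot h), rfl, l, c, r⟩
  have van : ∀ r (a : Bool) (D : Div S.W), inter S.H D ≤ (P r).l → ∀ j : ℤ, (P r).c₁.m ≤ j →
      H0 (S.kap - ((P r).Ld a - D + j • S.H)) = ⊥ := fun r a => by
    cases a
    exacts [v₁, v₂]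
  obtain ⟨h3, h4⟩ := reg_aux (P := P 0) (h := h) (h0 m h1) r₁ r₂ (van 0) hA e₁ e₂ hp
  have h5 := card_aux (P := P 0) h hA r₁ r₂ hp h3 h4
  refine ⟨P (Module.finrank ℂ (EM Z₁ (L₁ - D₁) m) + Module.finrank ℂ (EM Z₂ (L₂ - D₂) m)),
    rfl, rfl, rfl, rfl, ⟨(ind_eV _ h).1, (ind_eV _ h).2, ?_, h0 m h1⟩, r₁, r₂, van _⟩
  exact (congrArg (· + _) (Nat.cast_add _ _)).trans h5

end Two

end Vale.Agent.P297Z.Sf
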