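import Vale.Agent.P297Z.Cp.Wed

/-! P297: tangent vectors of the cone over the Grassmannian and exterior products. -/

set_option linter.all false

noncomputable section

namespace Vale.Agent.P297Z

namespace Plk

section field

variable {r r₁ r₂ : ℕ} {B B₁ B₂ : Type} [Fintype B] [DecidableEq B] [Fintype B₁] [DecidableEq B₁]
  [Fintype B₂] [DecidableEq B₂] (σ : Fin r₁ ⊕ Fin r₂ ≃ Fin r) {p τ : (Fin r → B) → ℂ}
  {p₁ τ₁ : (Fin r₁ → B₁) → ℂ} {p₂ τ₂ : (Fin r₂ → B₂) → ℂ}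

theorem vec_mem (p : (Fin r → B) → ℂ) (s : (Fin r → B) × Fin r) : Qt.vec p s ∈ sub p :=
  Submodule.subset_span ⟨s.1, s.2, rfl⟩

theorem span_vec (p : (Fin r → B) → ℂ) : Submodule.span ℂ (Set.range (Qt.vec p)) = sub p :=
  congrArg _ (Set.ext fun _ => ⟨fun ⟨s, h⟩ => ⟨s.1, s.2, h.symm⟩, fun ⟨J, c, h⟩ => ⟨(J, c), h.symm⟩⟩)

theorem self_mem_TG (hG : Qt.GRT) (h : Rel p) (n : p ≠ 0) : p ∈ TG r B p :=
  ((hG r B p h (Function.ne_iff.1 n)).tan2 1 0 p fun J => by simp).1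

theorem Alt.vec (h : Alt p) (J : Fin r → B) (π : Equiv.Perm (Fin r)) (c : Fin r) :
    Qt.vec p (J ∘ π, c) = ((Equiv.Perm.sign π : ℤˣ) : ℤ) • Qt.vec p (J, π c) := funext fun i =>
  (congrArg p (Function.update_comp_eq_of_injective J π.injective c i).symm).trans (h _ π)

theorem TG_alt (hG : Qt.GRT) (h : Rel p) (n : p ≠ 0) (hτ : τ ∈ TG r B p) : Alt τ := fun J π => by
  obtain ⟨t, φ, h1, -⟩ := (hG r B p h (Function.ne_iff.1 n)).tan1 τ hτ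
  rw [h1, h1, h.alt, smul_add, mul_smul_comm,
    ← Equiv.sum_comp π fun c => φ (Qt.vec p (J, c)) (J c), Finset.smul_sum]
  refine congrArg _ (Finset.sum_congr rfl fun c _ => ?_)
  rw [h.alt.vec, map_zsmul]
  rfl

theorem exists_mov (hG : Qt.GRT) (h : Rel p) (n : p ≠ 0) (hτ : τ ∈ TG r B p) :
    ∃ φ, Mov p τ φ := by
  obtain ⟨t, φ, -, h1⟩ := (hG r B p h (Function.ne_iff.1 n)).tan1 τ hτ
  exact ⟨φ, h1⟩

theorem exists_TG (hG : Qt.GRT) (h : Rel p) (n : p ≠ 0) (φ : (B → ℂ) →ₗ[ℂ] (B → ℂ)) :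
    ∃ τ ∈ TG r B p, Mov p τ φ :=
  ⟨_, (hG r B p h (Function.ne_iff.1 n)).tan2 0 φ _ fun _ => rfl⟩

theorem TG_rad (hG : Qt.GRT) (h : Rel p) (n : p ≠ 0) (hτ : τ ∈ TG r B p)
    (hv : ∀ s, Qt.vec τ s ∈ sub p) : ∃ t : ℂ, τ = t • p :=
  ((hG r B p h (Function.ne_iff.1 n)).rad τ hτ hv).imp fun _ h => funext h

/-- derivations give tangent vectors -/
theorem dd_eq {R ι : Type} [CommRing R] [Algebra ℂ R] [Fintype ι] (z : R →ₐ[ℂ] ℂ) {D : R →ₗ[ℂ] ℂ}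
    (hD : D ∈ Tan z) (y : ι → R) (a : MvPolynomial ι ℂ) :
    D (MvPolynomial.aeval y a) = Qt.dd (fun J => z (y J)) (fun J => D (y J)) a := by
  classical
  induction a using MvPolynomial.induction_on with
  | C c =>
    have h1 : D 1 = 0 := by
      have : D (1 * 1) = _ := hD 1 1
      rw [mul_one, map_one z, one_mul] at this
      exact left_eq_add.1 this
    rw [MvPolynomial.aeval_C, Algebra.algebraMap_eq_smul_one, map_smul, h1, smul_zero]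
    simp [Qt.dd]
  | add a b ha hb =>
    rw [map_add, map_add, ha, hb]
    simp only [Qt.dd, map_add, mul_add, Finset.sum_add_distrib]
  | mul_X a i ha =>
    have e : z (MvPolynomial.aeval y a) = MvPolynomial.eval (fun J => z (y J)) a := by
      rw [← AlgHom.comp_apply, MvPolynomial.comp_aeval, MvPolynomial.aeval_eq_eval]
    rw [map_mul, hD, MvPolynomial.aeval_X, ha, e]
    simp only [Qt.dd, Derivation.leibniz, MvPolynomial.pderiv_X, smul_eq_mul, map_add, map_mul,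
      MvPolynomial.eval_X, mul_add, Finset.sum_add_distrib, Finset.mul_sum, Pi.single_apply,
      apply_ite (MvPolynomial.eval fun J => z (y J)), map_one, map_zero, mul_ite, mul_one, mul_zero,
      Finset.sum_ite_eq, Finset.mem_univ, if_true]
    rw [mul_comm]
    exact congrArg _ (Finset.sum_congr rfl fun J _ => by ring)

theorem mem_TG {R : Type} [CommRing R] [Algebra ℂ R] (z : R →ₐ[ℂ] ℂ) {D : R →ₗ[ℂ] ℂ}
    (hD : D ∈ Tan z) {y : (Fin r → B) → R} (hy : Rel y) :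
    (fun J => D (y J)) ∈ TG r B fun J => z (y J) := fun a ha => by
  have h : MvPolynomial.aeval y a = 0 :=
    (le_ker_iff (MvPolynomial.aeval y : _ →ₐ[ℂ] R).toRingHom).2 (by simpa using hy) a ha
  rw [← dd_eq z hD, h, map_zero]

open TrivSqZeroExt

theorem snd_tan : sndHom ℂ ℂ ∈ Tan (fstHom ℂ ℂ ℂ) := fun a b => by simp [mul_comm]

/-- the point with values in the dual numbers -/
def du {ι : Type} (p τ : ι → ℂ) (J : ι) : DualNumber ℂ := (p J, τ J)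

theorem fst_du {ι : Type} (p τ : ι → ℂ) (J : ι) : (du p τ J).fst = p J := rfl

theorem snd_du {ι : Type} (p τ : ι → ℂ) (J : ι) : (du p τ J).snd = τ J := rfl

theorem rel_du (h : Rel p) (hτ : τ ∈ TG r B p) : Rel (du p τ) := by
  have := (le_ker_iff (MvPolynomial.aeval (du p τ) : _ →ₐ[ℂ] DualNumber ℂ).toRingHom).1
    fun a ha => TrivSqZeroExt.ext
      ((le_ker_iff ((fstHom ℂ ℂ ℂ).comp (MvPolynomial.aeval (du p τ))).toRingHom).2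
        (by simpa [fst_du] using h) a ha) ((dd_eq _ snd_tan (du p τ) a).trans (hτ a ha))
  simpa using this

/-- a row moves by `φ` modulo `U` -/
def Rw (U : Submodule ℂ (B → ℂ)) (φ : (B → ℂ) →ₗ[ℂ] (B → ℂ)) (v : B → DualNumber ℂ) : Prop :=
  (fun i => (v i).fst) ∈ U ∧ (fun i => (v i).snd) - φ (fun i => (v i).fst) ∈ U

theorem Rw.smul {U : Submodule ℂ (B → ℂ)} {φ : (B → ℂ) →ₗ[ℂ] (B → ℂ)} {v : B → DualNumber ℂ}
    (h : Rw U φ v) (t : DualNumber ℂ) : Rw U φ fun i => t * v i := by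
  have e1 : (fun i => (t * v i).fst) = t.fst • fun i => (v i).fst := funext fun i => fst_mul _ _
  have e2 : (fun i => (t * v i).snd) = t.fst • (fun i => (v i).snd) + t.snd • fun i => (v i).fst :=
    funext fun i => by simp [mul_comm]
  refine ⟨e1 ▸ U.smul_mem _ h.1, ?_⟩
  rw [e1, e2, map_smul, add_sub_right_comm, ← smul_sub]
  exact U.add_mem (U.smul_mem _ h.2) (U.smul_mem _ h.1)

theorem Rw.sum {U : Submodule ℂ (B → ℂ)} {φ : (B → ℂ) →ₗ[ℂ] (B → ℂ)}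
    {v : Fin r → B → DualNumber ℂ} (h : ∀ a, Rw U φ (v a)) : Rw U φ fun i => ∑ a, v a i := by
  have e1 : (fun i => (∑ a, v a i).fst) = ∑ a, fun i => (v a i).fst :=
    funext fun i => by rw [fst_sum, Finset.sum_apply]
  have e2 : (fun i => (∑ a, v a i).snd) = ∑ a, fun i => (v a i).snd :=
    funext fun i => by rw [snd_sum, Finset.sum_apply]
  refine ⟨e1 ▸ U.sum_mem fun a _ => (h a).1, ?_⟩
  rw [e1, e2, map_sum, ← Finset.sum_sub_distrib]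
  exact U.sum_mem fun a _ => (h a).2

theorem exists_rows (h : Rel p) (n : p ≠ 0) (hτ : τ ∈ TG r B p) {φ : (B → ℂ) →ₗ[ℂ] (B → ℂ)}
    (m : Mov p τ φ) : ∃ (t : DualNumber ℂ) (u : Fin r → B → DualNumber ℂ),
      du p τ = (fun J => t * plk u J) ∧ ∀ a, Rw (sub p) φ (u a) := by
  obtain ⟨J, hJ⟩ := Function.ne_iff.1 n
  obtain ⟨s, hs⟩ := (isUnit_iff_isUnit_fst.2 (Ne.isUnit hJ) : IsUnit (du p τ J)).exists_left_inv
  exact ⟨_, _, funext ((rel_du h hτ).eq_plk hs), fun a =>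
    Rw.smul (v := vc (du p τ) J a) ⟨vec_mem p (J, a), m (J, a)⟩ s⟩

theorem du_wed : du (wed σ p₁ p₂) (dwed σ p₁ p₂ τ₁ τ₂) = wed σ (du p₁ τ₁) (du p₂ τ₂) :=
  funext fun J => by
    rcases wed_cases σ J with h | ⟨ε, J₁, J₂, -, h⟩
    · rw [du, dwed, h, h, h, h, add_zero]
      rfl
    · refine TrivSqZeroExt.ext ?_ ?_
      · simp [h, fst_du]
      · simp [h, dwed, fst_du, snd_du]
        ring

theorem dwed_mem (hG : Qt.GRT) (h₁ : Rel p₁) (h₂ : Rel p₂) (n₁ : p₁ ≠ 0) (n₂ : p₂ ≠ 0)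
    (t₁ : τ₁ ∈ TG r₁ B₁ p₁) (t₂ : τ₂ ∈ TG r₂ B₂ p₂) {φ₁ : (B₁ → ℂ) →ₗ[ℂ] (B₁ → ℂ)}
    {φ₂ : (B₂ → ℂ) →ₗ[ℂ] (B₂ → ℂ)} (m₁ : Mov p₁ τ₁ φ₁) (m₂ : Mov p₂ τ₂ φ₂) :
    dwed σ p₁ p₂ τ₁ τ₂ ∈ TG r (B₁ ⊕ B₂) (wed σ p₁ p₂) ∧
      Mov (wed σ p₁ p₂) (dwed σ p₁ p₂ τ₁ τ₂) (dsum φ₁ φ₂) := by
  obtain ⟨s₁, u₁, e₁, a₁⟩ := exists_rows h₁ n₁ t₁ m₁
  obtain ⟨s₂, u₂, e₂, a₂⟩ := exists_rows h₂ n₂ t₂ m₂
  have e : du (wed σ p₁ p₂) (dwed σ p₁ p₂ τ₁ τ₂) = fun J => s₁ * s₂ * plk (blk σ u₁ u₂) J := by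
    rw [du_wed, e₁, e₂]
    exact funext (wed_plk σ s₁ s₂ u₁ u₂)
  have a : ∀ c, Rw (sub (wed σ p₁ p₂)) (dsum φ₁ φ₂) (blk σ u₁ u₂ c) := fun c => by
    obtain ⟨x, rfl⟩ := σ.surjective c
    rcases x with c | c
    · rw [blk_inl]
      refine ⟨(mem_sub_wed σ h₁ h₂ n₁ n₂ _).2 ⟨(a₁ c).1, zero_mem _⟩,
        (mem_sub_wed σ h₁ h₂ n₁ n₂ _).2 ⟨(a₁ c).2, ?_⟩⟩
      change 0 - φ₂ 0 ∈ _
      rw [map_zero, sub_zero]
      exact zero_mem _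
    · rw [blk_inr]
      refine ⟨(mem_sub_wed σ h₁ h₂ n₁ n₂ _).2 ⟨zero_mem _, (a₂ c).1⟩,
        (mem_sub_wed σ h₁ h₂ n₁ n₂ _).2 ⟨?_, (a₂ c).2⟩⟩
      change 0 - φ₁ 0 ∈ _
      rw [map_zero, sub_zero]
      exact zero_mem _
  refine ⟨mem_TG _ snd_tan (y := du (wed σ p₁ p₂) (dwed σ p₁ p₂ τ₁ τ₂)) (e ▸ rel_plk _ _),
    fun s => ?_⟩
  have : Rw (sub (wed σ p₁ p₂)) (dsum φ₁ φ₂)
      (vc (du (wed σ p₁ p₂) (dwed σ p₁ p₂ τ₁ τ₂)) s.1 s.2) := by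
    rw [e, funext (vc_plk _ _ s.1 s.2)]
    exact Rw.sum fun c => (a c).smul _
  exact this.2

theorem exists_dwed (hG : Qt.GRT) (h₁ : Rel p₁) (h₂ : Rel p₂) (n₁ : p₁ ≠ 0) (n₂ : p₂ ≠ 0)
    {τ : (Fin r → B₁ ⊕ B₂) → ℂ} (hτ : τ ∈ TG r (B₁ ⊕ B₂) (wed σ p₁ p₂))
    (hw : ∀ J, cnt J ≠ r₂ → τ J = 0) :
    ∃ τ₁ ∈ TG r₁ B₁ p₁, ∃ τ₂ ∈ TG r₂ B₂ p₂, τ = dwed σ p₁ p₂ τ₁ τ₂ := by
  have hq := h₁.wed σ h₂
  have nq := wed_ne σ h₁ h₂ n₁ n₂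
  obtain ⟨φ, m⟩ := exists_mov hG hq nq hτ
  let φ₁ := LinearMap.funLeft ℂ ℂ Sum.inl ∘ₗ φ ∘ₗ in₁ B₁ B₂
  let φ₂ := LinearMap.funLeft ℂ ℂ Sum.inr ∘ₗ φ ∘ₗ in₂ B₁ B₂
  have m' : Mov (wed σ p₁ p₂) τ (dsum φ₁ φ₂) := fun s => by
    have h0 := (mem_sub_wed σ h₁ h₂ n₁ n₂ _).1 (m s)
    have e := in_add (Qt.vec (wed σ p₁ p₂) s)
    refine (mem_sub_wed σ h₁ h₂ n₁ n₂ _).2 ?_
    rcases vc_side (w := r₂) s.1 s.2 with h | h
    · have e1 : (fun i => Qt.vec (wed σ p₁ p₂) s (.inl i)) = 0 :=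
        funext (h _ fun J => wed_cnt σ p₁ p₂)
      have e2 : (fun i => Qt.vec τ s (.inl i)) = 0 := funext (h τ hw)
      rw [e1, map_zero, zero_add] at e
      refine ⟨?_, ?_⟩
      · change (fun i => Qt.vec τ s (.inl i)) - φ₁ (fun i => Qt.vec (wed σ p₁ p₂) s (.inl i)) ∈ _
        rw [e1, e2, map_zero, sub_zero]
        exact zero_mem _
      · change (fun i => Qt.vec τ s (.inr i)) - LinearMap.funLeft ℂ ℂ Sum.inr
          (φ (in₂ B₁ B₂ fun i => Qt.vec (wed σ p₁ p₂) s (.inr i))) ∈ _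
        rw [e]
        exact h0.2
    · have e1 : (fun i => Qt.vec (wed σ p₁ p₂) s (.inr i)) = 0 :=
        funext (h _ fun J => wed_cnt σ p₁ p₂)
      have e2 : (fun i => Qt.vec τ s (.inr i)) = 0 := funext (h τ hw)
      rw [e1, map_zero, add_zero] at e
      refine ⟨?_, ?_⟩
      · change (fun i => Qt.vec τ s (.inl i)) - LinearMap.funLeft ℂ ℂ Sum.inl
          (φ (in₁ B₁ B₂ fun i => Qt.vec (wed σ p₁ p₂) s (.inl i))) ∈ _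
        rw [e]
        exact h0.1
      · change (fun i => Qt.vec τ s (.inr i)) - φ₂ (fun i => Qt.vec (wed σ p₁ p₂) s (.inr i)) ∈ _
        rw [e1, e2, map_zero, sub_zero]
        exact zero_mem _
  obtain ⟨τ₁, t₁, m₁⟩ := exists_TG hG h₁ n₁ φ₁
  obtain ⟨τ₂, t₂, m₂⟩ := exists_TG hG h₂ n₂ φ₂
  obtain ⟨b1, b2⟩ := dwed_mem σ hG h₁ h₂ n₁ n₂ t₁ t₂ m₁ m₂
  obtain ⟨t, ht⟩ := TG_rad hG hq nq (sub_mem hτ b1) fun s => by
    have := sub_mem (m' s) (b2 s)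
    rwa [sub_sub_sub_cancel_right] at this
  refine ⟨τ₁ + t • p₁, add_mem t₁ (Submodule.smul_mem _ _ (self_mem_TG hG h₁ n₁)), τ₂, t₂, ?_⟩
  rw [sub_eq_iff_eq_add.1 ht]
  funext J
  rw [dwed, wed_add_left, wed_smul_left, Pi.add_apply, Pi.add_apply, dwed]
  ring

theorem dwed_rad (hG : Qt.GRT) (h₁ : Rel p₁) (h₂ : Rel p₂) (n₁ : p₁ ≠ 0) (n₂ : p₂ ≠ 0)
    (t₁ : τ₁ ∈ TG r₁ B₁ p₁) (t₂ : τ₂ ∈ TG r₂ B₂ p₂) {s : ℂ}
    (e : dwed σ p₁ p₂ τ₁ τ₂ = s • wed σ p₁ p₂) :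
    ∃ a b : ℂ, τ₁ = a • p₁ ∧ τ₂ = b • p₂ ∧ a + b = s := by
  have h : ∀ J₁ J₂, τ₁ J₁ * p₂ J₂ + p₁ J₁ * τ₂ J₂ = s * (p₁ J₁ * p₂ J₂) := fun J₁ J₂ => by
    have := congrFun e (cat σ J₁ J₂)
    rwa [dwed, wed_cat σ (TG_alt hG h₁ n₁ t₁) h₂.alt, wed_cat σ h₁.alt (TG_alt hG h₂ n₂ t₂),
      Pi.smul_apply, wed_cat σ h₁.alt h₂.alt] at this
  obtain ⟨J₁, e₁⟩ := Function.ne_iff.1 n₁
  obtain ⟨J₂, e₂⟩ := Function.ne_iff.1 n₂
  have e₂' : p₂ J₂ * (p₂ J₂)⁻¹ = 1 := mul_inv_cancel₀ e₂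
  have h1 : ∀ J, τ₁ J = (s - τ₂ J₂ * (p₂ J₂)⁻¹) * p₁ J := fun J => by
    linear_combination (p₂ J₂)⁻¹ * h J J₂ - (τ₁ J - s * p₁ J) * e₂'
  refine ⟨_, τ₂ J₂ * (p₂ J₂)⁻¹, funext h1, funext fun J => mul_left_cancel₀ e₁ ?_, by ring⟩
  rw [Pi.smul_apply, smul_eq_mul]
  linear_combination h J₁ J - p₂ J * h1 J₁

end field

end Plk

end Vale.Agent.P297Z
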